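import Vale.Agent.P297Z.Quot.Defs2
import Vale.Agent.P297Z.K.AK4
import Vale.Agent.P297Z.K.PK0

/-!
# P297: the blocks of the construction of the Quot space and of its obstruction theory
-/

set_option linter.all false

open scoped TensorProduct
open Filter

noncomputable section

namespace Vale.Agent.P297Z.Qt

/-! ### Modules on the surface -/

/-- a sum of twists of the structure module -/
abbrev Fr {Y : Spc} {ι : Type} [Fintype ι] (δ : ι → Y.J → ℤ) : GMod Y :=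
  GMod.pi fun i => (GMod.one Y).shift (-δ i)

/-- basic facts on graded modules -/
structure Bas {Y : Spc} (S : Sur Y) : Prop where
  proj : Y.IsProj
  fin : ∀ (M : GMod Y) (k : ℤ), Module.Finite ℂ (M.wt (dg Y k))
  low : ∀ M : GMod Y, ∃ j, Low M j
  zero : ∀ M : GMod Y, (∀ y : Y.Pt, ZeroAt y.1 M.M) → ∀ᶠ k in atTop, M.wt (dg Y k) = ⊥
  kos : ∀ d : ℕ, 0 < d → ∀ M : GMod Y, ∀ᶠ k in atTop, KosEx (S.xp d) d M k
  hq_quo : ∀ (V : GMod Y) (E : Submodule Y.R V.M) (h : V.Stab E) (k : ℤ),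
    hq V E k = Module.finrank ℂ ((V.quo E h).wt (dg Y k))
  sat_sat : ∀ (V : GMod Y) (E : Submodule Y.R V.M), V.Stab E → S.Sat V (S.sat V E)
  le_sat : ∀ (V : GMod Y) (E : Submodule Y.R V.M), E ≤ S.sat V E
  sat_eq : ∀ (V : GMod Y) (E : Submodule Y.R V.M), S.Sat V E → S.sat V E = E
  sat_ev : ∀ (V : GMod Y) (E : Submodule Y.R V.M), V.Stab E →
    ∀ᶠ k in atTop, ∀ v ∈ V.wt (dg Y k), v ∈ S.sat V E → v ∈ E
  sat_congr : ∀ (V : GMod Y) (E E' : Submodule Y.R V.M), V.Stab E → V.Stab E' →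
    (∀ᶠ k in atTop, ∀ v ∈ V.wt (dg Y k), v ∈ E → v ∈ E') → S.sat V E ≤ S.sat V E'
  ext_ev : ∀ B G : GMod Y, (∀ y : Y.Pt, ∃ r, FreeAt y.1 B.M r) → ∀ᶠ k in atTop, Ext1 B G k
  ext_fr : ∀ (ι : Type) [Fintype ι] (δ : ι → Y.J → ℤ) (G : GMod Y) (k : ℤ), Ext1 (Fr δ) G k
  ext_of : ∀ (B G : GMod Y) (k : ℤ) (ι : Type) [Fintype ι] (δ : ι → Y.J → ℤ)
    (π : (Fr δ).M →ₗ[Y.R] B.M) (h : (Fr δ).IsHom B π), Function.Surjective π →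
    (∀ φ ∈ (((Fr δ).sub _ h.stab_ker).hom G).wt (dg Y k), ∃ ψ ∈ ((Fr δ).hom G).wt (dg Y k),
      ∀ a : LinearMap.ker π, ap ψ a.1 = ap φ a) → Ext1 B G k
  cover : ∀ (B : GMod Y) (j : ℤ), Low B j → ∃ (n : ℕ) (a : Fin n → ℤ)
    (π : (Fr fun i => dg Y (a i)).M →ₗ[Y.R] B.M), (∀ i, j ≤ a i) ∧
    (Fr fun i => dg Y (a i)).IsHom B π ∧ Function.Surjective π
  low_fr : ∀ (ι : Type) [Fintype ι] (a : ι → ℤ) (j : ℤ), (∀ i, j ≤ a i) →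
    Low (Fr fun i => dg Y (a i)) j
  chi : ∀ M M' : GMod Y, (∀ᶠ k in atTop, Module.finrank ℂ (M.wt (dg Y k)) =
    Module.finrank ℂ (M'.wt (dg Y k))) → chiG Y (cls M) = chiG Y (cls M')

def BAS : Prop := ∀ (Y : Spc) (S : Sur Y), Bas S

/-- a regular pair makes the Koszul complex exact -/
def KOSP : Prop := ∀ (Y : Spc) (S : Sur Y) (M : GMod Y) (m : ℤ),
  ∀ h₀ ∈ Submodule.span ℂ (Set.range S.x), ∀ h₁ ∈ Submodule.span ℂ (Set.range S.x),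
    Pair M m h₀ h₁ → ∀ j, m ≤ j → KosEx S.x 1 M j

/-- the uniform bound of the regularity -/
def REGB : Prop := BAS → KOSP → ∀ (Y : Spc) (S : Sur Y) (V : GMod Y) (l : ℕ) (c : ℤ),
  ∃ m₀, ∀ m, m₀ ≤ m → S.Big V l c m

/-- the vanishing of the Ext module by descending induction -/
def EXK : Prop := BAS → ∀ (Y : Spc) (S : Sur Y) (d : ℕ), 0 < d → ∀ (B G : GMod Y) (j₀ k : ℤ),
  (∀ y : Y.Pt, ∃ r, FreeAt y.1 B.M r) → Low B j₀ → (∀ j, j₀ + k ≤ j → Dep (S.xp d) d G j) →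
  (∀ n : ℕ, KosEx (S.xp d) d (B.hom G) (k + n * d)) → Ext1 B G k

/-- a regular pair for the homomorphisms from the relations -/
def H1 : Prop := BAS → ∀ (Y : Spc) (S : Sur Y) (ι : Type) [Fintype ι] (a : ι → ℤ) (m : ℤ)
  (V F : GMod Y) (u : (Fr fun i => dg Y (a i)).M →ₗ[Y.R] V.M)
  (hu : (Fr fun i => dg Y (a i)).IsHom V u) (h₀ h₁ : Y.R), (∀ i, m ≤ a i) →
  h₀ ∈ Y.wt (dg Y 1) → h₁ ∈ Y.wt (dg Y 1) → Pair F m h₀ h₁ →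
  Pair ((Fr fun i => dg Y (a i)).hom F) 0 h₀ h₁ ∧
  ((∀ y : Y.Pt, y.1 h₀ = 0 → ∃ r, FreeAt y.1 (LinearMap.range u) r) →
    Pair (((Fr fun i => dg Y (a i)).sub _ hu.stab_ker).hom F) 0 h₀ h₁)

/-! ### The Grassmannian -/

/-- the tangent vectors of the zero set of an ideal -/
def Tq {ι : Type} [Fintype ι] (I : Ideal (MvPolynomial ι ℂ)) (q : ι → ℂ) : Set (ι → ℂ) :=
  {τ | ∀ a ∈ I, dd q τ a = 0}

/-- the infinitesimal structure of the cone over the Grassmannian -/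
structure Grt (r : ℕ) (β : Type) [Fintype β] [DecidableEq β] (q : (Fin r → β) → ℂ) : Prop where
  loc : ∀ a ∈ Plk.IPl ℂ r β, (∀ J, MvPolynomial.eval q (MvPolynomial.pderiv J a) = 0) →
    ∃ s, MvPolynomial.eval q s ≠ 0 ∧ s * a ∈ RingHom.ker (MvPolynomial.eval q) * Plk.IPl ℂ r β
  tan1 : ∀ τ ∈ Tq (Plk.IPl ℂ r β) q, ∃ (t : ℂ) (φ : (β → ℂ) →ₗ[ℂ] (β → ℂ)),
    (∀ J, τ J = t * q J + ∑ c, φ (vec q (J, c)) (J c)) ∧
      ∀ s, vec τ s - φ (vec q s) ∈ Plk.sub q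
  tan2 : ∀ (t : ℂ) (φ : (β → ℂ) →ₗ[ℂ] (β → ℂ)) (τ : (Fin r → β) → ℂ),
    (∀ J, τ J = t * q J + ∑ c, φ (vec q (J, c)) (J c)) →
      τ ∈ Tq (Plk.IPl ℂ r β) q ∧ ∀ s, vec τ s - φ (vec q s) ∈ Plk.sub q
  rad : ∀ τ ∈ Tq (Plk.IPl ℂ r β) q, (∀ s, vec τ s ∈ Plk.sub q) → ∃ t : ℂ, ∀ J, τ J = t * q J
  dim : ∀ V : Submodule ℂ ((Fin r → β) → ℂ), (V : Set _) = Tq (Plk.IPl ℂ r β) q →
    Module.finrank ℂ V + r * r = r * Fintype.card β + 1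
  minor : ∀ (s : Fin (r + 1) → (Fin r → β) × Fin r) (i : Fin (r + 1) → β),
    ∃ ρ, MvPolynomial.eval q ρ ≠ 0 ∧
      ρ * (Matrix.of fun u t => vec MvPolynomial.X (s u) (i t)).det ∈ Plk.IPl ℂ r β

def GRT : Prop := ∀ (r : ℕ) (β : Type) [Fintype β] [DecidableEq β] (q : (Fin r → β) → ℂ),
  Plk.Rel q → (∃ J, q J ≠ 0) → Grt r β q

/-! ### The points -/

/-- the points of the Quot space -/
structure Pts {Y : Spc} (S : Sur Y) (D : Dat Y) : Prop where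
  stabP : (GMod.one D.Pol).Stab D.IP
  stabI : (GMod.one D.Pol).Stab D.I
  stab : D.Pol.Stab D.VI
  clo : D.Pol.Clo D.VI
  co_ne : ∀ z : D.Pol.Pt, ∃ J, D.co z J ≠ 0
  exists_pt : ∀ q : D.Ix → ℂ, (∃ J, q J ≠ 0) → ∃ z : D.Pol.Pt, D.co z = q
  mem : ∀ z : D.Pol.Pt, z ∈ D.VI ↔ D.Pt (D.co z)
  deg_m : ∀ q, Plk.Rel q → ∀ v ∈ D.V.wt (dg Y D.m),
    v ∈ D.gen q ↔ v ∈ (Plk.sub q).map (Fintype.linearCombination ℂ D.eV)
  reg : ∀ q, D.Pt q → D.Reg q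
  good : ∀ q, D.Pt q → S.Good D.V D.l D.c (S.sat D.V (D.gen q))
  sat_eq : ∀ q, D.Pt q → ∀ k, D.m ≤ k → ∀ v ∈ D.V.wt (dg Y k), v ∈ S.sat D.V (D.gen q) → v ∈ D.gen q
  surj : ∀ E, S.Good D.V D.l D.c E → ∃ q, D.Pt q ∧ S.sat D.V (D.gen q) = E
  inj : ∀ q q', D.Pt q → D.Pt q' → S.sat D.V (D.gen q) = S.sat D.V (D.gen q') →
    ∃ t : ℂ, t ≠ 0 ∧ ∀ J, q' J = t * q J
  pair : ∀ q, D.Pt q → ∀ s : Finset Y.Pt, ∃ h₀ ∈ Submodule.span ℂ (Set.range S.x),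
    ∃ h₁ ∈ Submodule.span ℂ (Set.range S.x), (∀ y ∈ s, y.1 h₀ ≠ 0) ∧ Pair (D.F0 q) D.m h₀ h₁

def PTS : Prop := BAS → ∀ (Y : Spc) (S : Sur Y) (D : Dat Y), D.Ok S → Pts S D

/-- the vanishing theorems at a point -/
structure Kx {Y : Spc} (S : Sur Y) (D : Dat Y) (q : D.Ix → ℂ) : Prop where
  kosF : ∀ j, D.m ≤ j → KosEx (S.xp 1) (1 : ℕ) (D.F0 q) j
  kosA : ∀ k, 0 ≤ k → KosEx (S.xp 1) (1 : ℕ) (D.Φ0.hom (D.F0 q)) k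
  kosH : ∀ k, 0 ≤ k → KosEx (S.xp 1) (1 : ℕ) ((D.K0' q).hom (D.F0 q)) k
  extA : ∀ k, Ext1 D.Φ0 (D.F0 q) k
  extH : ∀ k, 0 ≤ k → Ext1 (D.K0' q) (D.F0 q) k
  dimA : (Module.finrank ℂ ((D.Φ0.hom (D.F0 q)).wt (dg Y 0)) : ℤ) = Fintype.card D.Sx * D.p D.m

def KX : Prop := BAS → KOSP → EXK → H1 → PTS →
  ∀ (Y : Spc) (S : Sur Y) (D : Dat Y), D.Ok S → ∀ q, D.Pt q → Kx S D q

/-- tangent vectors of the Quot scheme -/
def TAN : Prop := BAS → ∀ (Y : Spc) (S : Sur Y) (D : Dat Y) (q τ : D.Ix → ℂ),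
  (∀ k, D.m ≤ k → hq D.V (D.gen q) k = D.p k) →
  ((∀ a ∈ D.minors, dd q τ a = 0) ↔ ∀ ρ : D.Φ0.M, D.μ0 q ρ = 0 → D.μ0 τ ρ ∈ D.gen q)

/-! ### Families -/

/-- general facts on families -/
structure Fbk {W Y : Spc} (S : Sur Y) (z : W.Pt) : Prop where
  fibK : ∀ (M : GMod (W.prod Y)) M₀ ε, IsFib z M M₀ ε → ∀ k, S.FibK z M M₀ ε k
  isFib : ∀ (M : GMod (W.prod Y)) M₀ ε, IsEv z M M₀ ε → (∀ k, S.FibK z M M₀ ε k) → IsFib z M M₀ ε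
  val_wt : ∀ (M : GMod (W.prod Y)) M₀ ε, IsEv z M M₀ ε → ∀ k m, ε (S.val M k m) ∈ M₀.wt (dg Y k)
  fib : ∀ (M : GMod (W.prod Y)) M₀ ε k, IsEv z M M₀ ε → S.FibK z M M₀ ε k →
    ∃ e : Fib z.1 (S.pc M k).M ≃ₗ[ℂ] M₀.wt (dg Y k),
      ∀ m, (e (Submodule.Quotient.mk m) : M₀.M) = ε (S.val M k m)
  fdim : ∀ (M : GMod (W.prod Y)) M₀ ε k, IsEv z M M₀ ε → S.FibK z M M₀ ε k →
    fdim z.1 (S.pc M k).M = Module.finrank ℂ (M₀.wt (dg Y k))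
  pull : ∀ L : GMod Y, S.Fam z ((Mor.snd W Y).pull L) L (evL z L)
  evS : ∀ (L : GMod Y) (τ : W.J → ℤ),
    S.Fam z (((Mor.snd W Y).pull L).shift (Sum.elim τ 0)) L (evS z L _)
  one : ∀ (γ : W.J → ℤ) (δ : Y.J → ℤ),
    S.Fam z ((GMod.one (W.prod Y)).shift (-Sum.elim γ δ)) ((GMod.one Y).shift (-δ))
      (evR Y z : (W.prod Y).R →+* Y.R).toAddMonoidHom
  pi : ∀ (ι : Type) [Fintype ι] (M : ι → GMod (W.prod Y)) (M₀ : ι → GMod Y)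
    (ε : ∀ i, (M i).M →+ (M₀ i).M), (∀ i, S.Fam z (M i) (M₀ i) (ε i)) →
    S.Fam z (GMod.pi M) (GMod.pi M₀) (piMap ε)
  quo : ∀ (A B : GMod (W.prod Y)) (A₀ B₀ : GMod Y) εA εB (u : A.M →ₗ[(W.prod Y).R] B.M)
    (hu : A.IsHom B u) (u₀ : A₀.M →ₗ[Y.R] B₀.M) (hu₀ : A₀.IsHom B₀ u₀) h,
    IsFib z A A₀ εA → IsFib z B B₀ εB → (∀ a, εB (u a) = u₀ (εA a)) →
    IsFib z (B.quo _ hu.stab_range) (B₀.quo _ hu₀.stab_range)
      (quoE εB hu.stab_range hu₀.stab_range h)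
  ker : ∀ (A B : GMod (W.prod Y)) (A₀ B₀ : GMod Y) εA εB (u : A.M →ₗ[(W.prod Y).R] B.M)
    (hu : A.IsHom B u) (u₀ : A₀.M →ₗ[Y.R] B₀.M) (hu₀ : A₀.IsHom B₀ u₀) h h',
    S.Fam z A A₀ εA → S.Fam z B B₀ εB → (∀ a, εB (u a) = u₀ (εA a)) →
    (∀ k, ∃ r, FreeAt z.1 (S.pc (B.quo _ hu.stab_range) k).M r) →
    S.Fam z (A.sub _ hu.stab_ker) (A₀.sub _ hu₀.stab_ker) (subE εA hu.stab_ker hu₀.stab_ker h) ∧
    S.Fam z (B.sub _ hu.stab_range) (B₀.sub _ hu₀.stab_range)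
      (subE εB hu.stab_range hu₀.stab_range h')
  base : ∀ (X : Spc) (g : Mor W X) (M : GMod (X.prod Y)) M₀ ε, S.Fam (g.onPt z) M M₀ ε →
    ∃ ε', (∀ m, ε' (pl (g.map (Mor.id Y)) M m) = ε m) ∧ S.Fam z ((g.map (Mor.id Y)).pull M) M₀ ε'

def FBK : Prop := BAS → ∀ (W Y : Spc) (S : Sur Y) (z : W.Pt), Fbk S z

/-- a family whose fibre is free at a point is free at that point -/
def FLB : Prop := FBK → BAS → ∀ (W Y : Spc) (S : Sur Y) (w : (W.prod Y).Pt) (M : GMod (W.prod Y))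
  (M₀ : GMod Y) (ε : M.M →+ M₀.M), S.Fam ((Mor.fst W Y).onPt w) M M₀ ε →
  (∀ r, FreeAt ((Mor.snd W Y).onPt w).1 M₀.M r → FreeAt w.1 M.M r) ∧
  ∀ (N : GMod (W.prod Y)) (u : N.M →ₗ[(W.prod Y).R] M.M),
    (∀ v : M₀.M, ∃ n, ε (u n) = v) → SurjAt w.1 u

/-- homomorphisms of families -/
def HB : Prop := FBK → BAS → ∀ (W Y : Spc) (S : Sur Y) (z : W.Pt) (B G : GMod (W.prod Y))
  (B₀ G₀ : GMod Y) (εB : B.M →+ B₀.M) (εG : G.M →+ G₀.M), S.Fam z B B₀ εB → S.Fam z G G₀ εG →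
  ∃ εH : (B.hom G).M →+ (B₀.hom G₀).M, (∀ φ b, ap (εH φ) (εB b) = εG (ap φ b)) ∧
    IsEv z (B.hom G) (B₀.hom G₀) εH ∧
    ∀ k, Ext1 B₀ G₀ k → S.FibK z (B.hom G) (B₀.hom G₀) εH k ∧
      FreeAt z.1 (S.pc (B.hom G) k).M (Module.finrank ℂ ((B₀.hom G₀).wt (dg Y k)))

/-- the dual of the bundle of homomorphisms by generators and relations -/
def HBD : Prop := FBK → BAS → ∀ (W Y : Spc) (S : Sur Y) (z : W.Pt) (B G : GMod (W.prod Y))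
  (B₀ G₀ : GMod Y) (εB : B.M →+ B₀.M) (εG : G.M →+ G₀.M) (k : ℤ),
  S.Fam z B B₀ εB → S.Fam z G G₀ εG → Ext1 B₀ G₀ k →
  (∀ lam : Module.Dual W.R (S.pc (B.hom G) k).M, ∃ (r : W.R) (n : ℕ) (j : Fin n → ℤ)
    (b : ∀ i, (S.pc B (j i)).M) (g : ∀ i, Module.Dual W.R (S.pc G (j i + k)).M),
    z.1 r ≠ 0 ∧ r • lam = ∑ i, S.cf B G (j i) k (b i) (g i)) ∧
  ∀ (N : Type) [AddCommGroup N] [Module W.R N]
    (P : ∀ j, (S.pc B j).M →ₗ[W.R] Module.Dual W.R (S.pc G (j + k)).M →ₗ[W.R] N),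
    (∀ (j j' : ℤ) (b : (S.pc B j).M) (b' : (S.pc B j').M)
      (g : Module.Dual W.R (S.pc G (j + k)).M) (g' : Module.Dual W.R (S.pc G (j' + k)).M),
      ∀ y ∈ Y.wt (dg Y (j' - j)), S.val B j' b' = (Mor.snd W Y).φ y • S.val B j b →
      (∀ v v', S.val G (j' + k) v' = (Mor.snd W Y).φ y • S.val G (j + k) v → g v = g' v') →
      P j' b' g' = P j b g) →
    ∀ (n : ℕ) (j : Fin n → ℤ) (b : ∀ i, (S.pc B (j i)).M)
      (g : ∀ i, Module.Dual W.R (S.pc G (j i + k)).M), ∑ i, S.cf B G (j i) k (b i) (g i) = 0 →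
      ∃ r, z.1 r ≠ 0 ∧ r • ∑ i, P (j i) (b i) (g i) = 0

/-- the class of a part is the push-forward -/
def CLS : Prop := FBK → BAS → ∀ (W Y : Spc) (S : Sur Y), W.Cn → ∀ d : ℕ, 0 < d →
  ∀ (M : GMod (W.prod Y)) (n : ℕ) (x : K0 (W.prod Y)) (k : ℤ), Res n M x →
  (∀ z : W.Pt, ∃ (M₀ : GMod Y) (ε : M.M →+ M₀.M), IsEv z M M₀ ε ∧ ∀ i : ℕ,
    S.FibK z M M₀ ε (k + i * d) ∧ (∃ r, FreeAt z.1 (S.pc M (k + i * d)).M r) ∧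
      KosEx (S.xp d) d M₀ (k + i * d)) →
  ∀ r, (S.pc M k).IsBun r → kc (S.pc M k) r = pK W Y (x * line (W.prod Y) (Sum.elim (0 : W.J → ℤ) (dg Y k)))

/-- resolutions of the modules of homomorphisms from a bundle -/
def RESH : Prop := ∀ (X : Spc) (B G : GMod X) (b n : ℕ) (x : K0 X), B.IsBun b → Res n G x →
  Res n (B.hom G) (dualK X (kc B b) * x)

/-- base change for the bundles of homomorphisms -/
def BCH : Prop := FBK → HB → BAS → ∀ (W W' Y : Spc) (S : Sur Y) (g : Mor W' W)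
  (B G : GMod (W.prod Y)) (B' G' : GMod (W'.prod Y)) (uB : B.M →+ B'.M) (uG : G.M →+ G'.M)
  (k : ℤ) (n : ℕ), Over g B B' uB → Over g G G' uG →
  (∀ z : W'.Pt, ∃ (B₀ G₀ : GMod Y) (εB : B.M →+ B₀.M) (εG : G.M →+ G₀.M) (εB' : B'.M →+ B₀.M)
    (εG' : G'.M →+ G₀.M), S.Fam (g.onPt z) B B₀ εB ∧ S.Fam (g.onPt z) G G₀ εG ∧
    S.Fam z B' B₀ εB' ∧ S.Fam z G' G₀ εG' ∧ (∀ b, εB' (uB b) = εB b) ∧ (∀ v, εG' (uG v) = εG v) ∧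
    Ext1 B₀ G₀ k) →
  (S.pc (B.hom G) k).IsBun n →
  (S.pc (B'.hom G') k).IsBun n ∧ pullK g (kc (S.pc (B.hom G) k) n) = kc (S.pc (B'.hom G') k) n

/-- the universal families -/
structure Fm {W Y : Spc} (S : Sur Y) {D : Dat Y} (c : D.Crd W) : Prop where
  fΦ : ∀ z, S.Fam z c.Φ D.Φ0 (c.εΦ z)
  fV : ∀ z, S.Fam z c.VV D.V (c.εV z)
  fK : ∀ z, S.Fam z c.K1 (D.K0' (c.cz z)) (c.εK z)
  fE : ∀ z, S.Fam z c.E (D.E0 (c.cz z)) (c.εE z)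
  fF : ∀ z, S.Fam z c.F (D.F0 (c.cz z)) (c.εF z)
  bF : ∀ k, D.m ≤ k → (S.pc c.F k).IsBun (D.p k).toNat
  bE : ∀ k, D.m ≤ k →
    (S.pc c.E k).IsBun ((Module.finrank ℂ (D.V.wt (dg Y k)) : ℤ) - D.p k).toNat
  bΦ : c.Φ.IsBun (Fintype.card D.Sx)
  bV : c.VV.IsBun D.ρ
  bK0 : ∀ z, (D.K0' (c.cz z)).IsBun D.rK
  bK : c.K1.IsBun D.rK
  rk : Nonempty W.Pt → D.rK + D.ρ = Fintype.card D.Sx
  resE : Res 1 c.E c.eK
  isRes : IsRes c.E c.eK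
  resF : Res 2 c.F (c.vK - c.eK)
  kΦ : kc c.Φ (Fintype.card D.Sx) = ∑ s, line _ (-c.ds s)
  kV : c.vK = ∑ a, pullK (Mor.fst W Y) (line W (c.τ a)) * pullK (Mor.snd W Y) (D.L a).cls

def FAM : Prop := FBK → FLB → BAS → ∀ (W Y : Spc) (S : Sur Y) (D : Dat Y) (c : D.Crd W),
  (∀ z, D.Reg (c.cz z)) → Fm S c

/-- the universal families and base change -/
structure Nat' {W W' Y : Spc} {D : Dat Y} (c : D.Crd W) (g : Mor W' W) : Prop where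
  oΦ : Over g c.Φ (c.pull g).Φ (c.uΦ g)
  oV : Over g c.VV (c.pull g).VV (c.uV g)
  oK : Over g c.K1 (c.pull g).K1 (c.uK g)
  oE : Over g c.E (c.pull g).E (c.uE g)
  oF : Over g c.F (c.pull g).F (c.uF g)
  εΦ : ∀ z a, (c.pull g).εΦ z (c.uΦ g a) = c.εΦ (g.onPt z) a
  εV : ∀ z a, (c.pull g).εV z (c.uV g a) = c.εV (g.onPt z) a
  εK : ∀ z a, (c.pull g).εK z (c.uK g a) = c.εK (g.onPt z) a
  εE : ∀ z a, (c.pull g).εE z (c.uE g a) = c.εE (g.onPt z) a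
  εF : ∀ z a, (c.pull g).εF z (c.uF g a) = c.εF (g.onPt z) a
  vK : pullK (g.map (Mor.id Y)) c.vK = (c.pull g).vK
  kΦ : pullK (g.map (Mor.id Y)) (kc c.Φ (Fintype.card D.Sx)) = kc (c.pull g).Φ (Fintype.card D.Sx)
  kK : ∀ S : Sur Y, (∀ z, D.Reg (c.cz z)) →
    pullK (g.map (Mor.id Y)) (kc c.K1 D.rK) = kc (c.pull g).K1 D.rK
  eK : ∀ S : Sur Y, (∀ z, D.Reg (c.cz z)) → pullK (g.map (Mor.id Y)) c.eK = (c.pull g).eK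

def NAT : Prop := FBK → FLB → FAM → BAS → ∀ (W W' Y : Spc) (D : Dat Y) (c : D.Crd W)
  (g : Mor W' W), Nat' c g

/-- the classes of the two bundles of homomorphisms -/
structure Hcl {W Y : Spc} (S : Sur Y) {D : Dat Y} (c : D.Crd W) : Prop where
  bA : (c.A S).IsBun (Fintype.card D.Sx * (D.p D.m).toNat)
  fH : ∀ z, FreeAt z.1 (c.H S).M (D.hd (c.cz z))
  kA : W.Cn → kc (c.A S) (Fintype.card D.Sx * (D.p D.m).toNat) =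
    pK W Y (dualK _ (kc c.Φ (Fintype.card D.Sx)) * (c.vK - c.eK))
  kH : W.Cn → ∀ z, (c.H S).IsBun (D.hd (c.cz z)) ∧
    kc (c.H S) (D.hd (c.cz z)) = pK W Y (dualK _ (kc c.K1 D.rK) * (c.vK - c.eK))
  hdk : W.Cn → ∀ z, (D.hd (c.cz z) : ℤ) =
    Fintype.card D.Sx * D.p D.m - rk W (pK W Y (dualK _ c.eK * (c.vK - c.eK)))

def HCL : Prop := FBK → FLB → FAM → HB → CLS → RESH → BAS → KOSP → EXK → H1 → PTS → KX →
  ∀ (W Y : Spc) (S : Sur Y) (D : Dat Y) (c : D.Crd W), D.Ok S → (∀ z, D.Pt (c.cz z)) → Hcl S c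

/-- a set of points cut out by numerical conditions -/
structure Num {Y : Spc} (D : Dat Y) (Z : Set D.Pol.Pt) : Prop where
  sub : Z ⊆ D.VI
  num : ∀ z ∈ Z, ∀ z' ∈ D.VI, D.hd (D.co z') = D.hd (D.co z) →
    (∀ b, D.tau b (D.co z') = D.tau b (D.co z)) → z' ∈ Z

/-- the numerical invariants are locally constant -/
def CUT : Prop := FBK → FLB → FAM → HB → BAS → KOSP → EXK → H1 → PTS → KX →
  ∀ (Y : Spc) (S : Sur Y) (D : Dat Y), D.Ok S →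
  (∀ (W : Spc) (c : D.Crd W), IsDomain W.R → (∀ z, D.Pt (c.cz z)) → ∀ z z',
    D.hd (c.cz z) = D.hd (c.cz z') ∧ ∀ b, D.tau b (c.cz z) = D.tau b (c.cz z')) ∧
  ∀ Z, Num D Z → D.Pol.Stab Z ∧ D.Pol.Clo Z ∧
    ∀ z, z ∉ Z → ∃ a, z.1 a ≠ 0 ∧ ∀ z' ∈ Z, ∃ r, z'.1 r ≠ 0 ∧ r * a ∈ D.I

/-! ### The obstruction theory -/

/-- a map of constant rank modulo an ideal -/
structure Blk {P A B : Type} [CommRing P] [Algebra ℂ P] [AddCommGroup A] [Module P A]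
    [AddCommGroup B] [Module P B] (z : P →ₐ[ℂ] ℂ) (μ : A →ₗ[P] B) (n : ℕ) (I : Ideal P) :
    Prop where
  ker : ∀ J : Ideal P, I ≤ J → ∀ a, μ a ∈ J • (⊤ : Submodule P B) →
    ∃ r κ, z r ≠ 0 ∧ μ κ ∈ I • (⊤ : Submodule P B) ∧ r • a - κ ∈ J • (⊤ : Submodule P A)
  cok : ∀ J : Ideal P, I ≤ J → ∀ g : Module.Dual P B, (∀ a, g (μ a) ∈ J) →
    ∃ (r : P) (g' : Module.Dual P B), z r ≠ 0 ∧ (∀ a, g' (μ a) ∈ I) ∧ ∀ b, r * g b - g' b ∈ J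
  ind : ∀ J : Ideal P, I ≤ J → ∀ (κ : A) (g : Module.Dual P B), μ κ ∈ I • (⊤ : Submodule P B) →
    κ ∈ J • (⊤ : Submodule P A) → (∀ a, g (μ a) ∈ I) → ∃ r, z r ≠ 0 ∧ r * g (μ κ) ∈ J * I
  gen : ∀ n', n < n' → ∀ (a : Fin n' → A) (g : Fin n' → Module.Dual P B), ∃ r, z r ≠ 0 ∧
    r * (Matrix.of fun u t => g t (μ (a u))).det ∈ Ideal.span {f | ∃ (κ : A) (g' : Module.Dual P B),
      μ κ ∈ I • (⊤ : Submodule P B) ∧ (∀ a, g' (μ a) ∈ I) ∧ f = g' (μ κ)}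

def BLK : Prop := ∀ (P A B : Type) [CommRing P] [Algebra ℂ P] [AddCommGroup A] [Module P A]
  [AddCommGroup B] [Module P B] [Module ℂ A] [IsScalarTower ℂ P A] [Module ℂ B]
  [IsScalarTower ℂ P B] [Module.Finite P A] [Module.Finite P B] (z : P →ₐ[ℂ] ℂ) (μ : A →ₗ[P] B)
  (n b : ℕ) (I : Ideal P), FreeAt z B b → frk z μ = n →
  (∀ (a : Fin (n + 1) → A) (g : Fin (n + 1) → Module.Dual P B),
    ∃ r, z r ≠ 0 ∧ r * (Matrix.of fun u t => g t (μ (a u))).det ∈ I) → Blk z μ n I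

/-- the multiplication map in degree `k` over the Pluecker space -/
abbrev μk {Y : Spc} (S : Sur Y) (D : Dat Y) (k : ℤ) :
    (S.pc D.crd.Φ k).M →ₗ[D.Pol.R] (S.pc D.crd.VV k).M := S.pm k D.crd.μ D.crd.μ_hom

/-- the minors of the multiplication maps -/
structure Min {Y : Spc} (S : Sur Y) (D : Dat Y) : Prop where
  free : ∀ k, Module.Free D.Pol.R (S.pc D.crd.VV k).M
  rank : ∀ (z : D.Pol.Pt) (k : ℤ), (frk z.1 (μk S D k) : ℤ) =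
    Module.finrank ℂ (D.V.wt (dg Y k)) - hq D.V (D.gen (D.co z)) k
  mem : ∀ k, D.m ≤ k → ∀ n : ℕ, (Module.finrank ℂ (D.V.wt (dg Y k)) : ℤ) < n + D.p k →
    ∀ (a : Fin n → (S.pc D.crd.Φ k).M) (g : Fin n → Module.Dual D.Pol.R (S.pc D.crd.VV k).M),
    (Matrix.of fun u t => g t (μk S D k (a u))).det ∈ Ideal.span D.minors
  eq : ∀ f ∈ D.minors, ∃ (k : ℤ) (n : ℕ) (a : Fin n → (S.pc D.crd.Φ k).M)
    (g : Fin n → Module.Dual D.Pol.R (S.pc D.crd.VV k).M), D.m ≤ k ∧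
    (Module.finrank ℂ (D.V.wt (dg Y k)) : ℤ) < n + D.p k ∧
    f = (Matrix.of fun u t => g t (μk S D k (a u))).det
  plk : ∀ z : D.Pol.Pt, Plk.Rel (D.co z) → ∀ (a : Fin (D.r + 1) → (S.pc D.crd.Φ D.m).M)
    (g : Fin (D.r + 1) → Module.Dual D.Pol.R (S.pc D.crd.VV D.m).M),
    ∃ r, z.1 r ≠ 0 ∧ r * (Matrix.of fun u t => g t (μk S D D.m (a u))).det ∈ D.IP

def MIN : Prop := FBK → BAS → GRT → ∀ (Y : Spc) (S : Sur Y) (D : Dat Y), D.Ok S → Min S D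

/-- the restriction to a closed subspace -/
structure Rst {W Y : Spc} (S : Sur Y) {D : Dat Y} (c : D.Crd W) (Z : Set W.Pt) (hZ : W.Stab Z) :
    Prop where
  surjΦ : ∀ k (a' : (S.pc (c.pull (Mor.incl W Z hZ)).Φ k).M), ∃ a : (S.pc c.Φ k).M,
    c.uΦ _ (S.val _ k a) = S.val _ k a'
  kerΦ : ∀ k (a : (S.pc c.Φ k).M), c.uΦ (Mor.incl W Z hZ) (S.val _ k a) = 0 ↔
    a ∈ W.van Z • (⊤ : Submodule W.R (S.pc c.Φ k).M)
  surjV : ∀ k (a' : (S.pc (c.pull (Mor.incl W Z hZ)).VV k).M), ∃ a : (S.pc c.VV k).M,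
    c.uV _ (S.val _ k a) = S.val _ k a'
  kerV : ∀ k (a : (S.pc c.VV k).M), c.uV (Mor.incl W Z hZ) (S.val _ k a) = 0 ↔
    a ∈ W.van Z • (⊤ : Submodule W.R (S.pc c.VV k).M)

def RST : Prop := ∀ (W Y : Spc) (S : Sur Y) (D : Dat Y) (c : D.Crd W) (Z : Set W.Pt)
  (hZ : W.Stab Z), Rst S c Z hZ

/-- the maps that kill the relations of degree `m` -/
structure Hp {W Y : Spc} (S : Sur Y) {D : Dat Y} (c : D.Crd W) (n : ℕ) : Prop where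
  bA' : (c.A' S).IsBun (D.r * (D.p D.m).toNat)
  cls : ∃ n', (c.H' S).IsBun n' ∧
    n' + Fintype.card D.Sx * (D.p D.m).toNat = n + D.r * (D.p D.m).toNat ∧
    kc (c.H' S) n' - kc (c.A' S) (D.r * (D.p D.m).toNat) =
      kc (c.H S) n - kc (c.A S) (Fintype.card D.Sx * (D.p D.m).toNat)
  ext : ∀ (z : W.Pt) (lam : Module.Dual W.R (c.H' S).M), ∃ (r : W.R)
    (lam' : Module.Dual W.R (S.pc (c.K1.hom c.F) 0).M), z.1 r ≠ 0 ∧ ∀ φ, lam' φ.1 = r * lam φ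
  van : ∀ (z : W.Pt) (lam : Module.Dual W.R (S.pc (c.K1.hom c.F) 0).M),
    (∀ φ : (c.H' S).M, lam φ.1 = 0) → ∃ (r : W.R) (n : ℕ) (b : Fin n → (S.pc c.K1 D.m).M)
      (g : Fin n → Module.Dual W.R (S.pc c.F (D.m + 0)).M),
      z.1 r ≠ 0 ∧ r • lam = ∑ i, S.cf c.K1 c.F D.m 0 (b i) (g i)

def HP : Prop := FBK → FLB → FAM → HB → BAS → KOSP → EXK → H1 → PTS → KX →
  ∀ (W Y : Spc) (S : Sur Y) (D : Dat Y) (c : D.Crd W) (n : ℕ), D.Ok S → Nonempty W.Pt →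
  (∀ z, D.Pt (c.cz z)) → (∀ z, D.hd (c.cz z) = n) → Hp S c n

/-- the conormal bundle of the Grassmannian -/
def CON : Prop := FBK → FLB → FAM → HB → BAS → KOSP → EXK → H1 → PTS → KX → GRT →
  ∀ (Y : Spc) (S : Sur Y) (D : Dat Y), D.Ok S → ∀ (Z : Set D.Pol.Pt) (hZ : D.Pol.Stab Z)
  (I : Ideal D.Pol.R) (hI : (GMod.one D.Pol).Stab I), D.Pol.Clo Z → Z.Nonempty → Z ⊆ D.VI →
  D.IP ≤ I → I ≤ D.Pol.van Z →
  ((D.crd.pull (Mor.incl _ Z hZ)).A' S).IsBun (D.r * (D.p D.m).toNat) →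
  ∃ (h : (Dat.Con Z hZ I hI).Stab (Dat.NP Z hZ I hI)) (ν : ℕ),
    ((Dat.Con Z hZ I hI).sub _ h).IsBun ν ∧
    dualK _ (kc ((Dat.Con Z hZ I hI).sub _ h) ν) =
      ∑ J, line (D.Pol.sub Z hZ) (D.dX J) - 1 -
        kc ((D.crd.pull (Mor.incl _ Z hZ)).A' S) (D.r * (D.p D.m).toNat)

/-- the obstruction theory of the Quot space -/
def OBS : Prop := ∀ (Y : Spc) (S : Sur Y) (D : Dat Y), D.Ok S → ∀ (Z : Set D.Pol.Pt) (n : ℕ),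
  Num D Z → Z.Nonempty → (∀ z ∈ Z, D.hd (D.co z) = n) →
  ∃ O : Obs D.Ix D.d, O.Z = Z ∧ (∀ a, a ∈ O.I ↔ ∀ z ∈ Z, ∃ r, z.1 r ≠ 0 ∧ r * a ∈ D.I) ∧
    ∀ (W : Spc) (j : Mor W O.Q), W.Cn →
      pullK j O.C.cls -
          ∑ a, pullK (O.inc.comp j) (line _ fun o => -o.elim 1 fun _ => D.d a) + 1 =
        -dualK W (pK W Y (dualK _ (D.crd.pull (O.inc.comp j)).eK *
          ((D.crd.pull (O.inc.comp j)).vK - (D.crd.pull (O.inc.comp j)).eK)))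

end Vale.Agent.P297Z.Qt
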