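import Vale.Agent.P297Z.K.Fib

/-!
# P297: regular sequences at a point and freeness of kernels
-/

set_option linter.all false

namespace Vale.Agent.P297Z.Syz

variable {R : Type} [CommRing R] [Algebra ℂ R] (z : R →ₐ[ℂ] ℂ) {A M : Type} [AddCommGroup A]
  [Module R A] [AddCommGroup M] [Module R M]

/-- `t` is not a zero divisor on `A / N` at the point -/
def NZ (N : Submodule R A) (t : R) : Prop := ∀ a, t • a ∈ N → ∃ r, z r ≠ 0 ∧ r • a ∈ N

/-- `N ∩ q A = q N` at the point -/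
def Pure (N : Submodule R A) (q : Ideal R) : Prop :=
  ∀ a ∈ N, a ∈ q • (⊤ : Submodule R A) → ∃ r, z r ≠ 0 ∧ r • a ∈ q • N

variable {z}

theorem pure_bot (N : Submodule R A) : Pure z N ⊥ := fun a _ h =>
  ⟨1, ev_one, by simpa using h⟩

theorem mem_span_smul {t : R} {a : A} (h : a ∈ Ideal.span {t} • (⊤ : Submodule R A)) :
    ∃ c, a = t • c := by
  refine Submodule.smul_induction_on h (fun r hr c _ => ?_) ?_
  · obtain ⟨s, rfl⟩ := Ideal.mem_span_singleton'.1 hr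
    exact ⟨s • c, by rw [mul_comm, mul_smul]⟩
  · rintro _ _ ⟨c, rfl⟩ ⟨c', rfl⟩
    exact ⟨c + c', (smul_add _ _ _).symm⟩

theorem Pure.step {N : Submodule R A} {q : Ideal R} {t : R} (h : Pure z N q)
    (h' : NZ z (N ⊔ q • ⊤) t) : Pure z N (q ⊔ Ideal.span {t}) := by
  intro a ha h1
  rw [Submodule.sup_smul] at h1 ⊢
  obtain ⟨b, hb, y, hy, rfl⟩ := Submodule.mem_sup.1 h1
  obtain ⟨c, rfl⟩ := mem_span_smul hy
  obtain ⟨r, hr, h2⟩ := h' c (by
    rw [← add_sub_cancel_left b (t • c)]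
    exact sub_mem (Submodule.mem_sup_left ha) (Submodule.mem_sup_right hb))
  obtain ⟨n, hn, b', hb', h3⟩ := Submodule.mem_sup.1 h2
  have h4 : r • (b + t • c) - t • n = r • b + t • b' := by
    rw [smul_add, smul_comm r t c, ← h3, smul_add]
    abel
  obtain ⟨r', hr', h5⟩ := h _ (sub_mem (N.smul_mem r ha) (N.smul_mem t hn))
    (h4 ▸ add_mem (Submodule.smul_mem _ r hb) (Submodule.smul_mem _ t hb'))
  refine ⟨r' * r, ev_mul hr' hr, ?_⟩
  rw [mul_smul, ← sub_add_cancel (r • (b + t • c)) (t • n), smul_add]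
  exact add_mem (Submodule.mem_sup_left h5) (Submodule.mem_sup_right (Submodule.smul_mem _ r'
    (Submodule.smul_mem_smul (Ideal.mem_span_singleton_self t) hn)))

theorem Pure.nz {N : Submodule R A} {q : Ideal R} {t : R} (h : Pure z N q)
    (h' : NZ z (q • (⊤ : Submodule R A)) t) : NZ z (q • (⊤ : Submodule R N)) t := by
  intro n hn
  rw [Submodule.mem_smul_top_iff] at hn
  obtain ⟨r, hr, h1⟩ := h' n (Submodule.smul_mono le_rfl le_top hn)
  obtain ⟨r', hr', h2⟩ := h _ (N.smul_mem r n.2) h1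
  refine ⟨r' * r, ev_mul hr' hr, ?_⟩
  rw [Submodule.mem_smul_top_iff, Submodule.coe_smul, mul_smul]
  exact h2

theorem mem_pi {ι : Type} [Fintype ι] {q : Ideal R} {v : ι → R} :
    v ∈ q • (⊤ : Submodule R (ι → R)) ↔ ∀ i, v i ∈ q := by
  classical
  refine ⟨fun h i => ?_, fun h => ?_⟩
  · exact Submodule.smul_induction_on (p := fun v : ι → R => v i ∈ q) h
      (fun r hr c _ => q.mul_mem_right _ hr) fun _ _ => add_mem
  · rw [pi_eq_sum_univ v]
    exact Submodule.sum_mem _ fun i _ => Submodule.smul_mem_smul (h i) Submodule.mem_top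

theorem map_mem (f : A →ₗ[R] M) {q : Ideal R} {a : A} (h : a ∈ q • (⊤ : Submodule R A)) :
    f a ∈ q • (⊤ : Submodule R M) :=
  Submodule.smul_mono le_rfl le_top (Submodule.map_smul'' q ⊤ f ▸ Submodule.mem_map_of_mem h)

theorem nz_free {n : ℕ} (hA : FreeAt z A n) {q : Ideal R} {t : R} (h : NZ z q t) :
    NZ z (q • (⊤ : Submodule R A)) t := by
  obtain ⟨e, r, g, hr, -, h2⟩ := hA
  intro a ha
  have h3 := mem_pi.1 (map_mem g ha)
  rw [map_smul] at h3
  choose s hs using fun i => h (g a i) (h3 i)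
  refine ⟨(∏ i, s i) * r, ev_mul (by
    rw [map_prod]; exact Finset.prod_ne_zero_iff.2 fun i _ => (hs i).1) hr, ?_⟩
  rw [mul_smul, ← h2, ← map_smul]
  refine map_mem e (mem_pi.2 fun i => ?_)
  rw [← Finset.prod_erase_mul _ _ (Finset.mem_univ i), mul_smul]
  exact q.mul_mem_left _ (hs i).2

theorem nz_ker [Module.Finite R M] {e : A →ₗ[R] M} (he : SurjAt z e) {q : Ideal R} {t : R}
    (h : NZ z (q • (⊤ : Submodule R M)) t) : NZ z (LinearMap.ker e ⊔ q • ⊤) t := by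
  obtain ⟨s, hs, h1⟩ := he.unif
  intro a ha
  obtain ⟨n, hn, b, hb, h2⟩ := Submodule.mem_sup.1 ha
  obtain ⟨r, hr, h3⟩ := h (e a) (by
    rw [← map_smul, ← h2, map_add, LinearMap.mem_ker.1 hn, zero_add]
    exact map_mem e hb)
  have h4 : ∀ m ∈ q • (⊤ : Submodule R M), ∃ b ∈ q • (⊤ : Submodule R A), e b = s • m := by
    intro m hm
    refine Submodule.smul_induction_on hm (fun c hc m _ => ?_) ?_
    · obtain ⟨b, hb⟩ := h1 m
      exact ⟨c • b, Submodule.smul_mem_smul hc Submodule.mem_top, by rw [map_smul, hb, smul_comm]⟩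
    · rintro x y ⟨b, hb, e1⟩ ⟨b', hb', e2⟩
      exact ⟨b + b', add_mem hb hb', by rw [map_add, e1, e2, smul_add]⟩
  obtain ⟨b', hb', h5⟩ := h4 _ h3
  refine ⟨s * r, ev_mul hs hr, Submodule.mem_sup.2 ⟨(s * r) • a - b', ?_, b', hb', by abel⟩⟩
  rw [LinearMap.mem_ker, map_sub, h5, map_smul, mul_smul, sub_self]

/-- three elements that generate the ideal of the point -/
structure Par (z : R →ₐ[ℂ] ℂ) (t₁ t₂ t₃ : R) : Prop where
  le : ⊥ ⊔ Ideal.span {t₁} ⊔ Ideal.span {t₂} ⊔ Ideal.span {t₃} ≤ RingHom.ker z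
  gen : ∀ a, z a = 0 →
    ∃ r, z r ≠ 0 ∧ r * a ∈ ⊥ ⊔ Ideal.span {t₁} ⊔ Ideal.span {t₂} ⊔ Ideal.span {t₃}
  nz1 : NZ z (⊥ : Ideal R) t₁
  nz2 : NZ z (⊥ ⊔ Ideal.span {t₁}) t₂
  nz3 : NZ z (⊥ ⊔ Ideal.span {t₁} ⊔ Ideal.span {t₂}) t₃

variable [IsNoetherianRing R] {t₁ t₂ t₃ : R}

theorem Par.free (h : Par z t₁ t₂ t₃) [Module.Finite R M] [Module ℂ M] [IsScalarTower ℂ R M]
    (h1 : NZ z ((⊥ : Ideal R) • (⊤ : Submodule R M)) t₁)
    (h2 : NZ z ((⊥ ⊔ Ideal.span {t₁}) • (⊤ : Submodule R M)) t₂)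
    (h3 : NZ z ((⊥ ⊔ Ideal.span {t₁} ⊔ Ideal.span {t₂}) • (⊤ : Submodule R M)) t₃) :
    FreeAt z M (fdim z M) := by
  obtain ⟨e, he⟩ := exists_gen (z := z) (A := M)
  have hp := (((pure_bot _).step (nz_ker he h1)).step (nz_ker he h2)).step (nz_ker he h3)
  have hb := fib_bij_of_surj he.fib (by rw [fdim_fun, Fintype.card_fin])
  obtain ⟨u, hu, h4⟩ := unif_fg (N := RingHom.ker z) (IsNoetherian.noetherian _) h.gen
  refine ⟨e, isoAt_of (injAt_iff_ker.2 (zeroAt_iff_fib.2 fun x => ?_)) he⟩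
  obtain ⟨a, rfl⟩ := fib_surj x
  have h5 : (a : Fin (fdim z M) → R) ∈ RingHom.ker z • (⊤ : Submodule R _) :=
    (Submodule.Quotient.mk_eq_zero _).1 (hb.1 (by
      rw [fibMap_mk, LinearMap.mem_ker.1 a.2, map_zero, Submodule.Quotient.mk_zero]))
  obtain ⟨r, hr, h6⟩ := hp (u • a) (Submodule.smul_mem _ u a.2)
    (mem_pi.2 fun i => h4 _ (mem_pi.1 h5 i))
  refine fib_eq_zero (ev_mul hr hu) ?_
  rw [← Submodule.Quotient.mk_smul, Submodule.Quotient.mk_eq_zero, Submodule.mem_smul_top_iff,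
    Submodule.coe_smul, mul_smul]
  exact Submodule.smul_mono h.le le_rfl h6

/-- a submodule of a free module whose quotient has depth two is free -/
theorem Par.free_sub (h : Par z t₁ t₂ t₃) [Module.Finite R A] [Module ℂ A] [IsScalarTower ℂ R A]
    {n : ℕ} (hA : FreeAt z A n) (N : Submodule R A) (h1 : NZ z N t₁)
    (h2 : NZ z (N ⊔ Ideal.span {t₁} • ⊤) t₂) : FreeAt z N (fdim z N) := by
  have p0 := pure_bot (z := z) N
  have p1 := p0.step (t := t₁) (by simpa using h1)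
  have p2 := p1.step (t := t₂) (by simpa using h2)
  exact h.free (p0.nz (nz_free hA h.nz1)) (p1.nz (nz_free hA h.nz2)) (p2.nz (nz_free hA h.nz3))

/-- a zero divisor at the point lies in an associated prime -/
theorem exists_ass {t : R} (h : ¬ NZ z (⊥ : Submodule R M) t) :
    ∃ q ∈ associatedPrimes R M, t ∈ q ∧ q ≤ RingHom.ker z := by
  simp only [NZ, not_forall, not_exists, not_and, Submodule.mem_bot] at h
  obtain ⟨m, hm, h⟩ := h
  let an : M → Ideal R := fun m => LinearMap.ker (LinearMap.toSpanSingleton R M m)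
  have han : ∀ {m r}, r ∈ an m ↔ r • m = 0 := Iff.rfl
  obtain ⟨_, ⟨m₀, h1, h2, rfl⟩, hmax⟩ := set_has_maximal_iff_noetherian.2
    (inferInstance : IsNoetherian R R) {q | ∃ m, t • m = 0 ∧ an m ≤ RingHom.ker z ∧ q = an m}
    ⟨_, m, hm, fun r hr => by_contra fun h0 => h r h0 hr, rfl⟩
  have key : ∀ b : R, an (b • m₀) ≤ RingHom.ker z → an (b • m₀) ≤ an m₀ := fun b hb => by
    have h3 : an m₀ ≤ an (b • m₀) := fun r hr => han.2 (by rw [smul_comm, han.1 hr, smul_zero])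
    exact (h3.eq_of_not_lt (hmax _ ⟨b • m₀, by rw [smul_comm, h1, smul_zero], hb, rfl⟩)).ge
  have hp : (an m₀).IsPrime := by
    refine ⟨fun e => ev_one (z := z) (h2 (e ▸ Submodule.mem_top)), fun {a b} hab => ?_⟩
    by_cases hb : an (b • m₀) ≤ RingHom.ker z
    · exact Or.inl (key b hb (han.2 (by rw [← mul_smul]; exact hab)))
    · obtain ⟨s, hs, hs'⟩ := SetLike.not_le_iff_exists.1 hb
      refine Or.inr (key s (fun u hu => ?_) (han.2 (by rw [smul_comm]; exact hs)))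
      have h4 : z (u * s) = 0 := h2 (han.2 (by rw [mul_smul]; exact hu))
      rw [map_mul] at h4
      exact (mul_eq_zero.1 h4).resolve_right hs'
  exact ⟨an m₀, isAssociatedPrime_iff.2 ⟨hp, m₀, by ext r; simp [han]⟩, h1, h2⟩

end Vale.Agent.P297Z.Syz
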