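import Vale.Agent.P297Z.Quot.SkS
import Vale.Agent.P297Z.Quot.Syz
import Vale.Agent.P297Z.Surf.SspA2
import Vale.Agent.P297Z.Hb.LaSurf
import Vale.Agent.P297Z.K.AG
import Vale.Agent.P297Z.Dim.Fib

/-!
# P297: the surface has the properties that are used for the Quot space
-/

set_option linter.all false

noncomputable section

namespace Vale.Agent.P297Z

open Syz IsLocalRing

theorem GMod.eq_zero_of_smul_eq {X : Spc} (M : GMod X) {δ : X.J → ℤ} (hδ : δ ≠ 0) {r : X.R}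
    (hr : r ∈ X.wt δ) {x : M.M} (h : r • x = x) : x = 0 := by
  obtain ⟨s, -, hs⟩ := M.exists_sum_cmp x
  refine eq_zero_of_cmp M.span fun γ => ?_
  have h1 : ∀ n : ℕ, r ^ n • x = x := fun n => by
    induction n with
    | zero => rw [pow_zero, one_smul]
    | succ n ih => rw [pow_succ, mul_smul, h, ih]
  have h2 : Function.Injective fun n : ℕ => γ - n • δ := fun a b e => by
    obtain ⟨j, hj⟩ := Function.ne_iff.1 hδ
    have h3 : γ j - a • δ j = γ j - b • δ j := congrFun e j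
    simp only [nsmul_eq_mul, sub_right_inj] at h3
    exact_mod_cast mul_right_cancel₀ hj h3
  obtain ⟨_, ⟨n, rfl⟩, hn⟩ := (Set.infinite_range_of_injective h2).exists_notMem_finset s
  have h3 := M.cmp_smul (Spc.pow_mem hr n) (γ - n • δ) x
  rw [h1, hs _ hn, smul_zero, add_sub_cancel] at h3
  exact h3

theorem GMod.nz_sub_one {X : Spc} (M : GMod X) {N : Submodule X.R M.M} (hN : M.Stab N)
    {δ : X.J → ℤ} (hδ : δ ≠ 0) {r : X.R} (hr : r ∈ X.wt δ) (z : X.R →ₐ[ℂ] ℂ) :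
    NZ z N (r - 1) := fun a ha => ⟨1, ev_one, by
  rw [one_smul, ← Submodule.Quotient.mk_eq_zero]
  refine (M.quo N hN).eq_zero_of_smul_eq hδ hr ?_
  rw [sub_smul, one_smul] at ha
  exact (Submodule.Quotient.eq N).2 ha⟩

theorem GMod.free_sub {X : Spc} {z : X.R →ₐ[ℂ] ℂ} {γ δ : X.J → ℤ} (hδ : δ ≠ 0) {r t u : X.R}
    (hr : r ∈ X.wt δ) (ht : t ∈ X.wt γ) (hP : Syz.Par z t (r - 1) u) (A : GMod X) {n : ℕ}
    (hA : FreeAt z A.M n) (N : Submodule X.R A.M) (hN : A.Stab N) (h2 : NZ z N t) :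
    ∃ r, FreeAt z N r :=
  ⟨_, hP.free_sub hA N h2 (A.nz_sub_one (hN.sup (GMod.Stab.smul
    (GMod.stab_span_wt (M := GMod.one _) (by
      rintro _ rfl
      exact ⟨_, ht⟩)) (GMod.stab_top A))) hδ hr z)⟩

theorem Syz.nz_of_ker {R : Type} [CommRing R] [Algebra ℂ R] {z : R →ₐ[ℂ] ℂ} {A B : Type}
    [AddCommGroup A] [Module R A] [AddCommGroup B] [Module R B] (f : A →ₗ[R] B) {n : ℕ}
    (hB : FreeAt z B n) {t : R} (h : NZ z (⊥ : Ideal R) t) : NZ z (LinearMap.ker f) t := by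
  intro a ha
  obtain ⟨r, hr, h2⟩ := nz_free hB h (f a) (by
    rw [← map_smul, LinearMap.mem_ker.1 ha]
    exact zero_mem _)
  refine ⟨r, hr, ?_⟩
  rw [LinearMap.mem_ker, map_smul]
  simpa using h2

namespace Sf

open SA

variable {K : Type} [Field K] [Algebra ℂ K] {S : Surf K} {h : S.All} {z : (S.spc h).Pt}
  {p : Pt S.W} {w l₁ l₂ : S.W}

theorem one_ne : (fun _ => 1 : (S.spc h).J → ℤ) ≠ 0 := fun e => one_ne_zero (congrFun e ())

theorem par_of (hz : S.Over h z p) (hp : SA.Par p w l₁ l₂) (h1 : hom z (S.lin w) = 1) :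
    Syz.Par (hom z) (S.lin l₁) (S.lin w - 1) (S.lin l₂) := by
  have hR := Fb.rl S h p
  have m1 : ∀ a b c : S.ring, a ∈ ⊥ ⊔ Ideal.span {a} ⊔ Ideal.span {b} ⊔ Ideal.span {c} ∧
      b ∈ ⊥ ⊔ Ideal.span {a} ⊔ Ideal.span {b} ⊔ Ideal.span {c} ∧
      c ∈ ⊥ ⊔ Ideal.span {a} ⊔ Ideal.span {b} ⊔ Ideal.span {c} := fun a b c =>
    ⟨Ideal.mem_sup_left (Ideal.mem_sup_left (Ideal.mem_sup_right
        (Ideal.mem_span_singleton_self a))),
      Ideal.mem_sup_left (Ideal.mem_sup_right (Ideal.mem_span_singleton_self b)),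
      Ideal.mem_sup_right (Ideal.mem_span_singleton_self c)⟩
  refine ⟨?_, fun a ha => ?_, fun a ha => ⟨1, ev_one, ?_⟩, ?_, fun a ha => ?_⟩
  · simp only [sup_le_iff, bot_le, Ideal.span_singleton_le_iff_mem, RingHom.mem_ker, map_sub, h1,
      map_one, sub_self, true_and, and_true]
    exact ⟨(hz l₁).2 hp.van.1, (hz l₂).2 hp.van.2⟩
  · obtain ⟨u, hu, h2⟩ := loc_ker hz hp a ha
    refine ⟨u, hu, Ideal.span_le.2 ?_ h2⟩
    have h3 : algebraMap ℂ S.ring (z.1 (S.lin w)) = 1 := (congrArg _ h1).trans (map_one _)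
    rw [h3]
    rintro _ (rfl | rfl | rfl)
    exacts [(m1 _ _ _).1, (m1 _ _ _).2.2, (m1 _ _ _).2.1]
  · rw [Ideal.mem_bot, smul_eq_mul, mul_eq_zero] at ha
    rw [one_smul, ha.resolve_left fun e => hR.ne_zero hp.gen (by rw [e, map_zero])]
    exact zero_mem _
  · rw [bot_sup_eq]
    exact (GMod.one (S.spc h)).nz_sub_one (GMod.stab_span_wt (M := GMod.one _) (by
      rintro _ rfl
      exact ⟨_, lin_mem_wt h l₁⟩)) one_ne (lin_mem_wt h w) z.1
  · rw [bot_sup_eq, ← Ideal.span_insert, Ideal.mem_span_pair] at ha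
    obtain ⟨b, c, ha⟩ := ha
    have h2 := congrArg (dehAt hp.mem) ha
    rw [map_add, map_mul, map_mul, map_sub, dehAt_self, map_one, sub_self, mul_zero, add_zero,
      smul_eq_mul, map_mul] at h2
    have := hR.ufd
    obtain ⟨f, hf⟩ := (hR.relPrime hp.gen).dvd_of_dvd_mul_left (Dvd.intro_left _ h2)
    obtain ⟨N, hN⟩ := exists_frac hz f.2
    obtain ⟨e, he, d, hd, h3, h4⟩ := hN N le_rfl
    refine ⟨S.form N d hd, h3, ?_⟩
    have h5 : S.form N d hd * a - S.form N e he * S.lin l₁ ∈ Ideal.span {S.lin w - 1} := by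
      rw [← deh_ker w hp.mem.1, RingHom.mem_ker, map_sub, map_mul, map_mul, deh_form, deh_form,
        ← coe_dehAt hp.mem a, hf, Subalgebra.coe_mul, coe_dehAt, ← h4]
      ring
    rw [smul_eq_mul, ← sub_add_cancel (S.form N d hd * a) (S.form N e he * S.lin l₁)]
    exact add_mem (Ideal.mem_sup_right h5) (Ideal.mem_sup_left (Ideal.mem_sup_right
      (Ideal.mul_mem_left _ _ (Ideal.mem_span_singleton_self _))))

theorem free_sub (hz : S.Over h z p) (hp : SA.Par p w l₁ l₂) (h1 : hom z (S.lin w) = 1)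
    (A : GMod (S.spc h)) {n : ℕ} (hA : FreeAt z.1 A.M n) (N : Submodule (S.spc h).R A.M)
    (hN : A.Stab N) (h2 : NZ z.1 N (S.lin l₁)) : ∃ r, FreeAt z.1 N r :=
  GMod.free_sub one_ne (lin_mem_wt h w) (lin_mem_wt h l₁) (par_of hz hp h1) A hA N hN h2

theorem exists_norm (hz : S.Over h z p) : ∃ w : S.W, p.In w ∧ hom z (S.lin w) = 1 := by
  obtain ⟨w, hw⟩ := exists_lin h z
  have h1 : hom z (S.lin ((hom z (S.lin w))⁻¹ • w)) = 1 :=
    (congrArg (hom z) (S.linL.map_smul _ w)).trans ((map_smul _ _ _).trans (inv_mul_cancel₀ hw))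
  exact ⟨_, (over_in hz _).2 fun e => one_ne_zero (h1.symm.trans e), h1⟩

theorem syz (A B : Bun (S.spc h)) (f : A.M.M →ₗ[(S.spc h).R] B.M.M) (hf : A.M.IsHom B.M f) :
    ∃ r, (A.M.sub _ hf.stab_ker).IsBun r := by
  have : IsDomain (S.spc h).R := inferInstanceAs (IsDomain S.ring)
  refine Spc.conn_of_domain _ fun z => ?_
  obtain ⟨p, hz⟩ := exists_over z
  obtain ⟨w, hw, h1⟩ := exists_norm hz
  obtain ⟨l₁, l₂, hp⟩ := exists_par h hw
  exact free_sub hz hp h1 A.M (A.free z) _ hf.stab_ker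
    (nz_of_ker f (B.free z) (par_of hz hp h1).nz1)

theorem eq_of_van_le (h : S.All) {p q : Pt S.W} (e : van p ≤ van q) : p = q := by
  by_contra h1
  obtain ⟨w, h2, h3⟩ := h.sep p q h1
  exact (mem_van.1 (e h2)).2 h3

theorem exists_nz (hz : S.Over h z p) (hw : p.In w) {C : Type} [AddCommGroup C]
    [Module S.ring C] [Module.Finite S.ring C]
    (H : ∀ q ∈ associatedPrimes S.ring C, q ≤ RingHom.ker (hom z) →
      ∃ l : S.W, (l : K) ∈ van p ∧ S.lin l ∉ q) :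
    ∃ l₁ l₂, SA.Par p w l₁ l₂ ∧ NZ (hom z) (⊥ : Submodule S.ring C) (S.lin l₁) := by
  have : IsNoetherianRing S.ring := inferInstanceAs (IsNoetherianRing (S.spc h).R)
  let ι : van p →ₗ[ℂ] S.ring := S.linL ∘ₗ Submodule.inclusion fun _ h => h.1
  let Q := {q // q ∈ associatedPrimes S.ring C ∧ q ≤ RingHom.ker (hom z)}
  have : Finite Q := ((associatedPrimes.finite S.ring C).subset fun _ h => h.1).to_subtype
  let V : Option Q → Submodule ℂ (van p) := fun o => o.elim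
    (((maximalIdeal p.ring ^ 2).restrictScalars ℂ).comap ((dehAt hw).toLinearMap ∘ₗ ι))
    fun q => (q.1.restrictScalars ℂ).comap ι
  obtain ⟨l, hl⟩ := Submodule.exists_forall_notMem_of_forall_ne_top V (by
    rintro (_ | q) e
    · obtain ⟨l₁, l₂, hp⟩ := exists_par h hw
      have h1 : dehAt hw (S.lin l₁) ∈ maximalIdeal p.ring ^ 2 :=
        show (⟨l₁, hp.van.1⟩ : van p) ∈ V none from e ▸ Submodule.mem_top
      have h2 := h.lead p _ _ hp.gen 1 (fun i => i) (by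
        simpa [Finset.sum_range_succ] using h1) 1 le_rfl
      simp at h2
    · obtain ⟨l, h1, h2⟩ := H q.1 q.2.1 q.2.2
      exact h2 (show (⟨l, h1⟩ : van p) ∈ V (some q) from e ▸ Submodule.mem_top))
  have h1 : dehAt hw (S.lin ⟨l, l.2.1⟩) ∈ maximalIdeal p.ring := by
    rw [Pt.mem_max, coe_dehAt, deh_lin]
    exact l.2.2 w w.2 hw
  obtain ⟨-, l₂, h2, t, h3, h4⟩ := h.ext p w w.2 hw _ h1 (hl none)
  refine ⟨⟨l, l.2.1⟩, ⟨l₂, h2.1⟩, ⟨hw, h4.trans ?_⟩, by_contra fun h5 => ?_⟩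
  · congr 3
    exact Subtype.ext (h3.trans (deh_lin hw.1 ⟨l₂, h2.1⟩).symm)
  · obtain ⟨q, h6, h7, h8⟩ := exists_ass h5
    exact hl (some ⟨q, h6, h8⟩) h7

theorem tf (B : Bun (S.spc h)) (N : Submodule (S.spc h).R B.M.M) (hN : B.M.Stab N) :
    ∃ s : Finset (S.spc h).Pt, ∀ z : (S.spc h).Pt, (∀ y ∈ s, ¬ (S.spc h).Orb y z) →
      ∃ r, FreeAt z.1 N r := by
  classical
  let Bad : Ideal S.ring → (S.spc h).Pt → Prop := fun q z => ∃ p, S.Over h z p ∧
    q ≤ RingHom.ker (hom z) ∧ ∀ l : S.W, (l : K) ∈ van p → S.lin l ∈ q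
  have hf := associatedPrimes.finite (S.spc h).R (B.M.quo N hN).M
  obtain ⟨z₀⟩ := (isVar h).ne
  let y : Ideal S.ring → (S.spc h).Pt := fun q => if e : ∃ z, Bad q z then e.choose else z₀
  refine ⟨hf.toFinset.image y, fun z hz' => ?_⟩
  obtain ⟨p, hz⟩ := exists_over z
  obtain ⟨w, hw, h1⟩ := exists_norm hz
  letI : Module S.ring (B.M.quo N hN).M := (B.M.quo N hN).mR
  haveI : Module.Finite S.ring (B.M.quo N hN).M := (B.M.quo N hN).fin
  obtain ⟨l₁, l₂, hp, h2⟩ := exists_nz hz hw (C := (B.M.quo N hN).M) fun q hq hq' => by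
    by_contra h3
    push Not at h3
    have e : ∃ z, Bad q z := ⟨z, p, hz, hq', h3⟩
    obtain ⟨p', h4, h5, -⟩ : Bad q (y q) := by
      simp only [y, dif_pos e]
      exact e.choose_spec
    obtain rfl : p = p' := eq_of_van_le h fun l hl => (h4 ⟨l, hl.1⟩).1 (h5 (h3 ⟨l, hl.1⟩ hl))
    exact hz' _ (Finset.mem_image_of_mem y (hf.mem_toFinset.2 hq)) (orb_of_over h4 hz)
  refine free_sub hz hp h1 B.M (B.free z) N hN fun a ha => ?_
  obtain ⟨r, hr, h3⟩ := h2 (Submodule.Quotient.mk a) ((Submodule.Quotient.mk_eq_zero N).2 ha)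
  exact ⟨r, hr, (Submodule.Quotient.mk_eq_zero N).1 h3⟩

theorem exists_lift_pt (S : Surf K) (a : Fin 3 → ℂ) :
    ∃ y : S.ring →ₐ[ℂ] ℂ, ∀ i, y (xl S i) = a i := by
  have := S.ring_ft
  have h0 := finite_plane S
  rw [Algebra.adjoin_range_eq_range_aeval] at h0
  let e := AlgEquiv.ofInjective (plane S) (plane_inj S)
  let ψ : (plane S).range →ₐ[ℂ] ℂ := (MvPolynomial.aeval a).comp e.symm.toAlgHom
  have h1 : (RingHom.ker ψ).IsMaximal :=
    RingHom.ker_isMaximal_of_surjective ψ fun c => ⟨algebraMap _ _ c, ψ.commutes c⟩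
  have : Module.Finite (plane S).range S.ring := h0
  have : Algebra.IsIntegral (plane S).range S.ring := Algebra.IsIntegral.of_finite _ _
  generalize hm : RingHom.ker ψ = m at h1
  obtain ⟨Q, hQ, h2⟩ := Ideal.exists_ideal_over_maximal_of_isIntegral
    (R := (plane S).range) (S := S.ring) m fun x hx => by
      rw [show x = 0 from Subtype.ext hx]
      exact zero_mem _
  obtain ⟨y, hy⟩ := Dim.exists_pt (k := ℂ) Q
  refine ⟨y, fun i => ?_⟩
  have h3 : e (MvPolynomial.X i - MvPolynomial.C (a i)) ∈ RingHom.ker ψ := by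
    change MvPolynomial.aeval a (e.symm (e _)) = 0
    simp
  rw [hm, ← h2, Ideal.mem_comap, ← hy] at h3
  have h4 : y (plane S (MvPolynomial.X i - MvPolynomial.C (a i))) = 0 := h3
  simpa [plane, sub_eq_zero] using h4

theorem two (h : S.All) {h₀ h₁ : S.ring} (e₀ : h₀ ∈ Submodule.span ℂ (Set.range (xl S)))
    (e₁ : h₁ ∈ Submodule.span ℂ (Set.range (xl S))) :
    ∃ z : (S.spc h).Pt, z.1 h₀ = 0 ∧ z.1 h₁ = 0 := by
  obtain ⟨c, rfl⟩ := (Submodule.mem_span_range_iff_exists_fun ℂ).1 e₀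
  obtain ⟨d, rfl⟩ := (Submodule.mem_span_range_iff_exists_fun ℂ).1 e₁
  obtain ⟨a, h1, h2⟩ := (Submodule.ne_bot_iff _).1 (LinearMap.ker_ne_bot_of_finrank_lt
    (f := (Fintype.linearCombination ℂ c).prod (Fintype.linearCombination ℂ d)) (by simp))
  obtain ⟨y, hy⟩ := exists_lift_pt S a
  obtain ⟨i, hi⟩ := Function.ne_iff.1 h2
  have h3 : ∀ c : Fin 3 → ℂ, y (∑ i, c i • xl S i) = Fintype.linearCombination ℂ c a := fun c => by
    simp [Fintype.linearCombination_apply, hy, mul_comm]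
  exact ⟨⟨y, (pt_iff' h y).2 ⟨i, hy i ▸ hi⟩⟩, (h3 c).trans (congrArg Prod.fst h1),
    (h3 d).trans (congrArg Prod.snd h1)⟩

theorem cst (h : S.All) {r : S.ring} (hr : r ∈ (S.spc h).wt fun _ => 0) :
    ∃ c : ℂ, r = algebraMap ℂ S.ring c := by
  rcases (SA.mem_wt h).1 hr with rfl | ⟨n, a, ha, e, rfl⟩
  · exact ⟨0, (map_zero _).symm⟩
  · obtain rfl : n = 0 := by
      have : (0 : ℤ) = n := e
      omega
    obtain ⟨c, rfl⟩ := Submodule.mem_one.1 (show a ∈ (1 : Submodule ℂ K) from pow_zero S.W ▸ ha)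
    refine ⟨c, Subtype.ext ?_⟩
    change mon (algebraMap ℂ K c) ((0 : ℕ) : ℤ) = algebraMap ℂ (LaurentPolynomial K) c
    rw [mon, Nat.cast_zero, LaurentPolynomial.T_zero, mul_one]
    rfl

/-- the surface as a base of Quot spaces -/
def sur (S : Surf K) (h : S.All) : Qt.Sur (S.spc h) where
  uniq := inferInstanceAs (Unique Unit)
  x := xl S
  x_wt := xl_mem_wt h
  fin := finite_plane S
  pts := pt_iff' h
  neg := fun k hk => eq_bot_iff.2 fun r hr => ((SA.mem_wt h).1 hr).elim id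
    fun ⟨n, _, _, e, _⟩ => absurd (show k = n from e) (by omega)
  cst := fun _ hr => cst h hr
  two := fun _ e₀ _ e₁ => two h e₀ e₁
  syz := syz
  tf := tf

theorem sur_x (S : Surf K) (h : S.All) : (sur S h).x = xl S := rfl

end Sf

theorem Qt.sur : Qt.SUR := fun _ _ _ S h => ⟨Sf.sur S h, rfl⟩

end Vale.Agent.P297Z
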