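import Vale.Agent.P297Z.Quot.Defs
import Vale.Agent.P297Z.K.Part
import Vale.Agent.P297Z.K.AG
import Vale.Agent.P297Z.K.Prj

/-!
# P297: maps between the universal families, the bundles of homomorphisms
-/

set_option linter.all false

open scoped TensorProduct

noncomputable section

namespace Vale.Agent.P297Z.Qt

variable {W W' Y : Spc}

/-- an element of the module of homomorphisms as a linear map -/
def ap {A B : GMod W} : (A.hom B).M ≃ₗ[W.R] (A.M →ₗ[W.R] B.M) := LinearEquiv.refl _ _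

theorem act_ap {A B : GMod W} (g : W.J → ℂˣ) (φ : (A.hom B).M) (a : A.M) :
    ap ((A.hom B).act g φ) a = B.act g (ap φ (A.act g⁻¹ a)) := rfl

theorem ap_smul {A B : GMod W} (t : ℂ) (φ : (A.hom B).M) (a : A.M) :
    ap (t • φ) a = t • ap φ a := rfl

theorem act_ap_of {A B : GMod W} {g : W.J → ℂˣ} {s t : ℂ} {φ : (A.hom B).M} {a : A.M}
    (hφ : (A.hom B).act g φ = t • φ) (ha : A.act g a = s • a) :
    B.act g (ap φ a) = (s * t) • ap φ a := by
  have h := act_ap g φ (A.act g a)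
  rw [A.act_inv_act, hφ, ha, ap_smul, LinearMap.map_smul_of_tower, smul_smul, mul_comm] at h
  exact h.symm

theorem ap_wt {A B : GMod W} {γ δ : W.J → ℤ} {φ : (A.hom B).M} {a : A.M}
    (hφ : φ ∈ (A.hom B).wt δ) (ha : a ∈ A.wt γ) : ap φ a ∈ B.wt (γ + δ) := fun g => by
  rw [chr_add]
  exact act_ap_of (hφ g) (ha g)

/-- the restriction of homomorphisms along a map -/
def rs {A A' : GMod W} (u : A'.M →ₗ[W.R] A.M) (B : GMod W) : (A.hom B).M →ₗ[W.R] (A'.hom B).M :=
  LinearMap.lcomp W.R B.M u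

theorem ap_rs {A A' : GMod W} (u : A'.M →ₗ[W.R] A.M) (B : GMod W) (φ : (A.hom B).M) (a : A'.M) :
    ap (rs u B φ) a = ap φ (u a) := rfl

theorem rs_hom {A A' : GMod W} {u : A'.M →ₗ[W.R] A.M} (hu : A'.IsHom A u) (B : GMod W) :
    (A.hom B).IsHom (A'.hom B) (rs u B) := fun g φ => LinearMap.ext fun a =>
  congrArg (fun t => B.act g (ap φ t)) (hu g⁻¹ a).symm

namespace Sur

variable (S : Sur Y)

theorem val_mem {M : GMod (W.prod Y)} {k : ℤ} (m : (S.pc M k).M) :
    S.val M k m ∈ wt ((S.prj W).actE M) fun _ => k := (S.prj W).val_mem m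

theorem val_inj {M : GMod (W.prod Y)} {k : ℤ} : Function.Injective (S.val M k) :=
  fun _ _ h => Subtype.ext h

theorem val_smul {M : GMod (W.prod Y)} {k : ℤ} (r : W.R) (m : (S.pc M k).M) :
    S.val M k (r • m) = (Mor.fst W Y).φ r • S.val M k m := rfl

theorem val_act {M : GMod (W.prod Y)} {k : ℤ} (g : W.J → ℂˣ) (m : (S.pc M k).M) :
    S.val M k ((S.pc M k).act g m) = M.act (tor (S.prj W).ret g) (S.val M k m) := rfl

/-- an element of degree `k` as an element of the part -/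
def el {M : GMod (W.prod Y)} {k : ℤ} (m : M.M) (hm : m ∈ wt ((S.prj W).actE M) fun _ => k) :
    (S.pc M k).M := (S.prj W).el m hm

theorem val_el {M : GMod (W.prod Y)} {k : ℤ} (m : M.M)
    (hm : m ∈ wt ((S.prj W).actE M) fun _ => k) : S.val M k (S.el m hm) = m := rfl

/-- the map on the parts -/
def pm {A B : GMod (W.prod Y)} (k : ℤ) (u : A.M →ₗ[(W.prod Y).R] B.M) (hu : A.IsHom B u) :
    (S.pc A k).M →ₗ[W.R] (S.pc B k).M := (S.prj W).partMap (fun _ => k) u hu

theorem val_pm {A B : GMod (W.prod Y)} (k : ℤ) (u : A.M →ₗ[(W.prod Y).R] B.M) (hu : A.IsHom B u)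
    (a : (S.pc A k).M) : S.val B k (S.pm k u hu a) = u (S.val A k a) := rfl

theorem pm_hom {A B : GMod (W.prod Y)} (k : ℤ) (u : A.M →ₗ[(W.prod Y).R] B.M) (hu : A.IsHom B u) :
    (S.pc A k).IsHom (S.pc B k) (S.pm k u hu) := (S.prj W).partMap_isHom _ u hu

/-- the evaluation of a homomorphism of degree `k` on an element of degree `j` -/
def apc (B G : GMod (W.prod Y)) (j k : ℤ) :
    (S.pc (B.hom G) k).M →ₗ[W.R] (S.pc B j).M →ₗ[W.R] (S.pc G (j + k)).M :=
  LinearMap.mk₂ W.R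
    (fun φ b => S.el (ap (S.val _ k φ) (S.val B j b)) fun h =>
      (act_ap_of (S.val_mem φ h) (S.val_mem b h)).trans
        (congrArg (· • ap (S.val _ k φ) (S.val B j b)) (chr_add (fun _ => j) (fun _ => k) h).symm))
    (fun φ ψ b => S.val_inj rfl) (fun r φ b => S.val_inj rfl)
    (fun φ b b' => S.val_inj (map_add (ap (S.val _ k φ)) (S.val B j b) (S.val B j b')))
    (fun r φ b => S.val_inj (map_smul (ap (S.val _ k φ)) ((Mor.fst W Y).φ r) (S.val B j b)))

theorem val_apc (B G : GMod (W.prod Y)) (j k : ℤ) (φ : (S.pc (B.hom G) k).M) (b : (S.pc B j).M) :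
    S.val G (j + k) (S.apc B G j k φ b) = ap (S.val _ k φ) (S.val B j b) := rfl

/-- the coefficient functional -/
def cf (B G : GMod (W.prod Y)) (j k : ℤ) (b : (S.pc B j).M)
    (g : Module.Dual W.R (S.pc G (j + k)).M) : Module.Dual W.R (S.pc (B.hom G) k).M :=
  g ∘ₗ (S.apc B G j k).flip b

/-- the homomorphisms of degree zero that kill the part of degree `j` of the image of `u` -/
def kil {A B : GMod (W.prod Y)} (u : A.M →ₗ[(W.prod Y).R] B.M) (G : GMod (W.prod Y)) (j : ℤ) :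
    Submodule W.R (S.pc (B.hom G) 0).M where
  carrier := {φ | ∀ a : (S.pc A j).M, ap (S.val _ 0 φ) (u (S.val A j a)) = 0}
  zero_mem' := fun a => by rw [map_zero, map_zero, LinearMap.zero_apply]
  add_mem' := fun {φ ψ} h h' a => by rw [map_add, map_add, LinearMap.add_apply, h a, h' a, add_zero]
  smul_mem' := fun r φ h a => by rw [val_smul, map_smul, LinearMap.smul_apply, h a, smul_zero]

theorem kil_stab {A B : GMod (W.prod Y)} {u : A.M →ₗ[(W.prod Y).R] B.M} (hu : A.IsHom B u)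
    (G : GMod (W.prod Y)) (j : ℤ) : (S.pc (B.hom G) 0).Stab (S.kil u G j) := fun g φ h a => by
  have h1 := h (S.el (A.act (tor (S.prj W).ret g)⁻¹ (S.val A j a))
    ((S.prj W).toRes_mem_partS.1 ((S.prj W).act_mem_partS _ a.2)))
  rw [val_el, hu] at h1
  rw [val_act, act_ap, h1, map_zero]

end Sur

/-- a map of families over the map `g` of the bases -/
structure Over (g : Mor W' W) (M : GMod (W.prod Y)) (M' : GMod (W'.prod Y)) (u : M.M →+ M'.M) :
    Prop where
  smul : ∀ a m, u (a • m) = (g.map (Mor.id Y)).φ a • u m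
  wt : ∀ γ, ∀ m ∈ M.wt γ, u m ∈ M'.wt ((g.map (Mor.id Y)).ρ γ)

theorem map_snd (g : Mor W' W) (b : Y.R) :
    (g.map (Mor.id Y)).φ ((Mor.snd W Y).φ b) = (Mor.snd W' Y).φ b := Mor.map_φ_snd g (Mor.id Y) b

theorem map_fst (g : Mor W' W) (a : W.R) :
    (g.map (Mor.id Y)).φ ((Mor.fst W Y).φ a) = (Mor.fst W' Y).φ (g.φ a) :=
  Mor.map_φ_fst g (Mor.id Y) a

theorem exists_plM (g : Mor W' W) (L : GMod Y) :
    ∃ e : ((Mor.snd W Y).pull L).M →+ ((Mor.snd W' Y).pull L).M,
      ∀ (a : (W.prod Y).R) (l : L.M), e ((show (Mor.snd W Y).Src from a) ⊗ₜ[Y.R] l) =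
        (g.map (Mor.id Y)).φ a • pl _ L l := by
  let f : (Mor.snd W Y).Src →ₗ[Y.R] (Mor.snd W' Y).Src :=
    { toFun := (g.map (Mor.id Y)).φ
      map_add' := map_add (g.map (Mor.id Y)).φ
      map_smul' := fun c a => (map_mul (g.map (Mor.id Y)).φ ((Mor.snd W Y).φ c) a).trans
        (congrArg (· * (g.map (Mor.id Y)).φ a) (map_snd g c)) }
  exact ⟨(f.rTensor L.M).toAddMonoidHom, fun a l =>
    congrArg (· ⊗ₜ[Y.R] l) (mul_one (show (Mor.snd W' Y).Src from (g.map (Mor.id Y)).φ a)).symm⟩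

/-- the comparison of the pull-backs from the second factor -/
def plM (g : Mor W' W) (L : GMod Y) : ((Mor.snd W Y).pull L).M →+ ((Mor.snd W' Y).pull L).M :=
  (exists_plM g L).choose

theorem plM_pl (g : Mor W' W) (L : GMod Y) (a : (W.prod Y).R) (l : L.M) :
    plM g L (a • pl _ L l) = (g.map (Mor.id Y)).φ a • pl _ L l :=
  ((exists_plM g L).choose_spec (a * (1 : (W.prod Y).R)) l).trans
    (congrArg (fun t => (g.map (Mor.id Y)).φ t • pl _ L l) (mul_one a))

theorem plM_smul (g : Mor W' W) (L : GMod Y) (a : (W.prod Y).R) (v : ((Mor.snd W Y).pull L).M) :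
    plM g L (a • v) = (g.map (Mor.id Y)).φ a • plM g L v := by
  induction v using pull_ind with
  | h0 => rw [smul_zero, map_zero, smul_zero]
  | ha u v hu hv => rw [smul_add, map_add, map_add, hu, hv, smul_add]
  | h1 b l => rw [smul_smul, plM_pl, plM_pl, map_mul, mul_smul]

/-- the same for twisted modules -/
def plS (g : Mor W' W) (L : GMod Y) (γ : (W.prod Y).J → ℤ) (γ' : (W'.prod Y).J → ℤ) :
    (((Mor.snd W Y).pull L).shift γ).M →+ (((Mor.snd W' Y).pull L).shift γ').M :=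
  (sh _ γ').toAddMonoidHom.comp ((plM g L).comp (unsh _ γ).toAddMonoidHom)

theorem plS_eq (g : Mor W' W) (L : GMod Y) (γ : (W.prod Y).J → ℤ) (γ' : (W'.prod Y).J → ℤ)
    (m : (((Mor.snd W Y).pull L).shift γ).M) :
    plS g L γ γ' m = sh _ γ' (plM g L (unsh _ γ m)) := rfl

theorem plS_smul (g : Mor W' W) (L : GMod Y) (γ : (W.prod Y).J → ℤ) (γ' : (W'.prod Y).J → ℤ)
    (a : (W.prod Y).R) (m : (((Mor.snd W Y).pull L).shift γ).M) :
    plS g L γ γ' (a • m) = (g.map (Mor.id Y)).φ a • plS g L γ γ' m := by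
  rw [plS_eq, plS_eq, map_smul, plM_smul, map_smul]

theorem plS_pl (g : Mor W' W) (L : GMod Y) (γ : (W.prod Y).J → ℤ) (γ' : (W'.prod Y).J → ℤ)
    (l : L.M) : plS g L γ γ' (sh _ γ (pl _ L l)) = sh _ γ' (pl _ L l) := by
  rw [plS_eq, unsh_sh, ← one_smul (W.prod Y).R (pl _ L l), plM_pl, map_one, one_smul]

namespace Dat

variable (D : Dat Y)

/-- the coordinates of a point of the Quot space -/
structure Pt (q : D.Ix → ℂ) : Prop where
  rel : Plk.Rel q
  ne : ∃ J, q J ≠ 0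
  hq : ∀ k, D.m ≤ k → D.p k ≤ hq D.V (D.gen q) k

variable {D}

namespace Crd

variable (c : D.Crd W) (g : Mor W' W)

/-- the comparison of the free modules -/
def uΦ : c.Φ.M →+ (c.pull g).Φ.M :=
  piMap (M := fun s : D.Sx => (GMod.one _).shift (-c.ds s))
    (N := fun s : D.Sx => (GMod.one _).shift (-(c.pull g).ds s))
    fun _ => ((g.map (Mor.id Y)).φ : (W.prod Y).R →+* (W'.prod Y).R).toAddMonoidHom

/-- the comparison of the ambient modules -/
def uV : c.VV.M →+ (c.pull g).VV.M :=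
  piMap (M := fun a => ((Mor.snd W Y).pull (D.L a).M).shift (c.tw a))
    (N := fun a => ((Mor.snd W' Y).pull (D.L a).M).shift ((c.pull g).tw a))
    fun a => plS g (D.L a).M (c.tw a) ((c.pull g).tw a)

theorem uV_smul (a : (W.prod Y).R) (v : c.VV.M) :
    c.uV g (a • v) = (g.map (Mor.id Y)).φ a • c.uV g v :=
  piMap_smul _ _ _ (fun b => plS_smul g (D.L b).M (c.tw b) _ a) v

theorem uV_eVV (i : D.β) : c.uV g (c.eVV i) = (c.pull g).eVV i :=
  (piMap_sgl _ _ _).trans (congrArg (sgl (fun a => ((Mor.snd W' Y).pull (D.L a).M).shift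
    ((c.pull g).tw a)) (D.a i)) (plS_pl g _ _ _ _))

theorem uV_vv (s : D.Sx) : c.uV g (c.vv s) = (c.pull g).vv s := by
  rw [vv, map_sum, vv]
  refine Finset.sum_congr rfl fun i _ => ?_
  rw [uV_smul, uV_eVV, map_fst]
  rfl

theorem uV_μ (a : c.Φ.M) : c.uV g (c.μ a) = (c.pull g).μ (c.uΦ g a) := by
  change c.uV g (∑ s, (show (W.prod Y).R from a s) • c.vv s) =
    ∑ s, (g.map (Mor.id Y)).φ (a s) • (c.pull g).vv s
  rw [map_sum]
  exact Finset.sum_congr rfl fun s _ => by rw [uV_smul, uV_vv]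

/-- the comparison of the relations -/
def uK : c.K1.M →+ (c.pull g).K1.M :=
  subE (c.uΦ g) _ _ fun a ha => by
    rw [LinearMap.mem_ker] at ha ⊢
    rw [← c.uV_μ, ha, map_zero]

theorem uV_mem : ∀ v ∈ LinearMap.range c.μ, c.uV g v ∈ LinearMap.range (c.pull g).μ := by
  rintro _ ⟨a, rfl⟩
  exact ⟨_, (c.uV_μ g a).symm⟩

/-- the comparison of the submodules -/
def uE : c.E.M →+ (c.pull g).E.M := subE (c.uV g) _ _ (c.uV_mem g)

/-- the comparison of the quotients -/
def uF : c.F.M →+ (c.pull g).F.M := quoE (c.uV g) _ _ (c.uV_mem g)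

/-- the inclusion of the relations -/
def iK : c.K1.M →ₗ[(W.prod Y).R] c.Φ.M := (LinearMap.ker c.μ).subtype

theorem iK_hom : c.K1.IsHom c.Φ c.iK := GMod.isHom_subtype _ _ _

/-- the projection to the quotient -/
def πF : c.VV.M →ₗ[(W.prod Y).R] c.F.M := (LinearMap.range c.μ).mkQ

theorem πF_hom : c.VV.IsHom c.F c.πF := GMod.isHom_mkQ _ _ _

variable (S : Sur Y)

/-- the maps from the free module to the quotient -/
def A : GMod W := S.pc (c.Φ.hom c.F) 0

/-- the maps from the relations to the quotient -/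
def H : GMod W := S.pc (c.K1.hom c.F) 0

/-- the tangent bundle of the Grassmannian -/
def A' : GMod W := (S.pc (c.Φ.hom c.F) 0).sub _ (S.kil_stab c.iK_hom c.F D.m)

/-- the maps that kill the relations of degree `m` -/
def H' : GMod W := (S.pc (c.K1.hom c.F) 0).sub _ (S.kil_stab (GMod.IsHom.id c.K1) c.F D.m)

end Crd

/-- the module `I / J I` on the closed subspace with the ideal `J` -/
def Con (Z : Set D.Pol.Pt) (hZ : D.Pol.Stab Z) (I : Ideal D.Pol.R) (hI : (GMod.one D.Pol).Stab I) :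
    GMod (D.Pol.sub Z hZ) := (Mor.incl _ Z hZ).pull ((GMod.one D.Pol).sub I hI)

/-- the class of an element of the ideal -/
def con (Z : Set D.Pol.Pt) (hZ : D.Pol.Stab Z) (I : Ideal D.Pol.R) (hI : (GMod.one D.Pol).Stab I)
    (a : I) : (Con Z hZ I hI).M := pl (Mor.incl _ Z hZ) ((GMod.one D.Pol).sub I hI) a

/-- the image of the Pluecker ideal -/
def NP (Z : Set D.Pol.Pt) (hZ : D.Pol.Stab Z) (I : Ideal D.Pol.R) (hI : (GMod.one D.Pol).Stab I) :
    Submodule (D.Pol.sub Z hZ).R (Con Z hZ I hI).M :=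
  Submodule.span _ {n | ∃ a : I, a.1 ∈ D.IP ∧ n = con Z hZ I hI a}

end Dat

end Vale.Agent.P297Z.Qt
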