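import Vale.Agent.P297Z.Quot.Defs

/-!
# P297: the uniform regularity bound
-/

set_option linter.all false

open Filter Module

noncomputable section

namespace Vale.Agent.P297Z.Qt

variable {Y : Spc}

/-- the Hilbert function -/
def hf (M : GMod Y) (k : ℤ) : ℤ := finrank ℂ (M.wt (dg Y k))

namespace Bg

theorem grow (f : ℤ → ℤ) (a b : ℤ) (n : ℕ) (h : ∀ k, a ≤ k → k < a + n → f k + b ≤ f (k + 1)) :
    f a + n * b ≤ f (a + n) := by
  induction n with
  | zero => simp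
  | succ n ih =>
    have h1 := ih fun k h1 h2 => h k h1 (by push_cast; omega)
    have h2 := h (a + n) (by omega) (by push_cast; omega)
    push_cast
    rw [← add_assoc]
    linarith

theorem finrank_map_inf {A B : Type} [AddCommGroup A] [Module ℂ A] [AddCommGroup B] [Module ℂ B]
    (f : A →ₗ[ℂ] B) (p : Submodule ℂ A) [FiniteDimensional ℂ p] :
    finrank ℂ (p.map f) + finrank ℂ ↥(p ⊓ LinearMap.ker f) = finrank ℂ p := by
  have := (f.domRestrict p).finrank_range_add_finrank_ker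
  rwa [LinearMap.range_domRestrict, LinearMap.ker_domRestrict, ← Submodule.finrank_map_subtype_eq,
    Submodule.map_comap_subtype] at this

theorem k3_apply {R M : Type} [CommRing R] [AddCommGroup M] [Module R M] (x : Fin 3 → R)
    (w : Fin 3 → M) : k3 x M w = ∑ i, x i • w i := by
  rw [k3, LinearMap.sum_apply]
  rfl

variable {M : GMod Y} {h : Y.R} {k : ℤ}

/-- the projection to the quotient -/
def qm (M : GMod Y) (N : Submodule Y.R M.M) (hN : M.Stab N) : M.M →ₗ[Y.R] (M.quo N hN).M := N.mkQ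

theorem qm_hom (N : Submodule Y.R M.M) (hN : M.Stab N) : M.IsHom (M.quo N hN) (qm M N hN) :=
  fun _ _ => rfl

theorem qm_zero {N : Submodule Y.R M.M} {hN : M.Stab N} {v : M.M} : qm M N hN v = 0 ↔ v ∈ N :=
  Submodule.Quotient.mk_eq_zero N

theorem qm_surj {N : Submodule Y.R M.M} {hN : M.Stab N} (v : (M.quo N hN).M) :
    ∃ u, qm M N hN u = v := N.mkQ_surjective v

theorem qm_lift {N : Submodule Y.R M.M} {hN : M.Stab N} {γ : Y.J → ℤ} {v : (M.quo N hN).M}
    (hv : v ∈ (M.quo N hN).wt γ) : ∃ u ∈ M.wt γ, qm M N hN u = v := by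
  obtain ⟨u, rfl⟩ := qm_surj v
  exact (qm_hom N hN).exists_preimage hv

theorem sm_wt (hh : h ∈ Y.wt (dg Y 1)) {v : M.M} (hv : v ∈ M.wt (dg Y k)) :
    h • v ∈ M.wt (dg Y (k + 1)) :=
  mwt_eq (GMod.smul_mem_wt hh hv) (funext fun _ => add_comm _ _)

theorem cmp_sm (hh : h ∈ Y.wt (dg Y 1)) (k : ℤ) (v : M.M) :
    M.cmp (dg Y (k + 1)) (h • v) = h • M.cmp (dg Y k) v := by
  have := M.cmp_smul hh (dg Y k) v
  rwa [show dg Y 1 + dg Y k = dg Y (k + 1) from funext fun _ => add_comm _ _] at this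

theorem div_wt (hh : h ∈ Y.wt (dg Y 1)) {v u : M.M} (hv : v ∈ M.wt (dg Y (k + 1))) (e : h • u = v) :
    ∃ u' ∈ M.wt (dg Y k), v = h • u' :=
  ⟨M.cmp (dg Y k) u, M.cmp_mem _ _, by rw [← cmp_sm hh, e, M.cmp_of_mem hv]⟩

/-- the multiples of `h` -/
def mulS (M : GMod Y) (h : Y.R) : Submodule Y.R M.M := LinearMap.range (LinearMap.lsmul Y.R M.M h)

theorem mulS_stab (M : GMod Y) {γ : Y.J → ℤ} (hh : h ∈ Y.wt γ) : M.Stab (mulS M h) := by
  rintro g _ ⟨v, rfl⟩
  refine ⟨chr γ g • M.act g v, ?_⟩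
  change h • chr γ g • M.act g v = M.act g (h • v)
  rw [M.act_smul, Spc.mem_wt.1 hh g, smul_assoc, smul_comm]

/-- the multiples of `h` in degree `k + 1` -/
def img (M : GMod Y) (h : Y.R) (k : ℤ) : Submodule ℂ M.M :=
  (M.wt (dg Y k)).map ((LinearMap.lsmul Y.R M.M h).restrictScalars ℂ)

theorem img_eq (hh : h ∈ Y.wt (dg Y 1)) :
    M.wt (dg Y (k + 1)) ⊓ (mulS M h).restrictScalars ℂ = img M h k := by
  refine le_antisymm ?_ ?_
  · rintro v ⟨hv, u, e⟩
    obtain ⟨u', h1, h2⟩ := div_wt hh hv e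
    exact ⟨u', h1, h2.symm⟩
  · rintro _ ⟨u, hu, rfl⟩
    exact ⟨sm_wt hh hu, u, rfl⟩

theorem img_rank (inj : ∀ v : M.M, h • v = 0 → v = 0) : (finrank ℂ (img M h k) : ℤ) = hf M k :=
  congrArg _ (Submodule.equivMapOfInjective _
    ((injective_iff_map_eq_zero _).2 inj) _).finrank_eq.symm

/-- the multiplication by `h` is onto the degree `k + 1` -/
def Sj (M : GMod Y) (h : Y.R) (k : ℤ) : Prop :=
  ∀ v ∈ M.wt (dg Y (k + 1)), ∃ u ∈ M.wt (dg Y k), v = h • u

end Bg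

open Bg

namespace Sur

variable (S : Sur Y) {M : GMod Y} {h : Y.R} {k d : ℤ}

/-- the linear forms -/
abbrev lin : Submodule ℂ Y.R := Submodule.span ℂ (Set.range S.x)

theorem lin_wt (hh : h ∈ S.lin) : h ∈ Y.wt (dg Y 1) :=
  Submodule.span_le.2 (Set.range_subset_iff.2 S.x_wt) hh

theorem eq_dg (γ : Y.J → ℤ) : γ = dg Y (γ S.uniq.default) :=
  funext fun j => congrArg γ (S.uniq.uniq j)

include S in
theorem dg_inj {a b : ℤ} (e : dg Y a = dg Y b) : a = b := congrFun e S.uniq.default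

theorem exists_fam (M : GMod Y) : ∃ (T : Finset M.M) (e : M.M → ℤ),
    (∀ t ∈ T, t ∈ M.wt (dg Y (e t))) ∧ ∀ U : ℤ → Submodule ℂ M.M, (∀ t ∈ T, t ∈ U (e t)) →
      (∀ k i, ∀ u ∈ U k, S.x i • u ∈ U (k + 1)) → ∀ k, M.wt (dg Y k) ≤ U k := by
  haveI := S.fin
  haveI : Module.Finite (Algebra.adjoin ℂ (Set.range S.x)) M.M := Module.Finite.trans Y.R M.M
  obtain ⟨T, w, hw, hT⟩ := M.exists_gens (Algebra.adjoin ℂ (Set.range S.x))
  have hw' : ∀ t ∈ T, t ∈ M.wt (dg Y (w t S.uniq.default)) := fun t ht =>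
    mwt_eq (hw t ht) (S.eq_dg _)
  refine ⟨T, fun t => w t S.uniq.default, hw', fun U h1 h2 => ?_⟩
  have hP : ∀ a ∈ Algebra.adjoin ℂ (Set.range S.x), ∀ v : M.M, (∀ k, M.cmp (dg Y k) v ∈ U k) →
      ∀ k, M.cmp (dg Y k) (a • v) ∈ U k := by
    intro a ha
    induction ha using Algebra.adjoin_induction with
    | mem a ha =>
      obtain ⟨i, rfl⟩ := ha
      intro v hv k
      obtain ⟨k, rfl⟩ : ∃ j, k = j + 1 := ⟨k - 1, by omega⟩
      rw [cmp_sm (S.x_wt i)]
      exact h2 _ _ _ (hv k)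
    | algebraMap c =>
      intro v hv k
      rw [algebraMap_smul, map_smul]
      exact (U k).smul_mem _ (hv k)
    | add a b _ _ ha hb =>
      intro v hv k
      rw [add_smul, map_add]
      exact (U k).add_mem (ha v hv k) (hb v hv k)
    | mul a b _ _ ha hb =>
      intro v hv
      rw [mul_smul]
      exact ha _ (hb v hv)
  have key : ∀ v ∈ Submodule.span (Algebra.adjoin ℂ (Set.range S.x)) (T : Set M.M),
      ∀ k, M.cmp (dg Y k) v ∈ U k := by
    intro v hv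
    induction hv using Submodule.span_induction with
    | mem t ht =>
      intro k
      by_cases e : w t S.uniq.default = k
      · rw [← e, M.cmp_of_mem (hw' t ht)]
        exact h1 t ht
      · rw [M.cmp_of_ne (fun e' => e (S.dg_inj e')) (hw' t ht)]
        exact (U k).zero_mem
    | zero => intro k; rw [map_zero]; exact (U k).zero_mem
    | add a b _ _ ha hb => intro k; rw [map_add]; exact (U k).add_mem (ha k) (hb k)
    | smul a v _ hv => exact hP a.1 a.2 v hv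
  intro k v hv
  have := key v (hT ▸ Submodule.mem_top) k
  rwa [M.cmp_of_mem hv] at this

include S in
/-- a module vanishes in small degrees -/
theorem exists_low (M : GMod Y) : ∃ j, Low M j := by
  obtain ⟨T, e, -, h⟩ := S.exists_fam M
  obtain ⟨j, hj⟩ := (T.finite_toSet.image e).bddBelow
  refine ⟨j, fun k hk => le_bot_iff.1 ?_⟩
  have := h (fun k => if k < j then ⊥ else ⊤) (fun t ht => ?_) (fun k i u hu => ?_) k
  · rwa [if_pos hk] at this
  · rw [if_neg (not_lt.2 (hj ⟨t, ht, rfl⟩))]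
    exact Submodule.mem_top
  · split_ifs with h1
    · rw [if_pos (by omega), Submodule.mem_bot] at hu
      rw [hu, smul_zero]
      exact Submodule.zero_mem _
    · exact Submodule.mem_top

/-- the module is generated in the degrees `≤ d` -/
def Gen (M : GMod Y) (d : ℤ) : Prop := ∀ k, d ≤ k → ∀ v ∈ M.wt (dg Y (k + 1)),
  ∃ w : Fin 3 → M.M, (∀ i, w i ∈ M.wt (dg Y k)) ∧ k3 S.x M.M w = v

/-- the part generated by the degree `k` -/
def gs (M : GMod Y) (k : ℤ) : Submodule ℂ M.M :=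
  (Submodule.pi Set.univ fun _ : Fin 3 => M.wt (dg Y k)).map ((k3 S.x M.M).restrictScalars ℂ)

theorem exists_dec (M : GMod Y) : ∃ (T : Finset M.M) (e : M.M → ℤ), ∀ k,
    M.wt (dg Y (k + 1)) ≤ Submodule.span ℂ {t | t ∈ T ∧ e t = k + 1} ⊔ S.gs M k := by
  obtain ⟨T, e, h1, h⟩ := S.exists_fam M
  refine ⟨T, e, fun k => ?_⟩
  have := h (fun k => M.wt (dg Y k) ⊓ (Submodule.span ℂ {t | t ∈ T ∧ e t = k} ⊔ S.gs M (k - 1)))
    (fun t ht => ⟨h1 t ht, Submodule.mem_sup_left (Submodule.subset_span ⟨ht, rfl⟩)⟩)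
    (fun k i u hu => ⟨sm_wt (S.x_wt i) hu.1, Submodule.mem_sup_right ?_⟩) (k + 1)
  · rw [add_sub_cancel_right] at this
    exact this.trans inf_le_right
  · rw [add_sub_cancel_right]
    refine ⟨Pi.single i u, fun j _ => ?_, (k3_apply _ _).trans ?_⟩
    · by_cases e : j = i
      · rw [e, Pi.single_eq_same]
        exact hu.1
      · rw [Pi.single_eq_of_ne e]
        exact Submodule.zero_mem _
    · rw [Finset.sum_eq_single i (fun j _ e => by rw [Pi.single_eq_of_ne e, smul_zero])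
        (fun e => (e (Finset.mem_univ _)).elim), Pi.single_eq_same]

theorem exists_gen (M : GMod Y) : ∃ d, S.Gen M d := by
  obtain ⟨T, e, h⟩ := S.exists_dec M
  obtain ⟨j, hj⟩ := (T.finite_toSet.image e).bddAbove
  refine ⟨j, fun k hk v hv => ?_⟩
  have h1 := h k hv
  rw [Set.eq_empty_of_forall_notMem (s := {t | t ∈ T ∧ e t = k + 1}) fun t ht => by
    have := hj ⟨t, ht.1, ht.2⟩
    omega, Submodule.span_empty, bot_sup_eq] at h1
  obtain ⟨w, h2, h3⟩ := h1
  exact ⟨w, fun i => h2 i trivial, h3⟩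

include S in
/-- the parts are finite dimensional -/
theorem fin_wt (M : GMod Y) (k : ℤ) : FiniteDimensional ℂ (M.wt (dg Y k)) := by
  obtain ⟨j, hj⟩ := S.exists_low M
  obtain ⟨T, e, h⟩ := S.exists_dec M
  rcases lt_or_ge k j with hk | hk
  · rw [hj k hk]
    infer_instance
  replace hk : j - 1 ≤ k := by omega
  induction k, hk using Int.le_induction with
  | base =>
    rw [hj _ (by omega)]
    infer_instance
  | succ k _ ih =>
    rw [← Submodule.fg_iff_finiteDimensional] at ih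
    haveI := (Submodule.fg_iff_finiteDimensional _).1 ((Submodule.fg_span
      (T.finite_toSet.subset (t := {t | t ∈ T ∧ e t = k + 1}) fun t ht => ht.1)).sup
      (show (S.gs M k).FG from (Submodule.fg_pi fun _ => ih).map _))
    exact Submodule.finiteDimensional_of_le (h k)

include S in
theorem hq_eq (N : Submodule Y.R M.M) (hN : M.Stab N) (k : ℤ) : hq M N k = hf (M.quo N hN) k := by
  haveI := S.fin_wt M k
  have h1 := finrank_map_inf ((qm M N hN).restrictScalars ℂ) (M.wt (dg Y k))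
  have h2 : (M.wt (dg Y k)).map ((qm M N hN).restrictScalars ℂ) = (M.quo N hN).wt (dg Y k) := by
    refine le_antisymm ?_ fun v hv => qm_lift hv
    rintro _ ⟨u, hu, rfl⟩
    exact (qm_hom N hN).map_wt hu
  have h3 : LinearMap.ker ((qm M N hN).restrictScalars ℂ) = N.restrictScalars ℂ :=
    Submodule.ext fun _ => qm_zero
  rw [h2, h3] at h1
  rw [hq, hf, ← h1]
  push_cast
  ring

variable {S} in
theorem Gen.quo (hg : S.Gen M d) (N : Submodule Y.R M.M) (hN : M.Stab N) :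
    S.Gen (M.quo N hN) d := by
  intro k hk v hv
  obtain ⟨u, hu, rfl⟩ := qm_lift hv
  obtain ⟨w, h1, rfl⟩ := hg k hk u hu
  refine ⟨fun i => qm M N hN (w i), fun i => (qm_hom N hN).map_wt (h1 i), ?_⟩
  simp only [k3_apply, map_sum, map_smul]

theorem sat_stab {E : Submodule Y.R M.M} (hE : M.Stab E) : M.Stab (S.sat M E) := by
  rintro g v ⟨n, hv⟩
  refine ⟨n, fun i => ?_⟩
  have h1 := hE g _ (hv i)
  rw [M.act_smul, Spc.mem_wt.1 (Spc.pow_mem (S.x_wt i) n) g, smul_assoc] at h1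
  have h2 := E.smul_of_tower_mem (chr (n • dg Y 1) g)⁻¹ h1
  rwa [inv_smul_smul₀ (chr_ne _ _)] at h2

theorem sat_sat {E : Submodule Y.R M.M} {v : M.M} (hv : ∀ i, S.x i • v ∈ S.sat M E) :
    v ∈ S.sat M E := by
  choose n hn using hv
  refine ⟨∑ i, n i + 1, fun i => ?_⟩
  obtain ⟨c, hc⟩ := Nat.exists_eq_add_of_le' (Finset.single_le_sum (f := n)
    (fun _ _ => Nat.zero_le _) (Finset.mem_univ i))
  rw [pow_succ, mul_smul, hc, pow_add, mul_smul]
  exact E.smul_mem _ (hn i i)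

/-- a general linear form is regular -/
theorem exists_nzd (M : GMod Y) (hM : ∀ v : M.M, (∀ i, S.x i • v = 0) → v = 0) (s : Finset Y.Pt) :
    ∃ h ∈ S.lin, (∀ y ∈ s, y.1 h ≠ 0) ∧ ∀ v : M.M, h • v = 0 → v = 0 := by
  haveI := (associatedPrimes.finite Y.R M.M).to_subtype
  let I : associatedPrimes Y.R M.M ⊕ s → Ideal Y.R := Sum.elim (·.1) fun y => RingHom.ker y.1.1
  have hI : ∀ j, ∃ i, S.x i ∉ I j := by
    rintro (⟨p, hp⟩ | y)
    · obtain ⟨h1, v, rfl⟩ := isAssociatedPrime_iff.1 hp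
      by_contra h2
      push Not at h2
      rw [hM v fun i => Submodule.mem_colon_singleton.1 (h2 i)] at h1
      exact h1.ne_top (by simp)
    · exact (S.pts y.1.1).1 y.1.2
  obtain ⟨h, hh⟩ := Submodule.exists_forall_notMem_of_forall_ne_top
    (fun j => ((I j).restrictScalars ℂ).comap S.lin.subtype) fun j e => by
      obtain ⟨i, hi⟩ := hI j
      exact hi (e.ge (Submodule.mem_top (x := ⟨S.x i, Submodule.subset_span ⟨i, rfl⟩⟩)))
  refine ⟨h.1, h.2, fun y hy => hh (.inr ⟨y, hy⟩), fun v hv => ?_⟩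
  by_contra h0
  obtain ⟨p, hp, h1⟩ := exists_le_isAssociatedPrime_of_isNoetherianRing Y.R v h0
  exact hh (.inl ⟨p, hp⟩) (h1 (Submodule.mem_colon_singleton.2 hv))

theorem hf_le (hh : h ∈ S.lin) (inj : ∀ v : M.M, h • v = 0 → v = 0) (k : ℤ) :
    hf M k ≤ hf M (k + 1) := by
  haveI := S.fin_wt M (k + 1)
  rw [← img_rank inj, hf, ← img_eq (S.lin_wt hh)]
  exact_mod_cast Submodule.finrank_mono inf_le_left

theorem hf_lt (hh : h ∈ S.lin) (inj : ∀ v : M.M, h • v = 0 → v = 0) (hn : ¬ Sj M h k) :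
    hf M k < hf M (k + 1) := by
  haveI := S.fin_wt M (k + 1)
  have h1 : img M h k < M.wt (dg Y (k + 1)) :=
    lt_of_le_of_ne (img_eq (S.lin_wt hh) ▸ inf_le_left) fun e => hn fun v hv => by
      obtain ⟨u, h1, h2⟩ := e.ge hv
      exact ⟨u, h1, h2.symm⟩
  rw [← img_rank inj, hf]
  exact_mod_cast Submodule.finrank_lt_finrank_of_lt h1

theorem hf_eq (hh : h ∈ S.lin) (inj : ∀ v : M.M, h • v = 0 → v = 0) (hn : Sj M h k) :
    hf M (k + 1) = hf M k := by
  have h1 : img M h k = M.wt (dg Y (k + 1)) :=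
    le_antisymm (img_eq (S.lin_wt hh) ▸ inf_le_left) fun v hv => by
      obtain ⟨u, h1, h2⟩ := hn v hv
      exact ⟨u, h1, h2.symm⟩
  rw [← img_rank (k := k) inj, hf, h1]

theorem sj_all (hg : S.Gen M d) (hh : h ∈ S.lin) (inj : ∀ v : M.M, h • v = 0 → v = 0) {l : ℕ}
    (hl : hf M (d + l) ≤ l) (k : ℤ) (hk : d + l ≤ k + 1) : Sj M h k := by
  obtain ⟨j, h1, h2, h3⟩ : ∃ j, d - 1 ≤ j ∧ j < d - 1 + (l + 1 : ℕ) ∧ Sj M h j := by
    by_contra h1
    have h2 := grow (hf M) (d - 1) 1 (l + 1) fun j h2 h3 =>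
      S.hf_lt hh inj fun h4 => h1 ⟨j, h2, h3, h4⟩
    have h3 : 0 ≤ hf M (d - 1) := Int.natCast_nonneg _
    rw [show d - 1 + (l + 1 : ℕ) = d + l by push_cast; ring] at h2
    omega
  replace hk : j ≤ k := by omega
  induction k, hk using Int.le_induction with
  | base => exact h3
  | succ k hk ih =>
    intro v hv
    obtain ⟨w, h4, rfl⟩ := hg (k + 1) (by omega) v hv
    choose u h5 h6 using fun i => ih _ (h4 i)
    refine ⟨∑ i, S.x i • u i, Submodule.sum_mem _ fun i _ => sm_wt (S.x_wt i) (h5 i), ?_⟩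
    rw [k3_apply, Finset.smul_sum]
    exact Finset.sum_congr rfl fun i _ => by rw [h6 i, smul_comm]

theorem sat_nil (M : GMod Y) :
    ∃ n : ℕ, Ideal.span (Set.range S.x) ^ n • S.sat M ⊥ ≤ ⊥ := by
  obtain ⟨T, hT⟩ := IsNoetherian.noetherian (S.sat M ⊥)
  have h1 : Ideal.span (Set.range S.x) ≤ (S.sat M ⊥).annihilator.radical := by
    refine Ideal.span_le.2 (Set.range_subset_iff.2 fun i => ?_)
    choose n hn using fun t : T => hT.le (Submodule.subset_span t.2)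
    refine ⟨∑ t, n t, ?_⟩
    rw [← hT, Submodule.mem_annihilator_span]
    intro t
    obtain ⟨c, hc⟩ := Nat.exists_eq_add_of_le' (Finset.single_le_sum (f := n)
      (fun _ _ => Nat.zero_le _) (Finset.mem_univ t))
    rw [hc, pow_add, mul_smul, show S.x i ^ n t • (t : M.M) = 0 from hn t i, smul_zero]
  obtain ⟨n, hn⟩ := Ideal.exists_pow_le_of_le_radical_of_fg h1 (IsNoetherian.noetherian _)
  exact ⟨n, (Submodule.smul_mono_left hn).trans (Submodule.annihilator_smul _).le⟩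

theorem core (F : GMod Y) (hg : S.Gen F d) {h₀ : Y.R} (hh₀ : h₀ ∈ S.lin)
    (i₀ : ∀ v : F.M, h₀ • v = 0 → v = 0) (l : ℕ) (c m : ℤ) (hm : d + l + |c + l * (d + l)| < m)
    (hle : hf F m ≤ l * m + c ∨ ∀ᶠ k in atTop, hf F k ≤ l * k + c) (hev : ∀ᶠ k in atTop, l * k + c ≤ hf F k) :
    (∀ k, m ≤ k → hf F k = l * k + c) ∧ ∃ h₁ ∈ S.lin,
      (∀ k, m ≤ k + 1 → ∀ v ∈ F.wt (dg Y (k + 1)), ∀ u, h₁ • v = h₀ • u →
        ∃ u' ∈ F.wt (dg Y k), v = h₀ • u') ∧
      ∀ k, m ≤ k + 1 → ∀ v ∈ F.wt (dg Y (k + 1)), ∃ u ∈ F.wt (dg Y k), ∃ u' ∈ F.wt (dg Y k),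
        v = h₀ • u + h₁ • u' := by
  have w₀ := S.lin_wt hh₀
  have s₀ := mulS_stab F w₀
  set G := F.quo _ s₀ with hG
  have hA : G.Stab (S.sat G ⊥) := S.sat_stab G.stab_bot
  set A := S.sat G ⊥ with hA'
  set G' := G.quo A hA with hG'
  obtain ⟨h₁, hh₁, -, i₁⟩ := S.exists_nzd G' (fun v hv => by
    obtain ⟨u, rfl⟩ := qm_surj v
    exact qm_zero.2 (S.sat_sat fun i => qm_zero.1 ((map_smul _ _ _).trans (hv i)))) ∅
  have w₁ := S.lin_wt hh₁
  have n₁ : ∀ v : G.M, h₁ • v ∈ A → v ∈ A := fun v hv =>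
    qm_zero.1 (i₁ (qm G A hA v) ((map_smul _ _ _).symm.trans (qm_zero.2 hv)))
  let a : ℤ → ℕ := fun k => finrank ℂ ↥(G.wt (dg Y k) ⊓ A.restrictScalars ℂ)
  have e1 : ∀ k, hf F (k + 1) = hf F k + hf G' (k + 1) + a (k + 1) := fun k => by
    have h1 := S.hq_eq _ s₀ (k + 1)
    have h2 := S.hq_eq _ hA (k + 1)
    rw [hq, img_eq w₀, img_rank i₀] at h1
    change hf F (k + 1) - hf F k = hf G (k + 1) at h1
    change hf G (k + 1) - a (k + 1) = hf G' (k + 1) at h2
    omega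
  have key : ∀ m, d + l + |c + l * (d + l)| < m → hf F m ≤ l * m + c →
      ∃ k, d + l ≤ k ∧ k < m ∧ hf F (k + 1) ≤ hf F k + l := by
    intro m hm hle
    by_contra h1
    have h0 := le_abs_self (c + l * (d + l))
    have h0' := abs_nonneg (c + l * (d + l))
    obtain ⟨n, rfl⟩ : ∃ n : ℕ, m = d + l + n := ⟨(m - (d + l)).toNat, by omega⟩
    have h2 := grow (hf F) (d + l) (l + 1) n fun j h2 h3 => by
      by_contra h4
      exact h1 ⟨j, h2, h3, by omega⟩
    have h3 : 0 ≤ hf F (d + l) := Int.natCast_nonneg _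
    nlinarith
  replace hle : ∃ M, m ≤ M ∧ hf F M ≤ l * M + c :=
    hle.elim (fun h => ⟨m, le_rfl, h⟩) fun h => ((eventually_ge_atTop m).and h).exists
  obtain ⟨M, hM, hle⟩ := hle
  have c1 : hf G' (d + l) ≤ l := by
    obtain ⟨k₂, b1, -, b3⟩ := key M (hm.trans_le hM) hle
    obtain ⟨n, hn⟩ : ∃ n : ℕ, k₂ + 1 = d + l + n := ⟨(k₂ + 1 - (d + l)).toNat, by omega⟩
    have h2 := grow (hf G') (d + l) 0 n fun j _ _ => (add_zero _).le.trans (S.hf_le hh₁ i₁ j)
    have h3 := e1 k₂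
    rw [← hn] at h2
    omega
  have sj := S.sj_all ((hg.quo _ s₀).quo A hA) hh₁ i₁ c1
  have c2 : ∀ k, d + l ≤ k → hf G' k = hf G' (d + l) := fun k hk => by
    induction k, hk using Int.le_induction with
    | base => rfl
    | succ k hk ih => rw [S.hf_eq hh₁ i₁ (sj k (by omega)), ih]
  have dec : ∀ k, d + l ≤ k + 1 → ∀ v ∈ G.wt (dg Y (k + 1)), ∃ u ∈ G.wt (dg Y k), v - h₁ • u ∈ A := by
    intro k hk v hv
    obtain ⟨u, h1, h2⟩ := sj k hk _ ((qm_hom A hA).map_wt hv)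
    obtain ⟨u, h3, rfl⟩ := qm_lift h1
    exact ⟨u, h3, qm_zero.1 (by rw [map_sub, map_smul, h2, sub_self])⟩
  have stp : ∀ k, d + l ≤ k → ∀ B : Submodule Y.R G.M, (∀ v ∈ G.wt (dg Y k), v ∈ A → v ∈ B) →
      ∀ v ∈ G.wt (dg Y (k + 1)), v ∈ A → v ∈ Ideal.span (Set.range S.x) • B := by
    intro k hk B hB v hv hv'
    obtain ⟨k, rfl⟩ : ∃ j, k = j + 1 := ⟨k - 1, by omega⟩
    obtain ⟨w, h1, rfl⟩ := hg.quo _ s₀ (k + 1) (by omega) v hv
    choose u h2 h3 using fun i => dec k hk _ (h1 i)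
    have e : k3 S.x G.M w = ∑ i, S.x i • (w i - h₁ • u i) + h₁ • ∑ i, S.x i • u i := by
      rw [k3_apply, Finset.smul_sum, ← Finset.sum_add_distrib]
      exact Finset.sum_congr rfl fun i _ => by rw [smul_sub, smul_comm h₁, sub_add_cancel]
    have h4 : ∑ i, S.x i • u i ∈ A := n₁ _ (by
      rw [← A.add_mem_iff_right (A.sum_mem fun i _ => A.smul_mem (S.x i) (h3 i)), ← e]
      exact hv')
    rw [show k3 S.x (F.quo _ s₀).M w = _ from e]
    refine Submodule.add_mem _ (Submodule.sum_mem _ fun i _ => Submodule.smul_mem_smul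
      (Ideal.subset_span ⟨i, rfl⟩) (hB _ (Submodule.sub_mem _ (h1 i) (sm_wt w₁ (h2 i))) (h3 i)))
      (Submodule.smul_mem_smul (Submodule.span_subset_span ℂ Y.R _ hh₁)
        (hB _ (Submodule.sum_mem _ fun i _ => sm_wt (S.x_wt i) (h2 i)) h4))
  have zer : ∀ j, d + l ≤ j → (∀ v ∈ G.wt (dg Y j), v ∈ A → v = 0) → ∀ k, j ≤ k →
      ∀ v ∈ G.wt (dg Y k), v ∈ A → v = 0 := fun j hj h0 k hk => by
    induction k, hk using Int.le_induction with
    | base => exact h0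
    | succ k hk ih =>
      intro v hv hv'
      simpa using stp k (by omega) ⊥ ih v hv hv'
  have az : ∀ k, a k = 0 ↔ ∀ v ∈ G.wt (dg Y k), v ∈ A → v = 0 := fun k => by
    haveI := S.fin_wt G k
    rw [Submodule.finrank_eq_zero, Submodule.eq_bot_iff]
    exact ⟨fun h v h1 h2 => h v ⟨h1, h2⟩, fun h v h1 => h v h1.1 h1.2⟩
  obtain ⟨K, hK⟩ := eventually_atTop.1 hev
  have c3 : hf G' (d + l) = l := by
    obtain ⟨N, hN⟩ := S.sat_nil G
    have h1 : ∀ n : ℕ, ∀ v ∈ G.wt (dg Y (d + l + n)), v ∈ A →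
        v ∈ Ideal.span (Set.range S.x) ^ n • A := fun n => by
      induction n with
      | zero => intro v _ hv; simpa using hv
      | succ n ih =>
        rw [pow_succ', mul_smul, Nat.cast_succ, ← add_assoc]
        exact stp _ (by omega) _ ih
    have h2 := zer (d + l + N) (by omega) fun v hv hv' => hN (h1 N v hv hv')
    by_contra h3
    obtain ⟨n, h4, h5⟩ : ∃ n : ℕ, K ≤ d + l + N + n ∧
        hf F (d + l + N) - l * (d + l + N) - c < n :=
      ⟨(K - (d + l + N)).toNat + (hf F (d + l + N) - l * (d + l + N) - c).toNat + 1, by omega,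
        by omega⟩
    have h6 := grow (fun k => -hf F k) (d + l + N) (1 - l) n fun j h6 _ => by
      have h7 := e1 j
      rw [c2 _ (by omega), (az _).2 (h2 _ (by omega))] at h7
      omega
    have h7 := hK _ h4
    beta_reduce at h6
    nlinarith
  replace hle : hf F m ≤ l * m + c := by
    have h0 := abs_nonneg (c + l * (d + l))
    obtain ⟨n, rfl⟩ : ∃ n : ℕ, M = m + n := ⟨(M - m).toNat, by omega⟩
    have h1 := grow (hf F) m l n fun j h6 _ => by
      have h7 := e1 j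
      rw [c2 _ (by omega), c3] at h7
      omega
    linarith
  obtain ⟨k₂, b1, b2, b3⟩ := key m hm hle
  have z : ∀ k, m ≤ k → ∀ v ∈ G.wt (dg Y k), v ∈ A → v = 0 := fun k hk =>
    zer (k₂ + 1) (by omega) ((az _).1 (by
      have h7 := e1 k₂
      rw [c2 _ (by omega), c3] at h7
      omega)) k (by omega)
  have c4 : ∀ k, m ≤ k → hf F k - l * k = hf F m - l * m := fun k hk => by
    induction k, hk using Int.le_induction with
    | base => rfl
    | succ k hk ih =>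
      rw [e1, c2 _ (by omega), c3, (az _).2 (z _ (by omega)), ← ih]
      push_cast
      ring
  refine ⟨fun k hk => ?_, h₁, hh₁, fun k hk v hv u e => ?_, fun k hk v hv => ?_⟩
  · have h1 := c4 k hk
    have h2 := c4 _ (le_max_left m K)
    have h3 := hK _ (le_max_right m K)
    omega
  · have h1 : h₁ • qm F _ s₀ v = 0 := (map_smul _ _ _).symm.trans (qm_zero.2 ⟨u, e.symm⟩)
    obtain ⟨u', h2⟩ := qm_zero.1
      (z _ hk _ ((qm_hom _ s₀).map_wt hv) (n₁ _ (h1 ▸ A.zero_mem)))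
    exact div_wt w₀ hv h2
  · obtain ⟨u, h1, h2⟩ := dec k (by omega) _ ((qm_hom _ s₀).map_wt hv)
    obtain ⟨u, h3, rfl⟩ := qm_lift h1
    have h4 := Submodule.sub_mem _ hv (sm_wt w₁ h3)
    obtain ⟨u', h5⟩ := qm_zero.1 (z _ hk _ ((qm_hom _ s₀).map_wt h4)
      (by rw [map_sub, map_smul]; exact h2))
    obtain ⟨u'', h6, h7⟩ := div_wt w₀ h4 h5
    exact ⟨u'', h6, u, h3, sub_eq_iff_eq_add.1 h7⟩

theorem exists_k3 (hh : h ∈ S.lin) : ∃ t : Fin 3 → ℂ, ∀ v : M.M,
    k3 S.x M.M (fun i => t i • v) = h • v := by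
  obtain ⟨t, rfl⟩ := (Submodule.mem_span_range_iff_exists_fun ℂ).1 hh
  refine ⟨t, fun v => ?_⟩
  rw [k3_apply, Finset.sum_smul]
  exact Finset.sum_congr rfl fun i _ => by rw [smul_assoc, smul_comm]

/-- **the uniform regularity bound** -/
theorem exists_big (V : GMod Y) (l : ℕ) (c : ℤ) : ∃ m₀, ∀ m, m₀ ≤ m → S.Big V l c m := by
  obtain ⟨d, hg⟩ := S.exists_gen V
  refine ⟨d + l + |c + l * (d + l)| + 1, fun m hm E hE hle hev => ?_⟩
  have hd : d ≤ m := by
    have := abs_nonneg (c + l * (d + l))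
    omega
  simp only [S.hq_eq E hE.1] at hle hev ⊢
  have key : ∀ s : Finset Y.Pt, ∃ h₀ ∈ S.lin, (∀ y ∈ s, y.1 h₀ ≠ 0) ∧
      (∀ v : (V.quo E hE.1).M, h₀ • v = 0 → v = 0) ∧ _ := fun s => by
    obtain ⟨h₀, h1, h2, h3⟩ := S.exists_nzd (V.quo E hE.1) (fun v hv => by
      obtain ⟨u, rfl⟩ := qm_surj v
      exact qm_zero.2 (hE.2 u fun i => qm_zero.1 ((map_smul _ _ _).trans (hv i)))) s
    exact ⟨h₀, h1, h2, h3, S.core _ (hg.quo E hE.1) h1 h3 l c m hm hle hev⟩
  refine ⟨(key ∅).elim fun _ h => h.2.2.2.1, fun k hk v hv hv' => ?_, fun s => ?_⟩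
  · obtain ⟨h₀, hh₀, -, i₀, -, h₁, hh₁, hr, hs⟩ := key ∅
    have w₀ := S.lin_wt hh₀
    have w₁ := S.lin_wt hh₁
    obtain ⟨k, rfl⟩ : ∃ j, k = j + 1 := ⟨k - 1, by omega⟩
    obtain ⟨b, h1, rfl⟩ := hg (k + 1) (by omega) v hv
    have h2 : ∀ i, ∃ u ∈ V.wt (dg Y k), ∃ u' ∈ V.wt (dg Y k), b i - (h₀ • u + h₁ • u') ∈ E := by
      intro i
      obtain ⟨u, h2, u', h3, h4⟩ := hs k hk _ ((qm_hom E hE.1).map_wt (h1 i))
      obtain ⟨u, h2', rfl⟩ := qm_lift h2
      obtain ⟨u', h3', rfl⟩ := qm_lift h3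
      exact ⟨u, h2', u', h3', (qm_zero (hN := hE.1)).1
        (by rw [map_sub, map_add, map_smul, map_smul, h4, sub_self])⟩
    choose u h2 u' h3 h4 using h2
    have hC : ∑ i, S.x i • u i ∈ V.wt (dg Y (k + 1)) :=
      Submodule.sum_mem _ fun i _ => sm_wt (S.x_wt i) (h2 i)
    have hC' : ∑ i, S.x i • u' i ∈ V.wt (dg Y (k + 1)) :=
      Submodule.sum_mem _ fun i _ => sm_wt (S.x_wt i) (h3 i)
    have e : k3 S.x V.M b = k3 S.x V.M (fun i => b i - (h₀ • u i + h₁ • u' i)) +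
        (h₀ • ∑ i, S.x i • u i + h₁ • ∑ i, S.x i • u' i) := by
      rw [k3_apply, k3_apply, Finset.smul_sum, Finset.smul_sum, ← Finset.sum_add_distrib,
        ← Finset.sum_add_distrib]
      exact Finset.sum_congr rfl fun i _ => by
        rw [smul_sub, smul_add, smul_comm h₀, smul_comm h₁, sub_add_cancel]
    generalize ∑ i, S.x i • u i = C at hC e
    generalize ∑ i, S.x i • u' i = C' at hC' e
    have h5 : h₀ • C + h₁ • C' ∈ E := by
      rw [e, E.add_mem_iff_right] at hv'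
      · exact hv'
      · rw [k3_apply]
        exact E.sum_mem fun i _ => E.smul_mem _ (h4 i)
    obtain ⟨p, h6', h7⟩ := hr k hk _ ((qm_hom E hE.1).map_wt hC') (-qm V E hE.1 C) (by
      rw [smul_neg, eq_neg_iff_add_eq_zero, add_comm, ← map_smul, ← map_smul, ← map_add]
      exact qm_zero.2 h5)
    obtain ⟨p, h6, rfl⟩ := qm_lift h6'
    have h8 : C' - h₀ • p ∈ E := (qm_zero (hN := hE.1)).1 (by rw [map_sub, map_smul, h7, sub_self])
    have e' : h₀ • C + h₁ • C' = h₀ • (C + h₁ • p) + h₁ • (C' - h₀ • p) := by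
      rw [smul_add, smul_sub, smul_comm h₀ h₁, add_add_sub_cancel]
    have h9 : C + h₁ • p ∈ E := (qm_zero (hN := hE.1)).1 (i₀ _ (by
      rw [← map_smul, qm_zero, ← E.add_mem_iff_left (E.smul_mem h₁ h8), ← e']
      exact h5))
    obtain ⟨t₀, ht₀⟩ := S.exists_k3 (M := V) hh₀
    obtain ⟨t₁, ht₁⟩ := S.exists_k3 (M := V) hh₁
    refine ⟨(fun i => b i - (h₀ • u i + h₁ • u' i)) +
      ((fun i => t₀ i • (C + h₁ • p)) + fun i => t₁ i • (C' - h₀ • p)), fun i => ⟨?_, ?_⟩, ?_⟩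
    · exact add_mem (sub_mem (h1 i) (add_mem (sm_wt w₀ (h2 i)) (sm_wt w₁ (h3 i))))
        (add_mem (Submodule.smul_mem _ _ (add_mem hC (sm_wt w₁ h6)))
          (Submodule.smul_mem _ _ (sub_mem hC' (sm_wt w₀ h6))))
    · exact add_mem (h4 i) (add_mem (E.smul_of_tower_mem _ h9) (E.smul_of_tower_mem _ h8))
    · rw [map_add, map_add, ht₀, ht₁, ← e', ← e]
  · obtain ⟨h₀, hh₀, h1, i₀, -, h₁, hh₁, hr, hs⟩ := key s
    exact ⟨h₀, hh₀, h₁, hh₁, h1, fun _ _ v _ => i₀ v, fun k hk v hv u _ => hr k (by omega) v hv u,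
      fun k hk v hv => hs (k + 1) (by omega) v (mwt_eq hv (congrArg _ (by ring)))⟩

end Sur

end Vale.Agent.P297Z.Qt
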