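import Vale.Agent.P297Z.Quot.Sk
import Vale.Agent.P297Z.Quot.Big
import Vale.Agent.P297Z.K.BC

/-!
# P297: the block BAS
-/

set_option linter.all false

open Filter Module

noncomputable section

namespace Vale.Agent.P297Z.Qt

variable {Y : Spc}

namespace Bs

open Bg

section Kos

variable {R M : Type} [CommRing R] [AddCommGroup M] [Module R M] (y : Fin 3 → R)

theorem k1_apply (v : M) (i : Fin 3) : k1 y M v i = y i • v := rfl

theorem k2_apply (w : Fin 3 → M) (i : Fin 3) :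
    k2 y M w i = y (i + 1) • w (i + 2) - y (i + 2) • w (i + 1) := rfl

theorem kos1 {w : Fin 3 → M} (h : k2 y M w = 0) (i : Fin 3) : k1 y M (w i) = y i • w := by
  have h0 : y 1 • w 2 = y 2 • w 1 := sub_eq_zero.1 (congrFun h 0)
  have h1 : y 2 • w 0 = y 0 • w 2 := sub_eq_zero.1 (congrFun h 1)
  have h2 : y 0 • w 1 = y 1 • w 0 := sub_eq_zero.1 (congrFun h 2)
  funext j
  fin_cases i <;> fin_cases j
  exacts [rfl, h2.symm, h1, h2, rfl, h0.symm, h1.symm, h0, rfl]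

theorem kos2 {w : Fin 3 → M} (h : k3 y M w = 0) (i : Fin 3) : ∃ w', k2 y M w' = y i • w := by
  rw [k3_apply, Fin.sum_univ_three] at h
  fin_cases i
  · refine ⟨![0, w 2, -w 1], funext fun j => ?_⟩
    fin_cases j
    · change y 1 • -w 1 - y 2 • w 2 = y 0 • w 0
      linear_combination (norm := module) -h
    · change y 2 • (0 : M) - y 0 • -w 1 = y 0 • w 1
      module
    · change y 0 • w 2 - y 1 • (0 : M) = y 0 • w 2
      module
  · refine ⟨![-w 2, 0, w 0], funext fun j => ?_⟩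
    fin_cases j
    · change y 1 • w 0 - y 2 • (0 : M) = y 1 • w 0
      module
    · change y 2 • -w 2 - y 0 • w 0 = y 1 • w 1
      linear_combination (norm := module) -h
    · change y 0 • (0 : M) - y 1 • -w 2 = y 1 • w 2
      module
  · refine ⟨![w 1, -w 0, 0], funext fun j => ?_⟩
    fin_cases j
    · change y 1 • (0 : M) - y 2 • -w 0 = y 2 • w 0
      module
    · change y 2 • w 1 - y 0 • (0 : M) = y 2 • w 1
      module
    · change y 0 • -w 0 - y 1 • w 1 = y 2 • w 2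
      linear_combination (norm := module) -h

theorem kos3 (v : M) (i : Fin 3) : k3 y M (Pi.single i v) = y i • v := by
  rw [k3_apply, Finset.sum_eq_single i (fun j _ e => by rw [Pi.single_eq_of_ne e, smul_zero])
    (fun e => (e (Finset.mem_univ _)).elim), Pi.single_eq_same]

end Kos

theorem act_sm (M : GMod Y) {γ : Y.J → ℤ} {y : Y.R} (hy : y ∈ Y.wt γ) (g : Y.J → ℂˣ) (v : M.M) :
    M.act g (y • v) = chr γ g • y • M.act g v := by
  rw [M.act_smul, Spc.mem_wt.1 hy g, smul_assoc]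

theorem stab_ker {A B : GMod Y} (u : A.M →ₗ[Y.R] B.M) (γ : Y.J → ℤ)
    (h : ∀ g a, B.act g (u a) = chr γ g • u (A.act g a)) : A.Stab (LinearMap.ker u) := by
  intro g a ha
  have := h g a
  rw [LinearMap.mem_ker.1 ha, map_zero] at this
  exact (smul_eq_zero.1 this.symm).resolve_left (chr_ne _ _)

theorem cmp_sm' (M : GMod Y) {d j k : ℤ} {y : Y.R} (hy : y ∈ Y.wt (dg Y d)) (e : d + j = k)
    (v : M.M) : y • M.cmp (dg Y j) v = M.cmp (dg Y k) (y • v) := e ▸ (M.cmp_smul hy (dg Y j) v).symm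

theorem pi_wt {ι : Type} [Fintype ι] {M : ι → GMod Y} {γ : Y.J → ℤ} {v : (GMod.pi M).M} :
    v ∈ (GMod.pi M).wt γ ↔ ∀ i, v i ∈ (M i).wt γ :=
  ⟨fun h i g => congrFun (h g) i, fun h g => funext fun i => h i g⟩

variable {ι : Type} [Fintype ι]

open Classical in
/-- the basis of a sum of twists -/
def fe (δ : ι → Y.J → ℤ) (i : ι) : (Fr δ).M :=
  sgl (fun i => (GMod.one Y).shift (-δ i)) i (sh (GMod.one Y) (-δ i) (1 : Y.R))

theorem fe_wt (δ : ι → Y.J → ℤ) (i : ι) : fe δ i ∈ (Fr δ).wt (δ i) := by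
  classical
  exact sgl_wt (M := fun i => (GMod.one Y).shift (-δ i))
    (sh_wt (mwt_eq (M := GMod.one Y) Y.one_mem (add_neg_cancel _).symm))

theorem fr_apply {δ : ι → Y.J → ℤ} {N : Type} [AddCommGroup N] [Module Y.R N]
    (f : (Fr δ).M →ₗ[Y.R] N) (a : (Fr δ).M) :
    f a = Fintype.linearCombination Y.R (fun i => f (fe δ i)) a := by
  classical
  refine (LinearMap.pi_apply_eq_sum_univ (show (ι → Y.R) →ₗ[Y.R] N from f) a).trans
    (Finset.sum_congr rfl fun i _ => congrArg (fun t => (show Y.R from a i) • f t) (funext fun j => ?_))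
  change _ = Pi.single (M := fun _ => Y.R) i 1 j
  rw [Pi.single_apply]
  exact if_congr eq_comm rfl rfl

theorem lift_fr {δ : ι → Y.J → ℤ} {A B : GMod Y} {π : A.M →ₗ[Y.R] B.M} (h : A.IsHom B π)
    (hs : Function.Surjective π) {f : (Fr δ).M →ₗ[Y.R] B.M} (hf : (Fr δ).IsHom B f) :
    ∃ s : (Fr δ).M →ₗ[Y.R] A.M, (Fr δ).IsHom A s ∧ ∀ a, π (s a) = f a := by
  have h1 : ∀ i, ∃ a ∈ A.wt (δ i), π a = f (fe δ i) := fun i => by
    obtain ⟨a, ha⟩ := hs (f (fe δ i))
    rw [← ha]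
    exact h.exists_preimage (ha ▸ hf.map_wt (fe_wt δ i))
  choose v h2 h3 using h1
  refine ⟨Fintype.linearCombination Y.R v, lc_hom δ v h2, fun a => ?_⟩
  rw [fr_apply f]
  change π (∑ i, (show Y.R from a i) • v i) = ∑ i, (show Y.R from a i) • f (fe δ i)
  rw [map_sum]
  exact Finset.sum_congr rfl fun i _ => by rw [map_smul, h3]

theorem ext_gen {B G F : GMod Y} {k : ℤ} {π : F.M →ₗ[Y.R] B.M} (h : F.IsHom B π)
    (hs : Function.Surjective π)
    (H : ∀ φ ∈ ((F.sub _ h.stab_ker).hom G).wt (dg Y k), ∃ ψ ∈ (F.hom G).wt (dg Y k),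
      ∀ a : LinearMap.ker π, ap ψ a.1 = ap φ a)
    {A : GMod Y} {π' : A.M →ₗ[Y.R] B.M} (h' : A.IsHom B π') {α : F.M →ₗ[Y.R] A.M}
    (hα : F.IsHom A α) (e : ∀ a, π' (α a) = π a) :
    ∀ φ ∈ ((A.sub _ h'.stab_ker).hom G).wt (dg Y k), ∃ ψ ∈ (A.hom G).wt (dg Y k),
      ∀ a : LinearMap.ker π', ap ψ a.1 = ap φ a := by
  intro φ hφ
  let β : (F.sub _ h.stab_ker).M →ₗ[Y.R] (A.sub _ h'.stab_ker).M :=
    α.restrict (p := LinearMap.ker π) (q := LinearMap.ker π') fun a ha => (e a).trans ha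
  have hβ : (F.sub _ h.stab_ker).IsHom (A.sub _ h'.stab_ker) β := fun g a => Subtype.ext (hα g a.1)
  obtain ⟨ψ, h1, h2⟩ := H _ ((rs_hom hβ G).map_wt hφ)
  let T : (F.M × (A.sub _ h'.stab_ker).M) →ₗ[Y.R] A.M := α.coprod (LinearMap.ker π').subtype
  have hT : Function.Surjective T := fun a => by
    obtain ⟨f, hf⟩ := hs (π' a)
    exact ⟨(f, ⟨a - α f, by rw [LinearMap.mem_ker, map_sub, e, hf, sub_self]⟩), add_sub_cancel _ _⟩
  have hU : LinearMap.ker T ≤ LinearMap.ker ((ap ψ).coprod (ap φ)) := by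
    rintro ⟨f, n⟩ h0
    have h3 : α f + n.1 = 0 := h0
    have h4 : π f = 0 := by
      rw [← e, eq_neg_of_add_eq_zero_left h3, map_neg, show π' n.1 = 0 from n.2, neg_zero]
    change ap ψ f + ap φ n = 0
    exact (congrArg (· + ap φ n) (h2 ⟨f, h4⟩)).trans ((map_add (ap φ) (β ⟨f, h4⟩) n).symm.trans
      ((congrArg (ap φ) (Subtype.ext h3)).trans (map_zero _)))
  obtain ⟨χ, hχ⟩ : ∃ χ : A.M →ₗ[Y.R] G.M, ∀ f n, χ (T (f, n)) = ap ψ f + ap φ n :=
    ⟨(LinearMap.ker T).liftQ _ hU ∘ₗ (T.quotKerEquivOfSurjective hT).symm.toLinearMap, fun f n => by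
      rw [LinearMap.comp_apply, LinearEquiv.coe_coe, LinearMap.quotKerEquivOfSurjective_symm_apply]
      rfl⟩
  refine ⟨ap.symm χ, fun g => ap.injective (LinearMap.ext fun a => ?_), fun a => ?_⟩
  · obtain ⟨⟨f, n⟩, rfl⟩ := hT a
    have h3 : A.act g⁻¹ (T (f, n)) = T (F.act g⁻¹ f, (A.sub _ h'.stab_ker).act g⁻¹ n) :=
      (map_add (A.act g⁻¹) _ _).trans (congrArg (· + _) (hα _ _).symm)
    rw [act_ap, ap_smul, LinearEquiv.apply_symm_apply, h3, hχ, hχ, map_add, ← act_ap, ← act_ap,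
      h1 g, hφ g, ap_smul, ap_smul, smul_add]
  · have h3 := hχ 0 a
    rw [map_zero, zero_add] at h3
    rw [LinearEquiv.apply_symm_apply, ← h3]
    exact congrArg χ ((zero_add _).symm.trans (congrArg (· + _) (map_zero α).symm))

theorem ext_of (B G : GMod Y) (k : ℤ) (δ : ι → Y.J → ℤ) (π : (Fr δ).M →ₗ[Y.R] B.M)
    (h : (Fr δ).IsHom B π) (hs : Function.Surjective π)
    (H : ∀ φ ∈ (((Fr δ).sub _ h.stab_ker).hom G).wt (dg Y k), ∃ ψ ∈ ((Fr δ).hom G).wt (dg Y k),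
      ∀ a : LinearMap.ker π, ap ψ a.1 = ap φ a) : Ext1 B G k := fun A π' h' hs' => by
  obtain ⟨α, hα, e⟩ := lift_fr h' hs' h
  exact ext_gen h hs H h' hα e

theorem ext_fr (δ : ι → Y.J → ℤ) (G : GMod Y) (k : ℤ) : Ext1 (Fr δ) G k :=
  ext_of _ G k δ LinearMap.id (GMod.IsHom.id _) Function.surjective_id fun φ _ =>
    ⟨0, Submodule.zero_mem _, fun a => by
      rw [map_zero, LinearMap.zero_apply, show a = 0 from Subtype.ext a.2]
      exact (map_zero (ap φ)).symm⟩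

variable (S : Sur Y)

include S

theorem proj : Y.IsProj := by
  haveI := S.uniq
  refine Spc.isProj_of (fun _ => Set.range S.x) (fun _ => Set.finite_range _) ?_ ?_ fun z => ?_
  · rintro j _ ⟨i, rfl⟩
    refine wt_eq (S.x_wt i) (funext fun l => ?_)
    rw [Subsingleton.elim l j, Pi.single_eq_same]
    rfl
  · rw [Set.iUnion_const]
    exact S.fin
  · rw [S.pts, forall_const]
    exact ⟨fun ⟨i, hi⟩ => ⟨_, ⟨i, rfl⟩, hi⟩, fun ⟨_, ⟨i, e⟩, hi⟩ => ⟨i, e ▸ hi⟩⟩

theorem ev_of {P : (Y.J → ℤ) → Prop} (h : ∃ k₀, ∀ k, k₀ ≤ k → P k) (c : ℤ) :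
    ∀ᶠ k in atTop, P (dg Y (k + c)) := by
  obtain ⟨k₀, h⟩ := h
  filter_upwards [eventually_ge_atTop (k₀ S.uniq.default - c)] with k hk
  refine h _ fun j => ?_
  rw [S.uniq.uniq j]
  exact sub_le_iff_le_add.1 hk

theorem ev_of' {P : (Y.J → ℤ) → Prop} (h : ∃ k₀, ∀ k, k₀ ≤ k → P k) :
    ∀ᶠ k in atTop, P (dg Y k) := by
  simpa only [add_zero] using ev_of S h 0

theorem of_ev {P : (Y.J → ℤ) → Prop} (h : ∀ᶠ k in atTop, P (dg Y k)) :
    ∃ k₀, ∀ k, k₀ ≤ k → P k := by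
  obtain ⟨K, h⟩ := eventually_atTop.1 h
  exact ⟨dg Y K, fun k hk => S.eq_dg k ▸ h _ (hk S.uniq.default)⟩

theorem exists_pow (z : Y.Pt) : ∃ i, ∀ n : ℕ, z.1 (S.x i ^ n) ≠ 0 :=
  ((S.pts z.1).1 z.2).imp fun i hi n => by
    rw [map_pow]
    exact pow_ne_zero n hi

theorem xp_wt (d : ℕ) (i : Fin 3) : S.xp d i ∈ Y.wt (dg Y d) :=
  wt_eq (Spc.pow_mem (S.x_wt i) d) (funext fun _ => by simp [dg])

theorem kos (d : ℕ) (M : GMod Y) : ∀ᶠ k in atTop, KosEx (S.xp d) d M k := by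
  have hY := proj S
  have w := xp_wt S d
  let P : GMod Y := GMod.pi fun _ : Fin 3 => M
  have h0 := hY.zero_sub M (stab_ker (B := P) (k1 (S.xp d) M.M) (dg Y d) fun g a =>
    funext fun i => act_sm M (w i) g a) ⊥ fun z b hb =>
      (exists_pow S z).elim fun i hi => ⟨_, hi d, congrFun hb i⟩
  have h1 := hY.zero_sub P (stab_ker (A := P) (B := P) (k2 (S.xp d) M.M) (dg Y d) fun g a =>
    funext fun i => (map_sub (M.act g) _ _).trans
      ((congrArg₂ (· - ·) (act_sm M (w _) g _) (act_sm M (w _) g _)).trans (smul_sub _ _ _).symm))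
    (LinearMap.range (k1 (S.xp d) M.M)) fun z b hb =>
      (exists_pow S z).elim fun i hi => ⟨_, hi d, _, kos1 _ hb i⟩
  have h2 := hY.zero_sub P (stab_ker (A := P) (B := M) (k3 (S.xp d) M.M) (dg Y d) fun g a => by
      refine (congrArg _ (k3_apply _ a)).trans (Eq.trans ?_ (congrArg _ (k3_apply _ _).symm))
      rw [map_sum, Finset.smul_sum]
      exact Finset.sum_congr rfl fun i _ => act_sm M (w i) g _)
    (LinearMap.range (k2 (S.xp d) M.M)) fun z b hb =>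
      (exists_pow S z).elim fun i hi => ⟨_, hi d, kos2 _ hb i⟩
  have h3 := hY.zero_top M (LinearMap.range (k3 (S.xp d) M.M)) fun z b =>
      (exists_pow S z).elim fun i hi => ⟨_, hi d, _, kos3 _ b i⟩
  filter_upwards [ev_of' S h0, ev_of S h1 d, ev_of S h2 (2 * d), ev_of S h3 (3 * d)]
    with k h0 h1 h2 h3
  refine ⟨⟨fun v hv e => h0 v e hv, fun u hu e => ?_⟩, fun u hu e => ?_, fun v hv => ?_⟩
  · obtain ⟨v, rfl⟩ := h1 u e (pi_wt.2 hu)
    exact ⟨_, M.cmp_mem _ v, funext fun i =>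
      (cmp_sm' M (w i) (add_comm _ _) v).trans (M.cmp_of_mem (hu i))⟩
  · obtain ⟨v, hv⟩ : ∃ v, k2 (S.xp d) M.M v = u := h2 u e (pi_wt.2 hu)
    refine ⟨fun i => M.cmp _ (v i), fun i => M.cmp_mem _ _, funext fun i => ?_⟩
    rw [← M.cmp_of_mem (hu i), ← hv, k2_apply, k2_apply, map_sub,
      cmp_sm' M (w _) (k := k + 2 * d) (by ring), cmp_sm' M (w _) (k := k + 2 * d) (by ring)]
  · obtain ⟨u, rfl⟩ := h3 v hv
    refine ⟨fun i => M.cmp _ (u i), fun i => M.cmp_mem _ _, ?_⟩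
    rw [← M.cmp_of_mem hv, k3_apply, k3_apply, map_sum]
    exact Finset.sum_congr rfl fun i _ => cmp_sm' M (w i) (by ring) _

theorem le_sat (V : GMod Y) (E : Submodule Y.R V.M) : E ≤ S.sat V E := fun v hv =>
  ⟨0, fun _ => E.smul_mem _ hv⟩

theorem sat_eq (V : GMod Y) (E : Submodule Y.R V.M) (hE : S.Sat V E) : S.sat V E = E := by
  refine le_antisymm ?_ (le_sat S V E)
  obtain ⟨h, hh, -, h1⟩ := S.exists_nzd (V.quo E hE.1) (fun v hv => by
    obtain ⟨u, rfl⟩ := qm_surj v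
    exact qm_zero.2 (hE.2 u fun i => qm_zero.1 ((map_smul _ _ _).trans (hv i)))) ∅
  rintro v ⟨n, hv⟩
  obtain ⟨N, hN⟩ : h ∈ (E.colon {v}).radical :=
    (Submodule.span_le (p := (E.colon {v}).radical.restrictScalars ℂ)).2
      (Set.range_subset_iff.2 fun i => ⟨n, Submodule.mem_colon_singleton.2 (hv i)⟩) hh
  rw [Submodule.mem_colon_singleton] at hN
  induction N with
  | zero => rwa [pow_zero, one_smul] at hN
  | succ N ih =>
    rw [pow_succ', mul_smul] at hN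
    exact ih (qm_zero.1 (h1 (qm V E hE.1 _) ((map_smul _ _ _).symm.trans (qm_zero.2 hN))))

theorem sat_congr (V : GMod Y) (E E' : Submodule Y.R V.M) (hE : V.Stab E) (hE' : V.Stab E')
    (h : ∀ᶠ k in atTop, ∀ v ∈ V.wt (dg Y k), v ∈ E → v ∈ E') : S.sat V E ≤ S.sat V E' := by
  obtain ⟨K, hK⟩ := eventually_atTop.1 h
  have h1 : E ≤ S.sat V E' := V.induction_sub hE (Submodule.zero_mem _) (fun γ m hm hw => by
    refine ⟨(K - γ S.uniq.default).toNat, fun i => hK ((K - γ S.uniq.default).toNat +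
      γ S.uniq.default) (by omega) _ ?_ (E.smul_mem _ hm)⟩
    exact GMod.smul_mem_wt (xp_wt S _ i) (mwt_eq hw (S.eq_dg γ))) fun _ _ => Submodule.add_mem _
  rw [← sat_eq S V (S.sat V E') ⟨S.sat_stab hE', fun _ => S.sat_sat⟩]
  exact fun v ⟨n, hv⟩ => ⟨n, fun i => h1 (hv i)⟩

theorem cover (B : GMod Y) (j : ℤ) (hB : Low B j) : ∃ (n : ℕ) (a : Fin n → ℤ)
    (π : (Fr fun i => dg Y (a i)).M →ₗ[Y.R] B.M), (∀ i, j ≤ a i) ∧
    (Fr fun i => dg Y (a i)).IsHom B π ∧ Function.Surjective π := by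
  obtain ⟨T, w, h1, h2⟩ := B.exists_gens Y.R
  refine ⟨T.card, fun i => max j (w (T.equivFin.symm i) S.uniq.default),
    Fintype.linearCombination Y.R fun i => (T.equivFin.symm i : B.M), fun i => le_max_left _ _,
    lc_hom _ _ fun i => ?_, ?_⟩
  · have h3 := mwt_eq (h1 _ (T.equivFin.symm i).2) (S.eq_dg _)
    rcases le_or_gt j (w (T.equivFin.symm i) S.uniq.default) with h4 | h4
    · exact mwt_eq h3 (congrArg _ (max_eq_right h4).symm)
    · rw [hB _ h4] at h3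
      rw [(Submodule.mem_bot ℂ).1 h3]
      exact Submodule.zero_mem _
  · have h3 : LinearMap.range (Fintype.linearCombination Y.R fun i => (T.equivFin.symm i : B.M)) =
        ⊤ := ?_
    · have h4 := LinearMap.range_eq_top.1 h3
      exact h4
    rw [Fintype.range_linearCombination, ← h2]
    exact congrArg _ ((T.equivFin.symm.surjective.range_comp Subtype.val).trans Subtype.range_coe)

theorem ext_ev (B G : GMod Y) (hB : ∀ y : Y.Pt, ∃ r, FreeAt y.1 B.M r) :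
    ∀ᶠ k in atTop, Ext1 B G k := by
  obtain ⟨j, hj⟩ := S.exists_low B
  obtain ⟨n, a, π, -, h, hs⟩ := cover S B j hj
  have h1 := ((proj S).surj (rs_hom (GMod.isHom_subtype _ _ h.stab_ker) G)).1 fun z φ => by
    obtain ⟨m, hm⟩ := hB z
    obtain ⟨r, s, t, h1, -, h2, -⟩ := exists_split hm (f := (LinearMap.ker π).subtype) (g := π)
      (fun a => a.2) (fun a ha => ⟨1, ev_one, Subtype.ext ((one_smul _ _).trans ha)⟩)
      (fun b hb => ⟨1, ⟨b, hb⟩, ev_one, (one_smul _ _).symm⟩)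
      fun b => (hs b).elim fun c hc => ⟨1, c, ev_one, hc.trans (one_smul _ _).symm⟩
    exact ⟨r, ap.symm (ap φ ∘ₗ t), h1, ap.injective (LinearMap.ext fun b =>
      (congrArg (ap φ) (h2 b)).trans (map_smul (ap φ) r b))⟩
  filter_upwards [ev_of' S h1] with k hk
  exact ext_of B G k _ π h hs fun φ hφ => (hk φ hφ).imp fun ψ ⟨h2, h3⟩ =>
    ⟨h2, fun b => h3 ▸ rfl⟩

end Bs

open Bs

theorem bas : BAS := fun Y S =>
  { proj := proj S
    fin := S.fin_wt
    low := S.exists_low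
    zero := fun M h => (ev_of' S ((proj S).zero M h)).mono fun _ hk => (Submodule.eq_bot_iff _).2 hk
    kos := fun d _ => kos S d
    hq_quo := fun _ E h k => S.hq_eq E h k
    sat_sat := fun _ _ h => ⟨S.sat_stab h, fun _ => S.sat_sat⟩
    le_sat := le_sat S
    sat_eq := sat_eq S
    sat_ev := fun V E h => (ev_of' S ((proj S).zero_sub V (S.sat_stab h) E fun z b ⟨n, hb⟩ =>
      (exists_pow S z).elim fun i hi => ⟨_, hi n, hb i⟩)).mono fun _ hk v h1 h2 => hk v h2 h1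
    sat_congr := sat_congr S
    ext_ev := ext_ev S
    ext_fr := fun _ _ => ext_fr
    ext_of := fun B G k _ _ => ext_of B G k
    cover := cover S
    low_fr := fun ι _ a j h k hk => (Submodule.eq_bot_iff _).2 fun v hv => funext fun i =>
      (Submodule.eq_bot_iff _).1 (S.neg (k + -a i) (by have := h i; omega)) _
        (GMod.mem_shift_wt'.1 (pi_wt.1 hv i))
    chi := fun M M' h => by
      obtain ⟨k₀, h⟩ := of_ev S (P := fun k => finrank ℂ (M.wt k) = finrank ℂ (M'.wt k)) h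
      exact BC.uniq ((chiG_spec (proj S) M).congr fun k hk => congrArg _ (h k hk))
        (chiG_spec (proj S) M') }

end Vale.Agent.P297Z.Qt
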