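import Vale.Agent.P297Z.Quot.Hbq

/-!
# P297: the classes of the parts of a family
-/

set_option linter.all false

open scoped TensorProduct

noncomputable section

namespace Vale.Agent.P297Z.Qt

open GMod
open Submodule.Quotient (mk)

variable {W X Y : Spc}

namespace Hb

theorem pushK_res {f : Mor X W} {P : Prj f} (hP : P.Nice) (hW : W.Cn) {n : ℕ} {M : GMod X}
    {x : K0 X} (hr : Res n M x) : ∃ k₀, ∀ k, k₀ ≤ k → (P.part k M).LF →
      kc' (P.part k M) = pushK P (line X (P.σ k) * x) := by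
  haveI := hW.ne
  have key : ∀ (M : GMod X) (r : ℕ), M.IsBun r → ∃ k₀, ∀ k, k₀ ≤ k → (P.part k M).LF ∧
      kc' (P.part k M) = pushK P (line X (P.σ k) * kc M r) := fun M r hM => by
    obtain ⟨k2, h2⟩ := pushK_part hP hW ⟨M, r, hM⟩
    refine ⟨k2, fun k hk => ?_⟩
    obtain ⟨r', b1, b2⟩ := h2 k hk
    exact ⟨b1.lf, by rw [kc_bun ⟨M, r, hM⟩, b2, kc'_eq b1]⟩
  induction n generalizing M x with
  | zero =>
    obtain ⟨r, hr, rfl⟩ := hr
    exact (key M r hr).imp fun _ h k hk _ => (h k hk).2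
  | succ n ih =>
    obtain ⟨N, Q, p, y, u, v, s, hQ, hN, rfl⟩ := hr
    obtain ⟨k2, h2⟩ := P.part_ses s
    obtain ⟨k5, h5⟩ := ih hN
    obtain ⟨k6, h6⟩ := key Q p hQ
    refine ⟨k2 ⊔ (k5 ⊔ k6), fun k hk hM => ?_⟩
    have a2 := h2 k (le_sup_left.trans hk)
    have a6 := h6 k (le_sup_right.trans (le_sup_right.trans hk))
    have a4 := a2.lf_left a6.1 hM
    obtain ⟨_, b1⟩ := hW.conn _ a4
    obtain ⟨_, b2⟩ := hW.conn _ hM
    rw [mul_sub, map_sub, ← h5 k (le_sup_left.trans (le_sup_right.trans hk)) a4, ← a6.2]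
    exact eq_sub_of_add_eq' (kc'_ses a2 b1 b2).symm

theorem kp_id (hW : W.Cn) {M : GMod W} (h : M.LF) : kp (Mor.id W) M = kc' M := by
  haveI := hW.ne
  obtain ⟨r, hr⟩ := hW.conn _ h
  rw [kp_bun hW _ hr, pullK_id, kc'_eq hr]

/-- `α` identifies the fibre of `A` with `T` -/
structure Fb (z : W.Pt) (A : GMod W) {U : Type} [AddCommGroup U] (T : U → Prop) (α : A.M →+ U) :
    Prop where
  mem : ∀ a, T (α a)
  surj : ∀ u, T u → ∃ a, α a = u
  ker : ∀ a, (mk a : Fib z.1 A.M) = 0 ↔ α a = 0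

section fb

variable {z : W.Pt} {A B C : GMod W} {U V T : Type} [AddCommGroup U] [AddCommGroup V]
  [AddCommGroup T] {pU : U → Prop} {pV : V → Prop} {pT : T → Prop} {α : A.M →+ U} {β : B.M →+ V}
  {γ : C.M →+ T} {u : A.M →ₗ[W.R] B.M} {v : B.M →ₗ[W.R] C.M} {u₀ : U → V} {v₀ : V → T}

theorem Fb.mk_eq (f : Fb z A pU α) {a b : A.M} (h : α a = α b) :
    (Submodule.Quotient.mk a : Fib z.1 A.M) = Submodule.Quotient.mk b := by
  rw [← sub_eq_zero, ← Submodule.Quotient.mk_sub, f.ker, map_sub, h, sub_self]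

theorem Fb.inj (fA : Fb z A pU α) (fB : Fb z B pV β) (hu : ∀ a, β (u a) = u₀ (α a))
    (h : ∀ a, pU a → u₀ a = 0 → a = 0) : Function.Injective (fibMap z.1 u) :=
  (injective_iff_map_eq_zero _).2 fun x hx => by
    obtain ⟨a, rfl⟩ := fib_surj x
    rw [fibMap_mk, fB.ker, hu] at hx
    exact (fA.ker a).2 (h _ (fA.mem a) hx)

theorem Fb.onto (fA : Fb z A pU α) (fB : Fb z B pV β) (hu : ∀ a, β (u a) = u₀ (α a))
    (h : ∀ b, pV b → ∃ a, pU a ∧ u₀ a = b) : Function.Surjective (fibMap z.1 u) := fun y => by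
  obtain ⟨b, rfl⟩ := fib_surj y
  obtain ⟨a, h1, h2⟩ := h _ (fB.mem b)
  obtain ⟨a, rfl⟩ := fA.surj a h1
  exact ⟨_, (fibMap_mk u a).trans (fB.mk_eq ((hu a).trans h2))⟩

theorem Fb.ex (fA : Fb z A pU α) (fB : Fb z B pV β) (fC : Fb z C pT γ)
    (hu : ∀ a, β (u a) = u₀ (α a)) (hv : ∀ b, γ (v b) = v₀ (β b))
    (h : ∀ b, pV b → v₀ b = 0 → ∃ a, pU a ∧ u₀ a = b) (y : Fib z.1 B.M)
    (hy : fibMap z.1 v y = 0) : ∃ x, fibMap z.1 u x = y := by
  obtain ⟨b, rfl⟩ := fib_surj y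
  rw [fibMap_mk, fC.ker, hv] at hy
  obtain ⟨a, h1, h2⟩ := h _ (fB.mem b) hy
  obtain ⟨a, rfl⟩ := fA.surj a h1
  exact ⟨_, (fibMap_mk u a).trans (fB.mk_eq ((hu a).trans h2))⟩

/-- the map on the sums of copies -/
def pw (ι : Type) [Fintype ι] (α : A.M →+ U) : (GMod.pi fun _ : ι => A).M →+ (ι → U) where
  toFun := fun w i => α (w i)
  map_zero' := funext fun _ => map_zero α
  map_add' := fun a b => funext fun i => map_add α (a i) (b i)

theorem Fb.pi (f : Fb z A pU α) (ι : Type) [Fintype ι] :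
    Fb z (GMod.pi fun _ : ι => A) (fun w => ∀ i, pU (w i)) (pw ι α) where
  mem := fun a i => f.mem (a i)
  surj := fun w hw => by
    choose a ha using fun i => f.surj _ (hw i)
    exact ⟨a, funext ha⟩
  ker := fun a => by
    classical
    refine (Submodule.Quotient.mk_eq_zero _).trans ⟨fun h => funext fun i => (f.ker (a i)).1 ?_,
      fun h => ?_⟩
    · exact (Submodule.Quotient.mk_eq_zero _).2 (Submodule.smul_top_le_comap_smul_top _
        (LinearMap.proj (R := W.R) (φ := fun _ : ι => A.M) i) h)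
    · have : (∑ i, LinearMap.single W.R (fun _ : ι => A.M) i (a i)) ∈
          RingHom.ker z.1 • (⊤ : Submodule W.R (ι → A.M)) :=
        Submodule.sum_mem _ fun i _ => Submodule.smul_top_le_comap_smul_top _
          (LinearMap.single W.R (fun _ : ι => A.M) i)
          ((Submodule.Quotient.mk_eq_zero _).1 ((f.ker (a i)).2 (congrFun h i)))
      exact (Finset.univ_sum_single (M := fun _ : ι => A.M) a) ▸ this

end fb

variable (S : Sur Y)

theorem fb_pc {z : W.Pt} (F : Fbk S z) {M : GMod (W.prod Y)} {M₀ : GMod Y} {ε : M.M →+ M₀.M}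
    (h : IsEv z M M₀ ε) {k k' : ℤ} (f : S.FibK z M M₀ ε k) (e : k = k') :
    Fb z (S.pc M k) (fun v => v ∈ M₀.wt (dg Y k')) (ε.comp (S.val M k)) :=
  e ▸ ⟨F.val_wt M M₀ ε h k, f.surj, fun _ => mk_eq_zero h f⟩

/-- the degree `d` in the second factor -/
def sd (W Y : Spc) (d : ℤ) : (W.prod Y).J → ℤ := Sum.elim 0 (dg Y d)

theorem snd_wt (W : Spc) {y : Y.R} {d : ℤ} (hy : y ∈ Y.wt (dg Y d)) :
    (Mor.snd W Y).φ y ∈ (W.prod Y).wt (sd W Y d) := (Mor.snd W Y).wt_map _ _ hy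

theorem snd_smul_mem {M : GMod (W.prod Y)} {y : Y.R} {d j j' : ℤ} (hy : y ∈ Y.wt (dg Y d))
    (e : j + d = j') {m : M.M} (hm : m ∈ wt ((S.prj W).actE M) fun _ => j) :
    (Mor.snd W Y).φ y • m ∈ wt ((S.prj W).actE M) fun _ => j' := fun h => by
  have h1 : (W.prod Y).act (tor (S.prj W).π h) ((Mor.snd W Y).φ y) = _ := snd_wt W hy _
  have h2 : M.act (tor (S.prj W).π h) m = _ := hm h
  have h3 : (S.prj W).π (sd W Y d) + (fun _ => j) = fun _ => j' :=
    funext fun _ => (add_comm _ _).trans e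
  change M.act (tor (S.prj W).π h) _ = _
  rw [M.act_smul, h1, h2, chr_tor, smul_smul_smul_comm, smul_eq_mul, ← chr_add, h3]

/-- the multiplication by a form -/
def ml (M : GMod (W.prod Y)) {y : Y.R} {d j j' : ℤ} (hy : y ∈ Y.wt (dg Y d)) (e : j + d = j') :
    (S.pc M j).M →ₗ[W.R] (S.pc M j').M where
  toFun := fun m => S.el ((Mor.snd W Y).φ y • S.val M j m) (snd_smul_mem S hy e (S.val_mem m))
  map_add' := fun a b => S.val_inj (by rw [S.val_el, map_add, map_add, S.val_el, S.val_el, smul_add])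
  map_smul' := fun r a => S.val_inj (by
    rw [RingHom.id_apply, S.val_el, S.val_smul, S.val_smul, S.val_el, smul_comm])

theorem val_ml (M : GMod (W.prod Y)) {y : Y.R} {d j j' : ℤ} (hy : y ∈ Y.wt (dg Y d))
    (e : j + d = j') (m : (S.pc M j).M) :
    S.val M j' (ml S M hy e m) = (Mor.snd W Y).φ y • S.val M j m := rfl

theorem ml_hom (M : GMod (W.prod Y)) {y : Y.R} {d j j' : ℤ} (hy : y ∈ Y.wt (dg Y d))
    (e : j + d = j') : IsHom _ _ (ml S M hy e) := fun g m => S.val_inj (by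
  have h1 : (W.prod Y).act (tor (S.prj W).ret g) ((Mor.snd W Y).φ y) = _ := snd_wt W hy _
  have h3 : (S.prj W).ret (sd W Y d) = 0 := rfl
  rw [val_ml, S.val_act, S.val_act, val_ml, M.act_smul, h1, chr_tor, h3, chr_zero, one_smul])

theorem ev_ml {z : W.Pt} {M : GMod (W.prod Y)} {M₀ : GMod Y} {ε : M.M →+ M₀.M} (h : IsEv z M M₀ ε)
    {y : Y.R} {d j j' : ℤ} (hy : y ∈ Y.wt (dg Y d)) (e : j + d = j') (m : (S.pc M j).M) :
    ε.comp (S.val M j') (ml S M hy e m) = y • ε.comp (S.val M j) m :=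
  (h.smul _ _).trans (by rw [evR_snd]; rfl)

section kos

variable (M : GMod (W.prod Y)) {y : Fin 3 → Y.R} {d j j' : ℤ} (hy : ∀ i, y i ∈ Y.wt (dg Y d))
  (e : j + d = j')

/-- the first Koszul map on the parts -/
def K1 : (S.pc M j).M →ₗ[W.R] (GMod.pi fun _ : Fin 3 => S.pc M j').M :=
  LinearMap.pi fun i => ml S M (hy i) e

/-- the second Koszul map on the parts -/
def K2 : (GMod.pi fun _ : Fin 3 => S.pc M j).M →ₗ[W.R] (GMod.pi fun _ : Fin 3 => S.pc M j').M :=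
  LinearMap.pi fun i => ml S M (hy (i + 1)) e ∘ₗ LinearMap.proj (i + 2) -
    ml S M (hy (i + 2)) e ∘ₗ LinearMap.proj (i + 1)

/-- the third Koszul map on the parts -/
def K3 : (GMod.pi fun _ : Fin 3 => S.pc M j).M →ₗ[W.R] (S.pc M j').M :=
  ∑ i, ml S M (hy i) e ∘ₗ LinearMap.proj i

theorem K1_ap (m : (S.pc M j).M) (i : Fin 3) : K1 S M hy e m i = ml S M (hy i) e m := rfl

theorem K2_ap (w : (GMod.pi fun _ : Fin 3 => S.pc M j).M) (i : Fin 3) : K2 S M hy e w i =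
    ml S M (hy (i + 1)) e (w (i + 2)) - ml S M (hy (i + 2)) e (w (i + 1)) := rfl

theorem K3_ap (w : (GMod.pi fun _ : Fin 3 => S.pc M j).M) :
    K3 S M hy e w = ∑ i, ml S M (hy i) e (w i) := LinearMap.sum_apply _ _ _

theorem K1_hom : IsHom _ _ (K1 S M hy e) := fun g m => funext fun i => ml_hom S M (hy i) e g m

theorem K2_hom : IsHom _ _ (K2 S M hy e) := fun g w => funext fun i =>
  (congrArg₂ (· - ·) (ml_hom S M (hy (i + 1)) e g (w (i + 2)))
    (ml_hom S M (hy (i + 2)) e g (w (i + 1)))).trans (map_sub ((S.pc M j').act g) _ _).symm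

theorem K3_hom : IsHom _ _ (K3 S M hy e) := fun g w => by
  rw [K3_ap, K3_ap, map_sum]
  exact Finset.sum_congr rfl fun i _ => ml_hom S M (hy i) e g (w i)

theorem K2_K1 {j'' : ℤ} (e' : j' + d = j'') (m : (S.pc M j).M) :
    K2 S M hy e' (K1 S M hy e m) = 0 := funext fun i => S.val_inj (by
  rw [K2_ap, K1_ap, K1_ap, map_sub, val_ml, val_ml, val_ml, val_ml, smul_comm, sub_self]
  exact (map_zero (S.val M j'')).symm)

theorem K3_K2 {j'' : ℤ} (e' : j' + d = j'') (w : (GMod.pi fun _ : Fin 3 => S.pc M j).M) :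
    K3 S M hy e' (K2 S M hy e w) = 0 := S.val_inj (by
  rw [K3_ap, map_sum, map_zero, Fin.sum_univ_three]
  simp only [val_ml, K2_ap, map_sub, smul_sub, smul_smul]
  have a1 : (0 : Fin 3) + 1 = 1 := rfl
  have a2 : (0 : Fin 3) + 2 = 2 := rfl
  have a3 : (1 : Fin 3) + 1 = 2 := rfl
  have a4 : (1 : Fin 3) + 2 = 0 := rfl
  have a5 : (2 : Fin 3) + 1 = 0 := rfl
  have a6 : (2 : Fin 3) + 2 = 1 := rfl
  rw [a1, a2, a3, a4, a5, a6, mul_comm ((Mor.snd W Y).φ (y 1)) ((Mor.snd W Y).φ (y 0)),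
    mul_comm ((Mor.snd W Y).φ (y 2)) ((Mor.snd W Y).φ (y 0)),
    mul_comm ((Mor.snd W Y).φ (y 2)) ((Mor.snd W Y).φ (y 1))]
  abel)

variable {M} {z : W.Pt} {M₀ : GMod Y} {ε : M.M →+ M₀.M} (h : IsEv z M M₀ ε)
include h

theorem ev_K1 (m : (S.pc M j).M) :
    pw _ (ε.comp (S.val M j')) (K1 S M hy e m) = k1 y M₀.M (ε.comp (S.val M j) m) :=
  funext fun i => ev_ml S h (hy i) e m

theorem ev_K2 (w : (GMod.pi fun _ : Fin 3 => S.pc M j).M) :
    pw _ (ε.comp (S.val M j')) (K2 S M hy e w) = k2 y M₀.M (pw _ (ε.comp (S.val M j)) w) :=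
  funext fun i => (map_sub (ε.comp (S.val M j')) _ _).trans
    (congrArg₂ (· - ·) (ev_ml S h (hy (i + 1)) e (w (i + 2))) (ev_ml S h (hy (i + 2)) e (w (i + 1))))

theorem ev_K3 (w : (GMod.pi fun _ : Fin 3 => S.pc M j).M) :
    ε.comp (S.val M j') (K3 S M hy e w) = k3 y M₀.M (pw _ (ε.comp (S.val M j)) w) := by
  rw [K3_ap, map_sum, k3, LinearMap.sum_apply]
  exact Finset.sum_congr rfl fun i _ => ev_ml S h (hy i) e (w i)

end kos

theorem xp_wt (d : ℕ) (i : Fin 3) : S.xp d i ∈ Y.wt (dg Y d) :=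
  wt_eq (Spc.pow_mem (S.x_wt i) d) (funext fun _ => by
    rw [Pi.smul_apply, dg, dg, nsmul_eq_mul, mul_one])

/-- the recursion for the classes of the parts -/
theorem rec_part (F : ∀ z : W.Pt, Fbk S z) (hW : W.Cn) (M : GMod (W.prod Y)) {y : Fin 3 → Y.R}
    {d j₀ j₁ j₂ j₃ : ℤ} (hy : ∀ i, y i ∈ Y.wt (dg Y d)) (e₁ : j₀ + d = j₁) (e₂ : j₁ + d = j₂)
    (e₃ : j₂ + d = j₃) (l₀ : (S.pc M j₀).LF) (l₁ : (S.pc M j₁).LF) (l₂ : (S.pc M j₂).LF)
    (l₃ : (S.pc M j₃).LF) (h : ∀ z : W.Pt, ∃ (M₀ : GMod Y) (ε : M.M →+ M₀.M), IsEv z M M₀ ε ∧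
      S.FibK z M M₀ ε j₀ ∧ S.FibK z M M₀ ε j₁ ∧ S.FibK z M M₀ ε j₂ ∧ S.FibK z M M₀ ε j₃ ∧
      KosEx y d M₀ j₀) :
    kc' (S.pc M j₀) + 3 * kc' (S.pc M j₂) = 3 * kc' (S.pc M j₁) + kc' (S.pc M j₃) := by
  choose M₀ ε hε f₀ f₁ f₂ f₃ hk using h
  have g₀ := fun z => fb_pc S (F z) (hε z) (f₀ z) rfl
  have g₁ := fun z => (fb_pc S (F z) (hε z) (f₁ z) e₁.symm).pi (Fin 3)
  have g₂ := fun z => (fb_pc S (F z) (hε z) (f₂ z) (by omega : j₂ = j₀ + 2 * d)).pi (Fin 3)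
  have g₃ := fun z => fb_pc S (F z) (hε z) (f₃ z) (by omega : j₃ = j₀ + 3 * d)
  have := kp_four hW (Mor.id W) (K1_hom S M hy e₁) (K2_hom S M hy e₂) (K3_hom S M hy e₃)
    (K2_K1 S M hy e₁ e₂) (K3_K2 S M hy e₂ e₃) l₀ (lf_pi fun _ => l₁) (lf_pi fun _ => l₂) l₃
    (fun z => (g₀ z).inj (g₁ z) (ev_K1 S hy e₁ (hε z)) (hk z).e0)
    (fun z => (g₀ z).ex (g₁ z) (g₂ z) (ev_K1 S hy e₁ (hε z)) (ev_K2 S hy e₂ (hε z)) (hk z).e1)
    (fun z => (g₁ z).ex (g₂ z) (g₃ z) (ev_K2 S hy e₂ (hε z)) (ev_K3 S hy e₃ (hε z)) (hk z).e2)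
    (fun z => (g₂ z).onto (g₃ z) (ev_K3 S hy e₃ (hε z)) (hk z).e3)
  rw [kp_pi hW _ fun _ => l₁, kp_pi hW _ fun _ => l₂, Fin.sum_univ_three, Fin.sum_univ_three,
    kp_id hW l₀, kp_id hW l₁, kp_id hW l₂, kp_id hW l₃] at this
  linear_combination this

/-- the recursion for the line bundles -/
theorem rec_line (S : Sur Y) (W : Spc) {d : ℕ} (hd : 0 < d) {j₀ j₁ j₂ j₃ : ℤ} (e₁ : j₀ + d = j₁)
    (e₂ : j₁ + d = j₂) (e₃ : j₂ + d = j₃) :
    line (W.prod Y) (sd W Y j₀) + 3 * line (W.prod Y) (sd W Y j₂) =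
      3 * line (W.prod Y) (sd W Y j₁) + line (W.prod Y) (sd W Y j₃) := by
  have h := PK.prod_line (X := W.prod Y) Finset.univ Finset.univ_nonempty
    (fun i => (Mor.snd W Y).φ (S.xp d i)) (fun _ => sd W Y d)
    (fun i _ => snd_wt W (xp_wt S d i)) fun z => by
      obtain ⟨i, hi⟩ := (S.pts _).1 ((Mor.snd W Y).onPt z).2
      refine ⟨i, Finset.mem_univ _, ?_⟩
      rw [Sur.xp, map_pow, map_pow]
      exact pow_ne_zero _ hi
  have a : ∀ {j j' : ℤ}, j + d = j' → line (W.prod Y) (sd W Y j) =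
      line (W.prod Y) (sd W Y j') * line (W.prod Y) (-sd W Y d) :=
    fun {j j'} e => by
      rw [← line_add]
      refine congrArg _ (funext fun o => ?_)
      cases o with
      | inl o => exact (add_neg_cancel _).symm
      | inr o => exact eq_add_neg_of_add_eq e
  rw [Fin.prod_univ_three] at h
  rw [a e₁, a e₂, a e₃]
  linear_combination (-line (W.prod Y) (sd W Y j₃)) * h

end Hb

open Hb

theorem resh : RESH := fun _ _ _ _ _ _ hB h => h.hom hB

theorem cls' : CLS := fun hF hB W Y S hW d hd M n x k hr h r hM => by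
  haveI := hW.ne
  have lf : ∀ i : ℕ, (S.pc M (k + i * d)).LF := fun i z => by
    obtain ⟨_, _, -, h⟩ := h z
    exact (h i).2.1
  obtain ⟨k₀, h₀⟩ := pushK_res (S.prj W).nice_fst hW hr
  have e : ∀ i : ℕ, k + i * d + d = k + (i + 1 : ℕ) * d := fun i => by push_cast; ring
  have key : ∀ m i : ℕ, k₀ () ≤ k + (i + m) → kc' (S.pc M (k + i * d)) =
      pK W Y (x * line (W.prod Y) (sd W Y (k + i * d))) := fun m => by
    induction m with
    | zero =>
      intro i hi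
      rw [pK_eq hW (S.prj W), mul_comm x]
      refine h₀ (fun _ => k + i * d) (fun _ => hi.trans ?_) (lf i)
      have : (i : ℤ) * 1 ≤ i * d := mul_le_mul_of_nonneg_left (by omega) (by omega)
      change k + ((i : ℤ) + (0 : ℕ)) ≤ k + i * d
      omega
    | succ m ih =>
      intro i hi
      have r1 := rec_part S (hF hB W Y S) hW M (xp_wt S d) (e i) (e (i + 1)) (e (i + 1 + 1))
        (lf _) (lf _) (lf _) (lf _) fun z => by
          obtain ⟨M₀, ε, h1, h2⟩ := h z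
          exact ⟨M₀, ε, h1, (h2 _).1, (h2 _).1, (h2 _).1, (h2 _).1, (h2 i).2.2⟩
      have r2 := congrArg (fun t => pK W Y (x * t))
        (rec_line S W hd (e i) (e (i + 1)) (e (i + 1 + 1)))
      rw [ih (i + 1) (by omega), ih (i + 1 + 1) (by omega), ih (i + 1 + 1 + 1) (by omega)] at r1
      have t : ∀ a : K0 (W.prod Y), pK W Y (x * (3 * a)) = 3 * pK W Y (x * a) := fun a => by
        rw [show x * (3 * a) = x * a + x * a + x * a by ring, map_add, map_add]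
        ring
      simp only [mul_add, map_add, t] at r2
      linear_combination r1 - r2
  have := key (k₀ () - k).toNat 0 (by omega)
  rw [Nat.cast_zero, zero_mul, add_zero, kc'_eq hM] at this
  exact this

end Vale.Agent.P297Z.Qt
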