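import Vale.Agent.P297Z.Quot.Sk

/-!
# P297: the vanishing of the Ext module by descending induction
-/

set_option linter.all false

open Filter

noncomputable section

namespace Vale.Agent.P297Z.Qt

namespace Exk

section Kos

variable {R : Type} [CommRing R] (y : Fin 3 → R) {M N : Type} [AddCommGroup M] [Module R M]
  [AddCommGroup N] [Module R N]

theorem k2_map (f : M →ₗ[R] N) (w : Fin 3 → M) (i : Fin 3) :
    k2 y N (fun i => f (w i)) i = f (k2 y M w i) := by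
  change y (i + 1) • f (w (i + 2)) - y (i + 2) • f (w (i + 1)) =
    f (y (i + 1) • w (i + 2) - y (i + 2) • w (i + 1))
  rw [map_sub, map_smul, map_smul]

theorem k3_map (f : M →ₗ[R] N) (w : Fin 3 → M) : k3 y N (fun i => f (w i)) = f (k3 y M w) := by
  simp [k3]

theorem k3_k2 (w : Fin 3 → M) : k3 y M (k2 y M w) = 0 := by
  rw [k3, Fin.sum_univ_three]
  change y 0 • (y 1 • w 2 - y 2 • w 1) + y 1 • (y 2 • w 0 - y 0 • w 2) +
    y 2 • (y 0 • w 1 - y 1 • w 0) = 0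
  module

theorem k2_k1 (v : M) (i : Fin 3) : k2 y M (fun i => y i • v) i = 0 := by
  change y (i + 1) • y (i + 2) • v - y (i + 2) • y (i + 1) • v = 0
  rw [smul_comm, sub_self]

end Kos

variable {Y : Spc} {A B G : GMod Y}

/-- the evaluation at an element -/
def ev (G : GMod Y) (a : A.M) : (A.hom G).M →ₗ[Y.R] G.M := LinearMap.applyₗ a ∘ₗ ap.toLinearMap

theorem rs_inj {π : A.M →ₗ[Y.R] B.M} (hs : Function.Surjective π) :
    Function.Injective (rs π G) := fun φ ψ h => ap.injective (LinearMap.ext fun b => by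
  obtain ⟨a, rfl⟩ := hs b
  rw [← ap_rs, h, ap_rs])

theorem desc {π : A.M →ₗ[Y.R] B.M} (h : A.IsHom B π) (hs : Function.Surjective π)
    {γ : Y.J → ℤ} {ψ : (A.hom G).M} (hψ : ψ ∈ (A.hom G).wt γ) (h0 : ∀ a, π a = 0 → ap ψ a = 0) :
    ∃ χ ∈ (B.hom G).wt γ, rs π G χ = ψ := by
  have e : rs π G (ap.symm ((LinearMap.ker π).liftQ (ap ψ) h0 ∘ₗ
      (π.quotKerEquivOfSurjective hs).symm.toLinearMap)) = ψ :=
    ap.injective (LinearMap.ext fun a => congrArg ((LinearMap.ker π).liftQ (ap ψ) h0)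
      (π.quotKerEquivOfSurjective_symm_apply hs a))
  refine ⟨_, fun g => rs_inj hs ?_, e⟩
  rw [rs_hom h G g, LinearMap.map_smul_of_tower, e]
  exact hψ g

theorem wt_gens {ι : Type} {e : ι → A.M} {δ : ι → Y.J → ℤ} (he : ∀ i, e i ∈ A.wt (δ i))
    (hx : ∀ φ ψ : (A.hom G).M, (∀ i, ap φ (e i) = ap ψ (e i)) → φ = ψ) {γ : Y.J → ℤ}
    {ψ : (A.hom G).M} (h : ∀ i, ap ψ (e i) ∈ G.wt (δ i + γ)) : ψ ∈ (A.hom G).wt γ := fun g =>
  hx _ _ fun i => by
    have h1 := act_ap g ψ (A.act g (e i))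
    rw [A.act_inv_act, h i g, he i g, LinearMap.map_smul_of_tower, chr_add, mul_smul] at h1
    exact smul_right_injective _ (chr_ne (δ i) g) h1

theorem step (hJ : Unique Y.J) {y : Fin 3 → Y.R} {d j₀ k : ℤ} (hy : ∀ i, y i ∈ Y.wt (dg Y d))
    {π : A.M →ₗ[Y.R] B.M} (h : A.IsHom B π) (hs : Function.Surjective π) (hA : Low A j₀)
    {ι : Type} {e : ι → A.M} {a : ι → ℤ} (ha : ∀ i, j₀ ≤ a i) (he : ∀ i, e i ∈ A.wt (dg Y (a i)))
    (hx : ∀ φ ψ : (A.hom G).M, (∀ i, ap φ (e i) = ap ψ (e i)) → φ = ψ)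
    (hf : ∀ v : ι → G.M, ∃ ψ : (A.hom G).M, ∀ i, ap ψ (e i) = v i)
    (hG : ∀ j, j₀ ≤ j → Dep y d G (j + k)) (hK : KosEx y d (B.hom G) k)
    (ih : ∀ φ ∈ ((A.sub _ h.stab_ker).hom G).wt (dg Y (k + d)),
      ∃ ψ ∈ (A.hom G).wt (dg Y (k + d)), ∀ n : LinearMap.ker π, ap ψ n.1 = ap φ n) :
    ∀ φ ∈ ((A.sub _ h.stab_ker).hom G).wt (dg Y k),
      ∃ ψ ∈ (A.hom G).wt (dg Y k), ∀ n : LinearMap.ker π, ap ψ n.1 = ap φ n := by
  intro φ hφ
  choose ψ h1 h2 using fun i => ih (y i • φ)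
    (mwt_eq (GMod.smul_mem_wt (hy i) hφ) (funext fun _ => add_comm _ _))
  have h3 : ∀ i, ∃ χ ∈ (B.hom G).wt (dg Y (k + 2 * d)), rs π G χ = k2 y _ ψ i := fun i => by
    have e1 : dg Y d + dg Y (k + d) = dg Y (k + 2 * d) := funext fun _ => by
      simp only [dg, Pi.add_apply]
      ring
    refine desc h hs (Submodule.sub_mem _ (mwt_eq (GMod.smul_mem_wt (hy _) (h1 _)) e1)
      (mwt_eq (GMod.smul_mem_wt (hy _) (h1 _)) e1)) fun n hn => ?_
    refine (k2_map y (ev G n) ψ i).symm.trans ?_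
    rw [show (fun i => ev G n (ψ i)) = fun i => y i • ap φ ⟨n, hn⟩ from
      funext fun i => h2 i ⟨n, hn⟩, k2_k1]
  choose χ h4 h5 using h3
  obtain ⟨χ', h6, h7⟩ := hK.e2 χ h4 (rs_inj hs (by
    rw [← k3_map, map_zero, show (fun i => rs π G (χ i)) = k2 y _ ψ from funext h5, k3_k2]))
  have h8 : ∀ i, ψ i - rs π G (χ' i) ∈ (A.hom G).wt (dg Y (k + d)) := fun i =>
    Submodule.sub_mem _ (h1 i) ((rs_hom h G).map_wt (h6 i))
  have h9 : ∀ i, k2 y _ (fun i => ψ i - rs π G (χ' i)) i = 0 := fun i => by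
    rw [show (fun i => ψ i - rs π G (χ' i)) = ψ - fun i => rs π G (χ' i) from rfl, map_sub,
      Pi.sub_apply, k2_map, h7, h5, sub_self]
  choose v h10 h11 using fun s => (hG (a s) (ha s)).e1 (fun i => ev G (e s) (ψ i - rs π G (χ' i)))
    (fun i => mwt_eq (ap_wt (A := A) (h8 i) (he s)) (funext fun _ => (add_assoc _ _ _).symm))
    (funext fun i => by rw [k2_map, h9, map_zero, Pi.zero_apply])
  obtain ⟨ψ₀, h12⟩ := hf v
  have h13 : ψ₀ ∈ (A.hom G).wt (dg Y k) := wt_gens he hx fun i => (h12 i).symm ▸ h10 i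
  have h14 : ∀ i, y i • ψ₀ = ψ i - rs π G (χ' i) := fun i => hx _ _ fun s => by
    rw [map_smul, LinearMap.smul_apply, h12]
    exact congrFun (h11 s) i
  refine ⟨ψ₀, h13, fun n => ?_⟩
  refine (A.sub _ h.stab_ker).induction (P := fun n => ap ψ₀ (n : LinearMap.ker π).1 = ap φ n)
    ((map_zero _).trans (map_zero _).symm) (fun γ n hn => ?_)
    (fun a b ha hb => (map_add _ _ _).trans ((congrArg₂ (· + ·) ha hb).trans (map_add _ _ _).symm)) n
  obtain ⟨j, rfl⟩ : ∃ j, γ = dg Y j := ⟨γ default, funext fun i => congrArg γ (hJ.uniq i)⟩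
  have hn' : (n : LinearMap.ker π).1 ∈ A.wt (dg Y j) := fun g => congrArg Subtype.val (hn g)
  rcases lt_or_ge j j₀ with hj | hj
  · rw [hA j hj, Submodule.mem_bot] at hn'
    rw [hn', show n = 0 from Subtype.ext hn', map_zero, map_zero]
  · refine sub_eq_zero.1 ((hG j hj).e0 _
      (Submodule.sub_mem _ (ap_wt h13 hn') (ap_wt hφ hn)) (funext fun i => ?_))
    have e1 := congrArg (ev G (n : LinearMap.ker π).1) (h14 i)
    rw [map_smul, map_sub] at e1
    have e2 : ev G (n : LinearMap.ker π).1 (rs π G (χ' i)) = 0 :=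
      (congrArg (ap (χ' i)) (n : LinearMap.ker π).2).trans (map_zero _)
    change y i • (ev G (n : LinearMap.ker π).1 ψ₀ - ap φ n) = 0
    rw [smul_sub, e1, e2, sub_zero]
    exact sub_eq_zero.2 (h2 i n)

end Exk

open Exk

theorem exk : EXK := by
  intro hB Y S d hd B G j₀ k hfr hlow hG hK
  classical
  obtain ⟨n, a, π, ha, h, hs⟩ := (hB Y S).cover B j₀ hlow
  refine (hB Y S).ext_of B G k _ _ π h hs ?_
  have hy : ∀ i, S.xp d i ∈ Y.wt (dg Y d) := fun i =>
    wt_eq (Spc.pow_mem (S.x_wt i) d) (funext fun _ => by simp [dg])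
  have hl : ∀ (v : Fin n → G.M) (i : Fin n), Fintype.linearCombination Y.R v (Pi.single i 1) = v i :=
    fun v i => by simp
  obtain ⟨N, hN⟩ := eventually_atTop.1 ((hB Y S).ext_ev B G hfr)
  have h0 := hN (k + ((N - k).toNat : ℕ) * d) (by
    nlinarith [Int.self_le_toNat (N - k), Int.natCast_nonneg (N - k).toNat,
      (by exact_mod_cast hd : (1 : ℤ) ≤ d)]) _ π h hs
  generalize (N - k).toNat = m at h0
  induction m with
  | zero =>
    rw [Nat.cast_zero, zero_mul, add_zero] at h0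
    exact h0
  | succ m ih =>
    refine ih (step S.uniq hy h hs ((hB Y S).low_fr _ a j₀ ha) ha
      (e := fun i => sgl _ i (sh (GMod.one Y) _ (1 : Y.R)))
      (fun i => sgl_wt (sh_wt (mwt_eq (M := GMod.one Y) Y.one_mem (add_neg_cancel _).symm)))
      (fun φ ψ e => ap.injective ((Pi.basisFun Y.R (Fin n)).ext fun i => ?_))
      (fun v => ⟨ap.symm (Fintype.linearCombination Y.R v), hl v⟩)
      (fun j hj => hG _ (by nlinarith [Int.natCast_nonneg (m * d)])) (hK m) ?_)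
    · rw [Pi.basisFun_apply]
      exact e i
    · rwa [add_assoc, ← add_one_mul, ← Nat.cast_add_one]

end Vale.Agent.P297Z.Qt
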