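import Vale.Agent.P297Z.Quot.Sk

/-!
# P297: the universal families
-/

set_option linter.all false

open scoped TensorProduct

noncomputable section

namespace Vale.Agent.P297Z.Qt

open GMod

variable {W Y : Spc}

theorem finrank_sub (V : GMod Y) (E : Submodule Y.R V.M) (h : V.Stab E) (γ : Y.J → ℤ) :
    Module.finrank ℂ ((V.sub E h).wt γ) = Module.finrank ℂ ↥(V.wt γ ⊓ E.restrictScalars ℂ) :=
  LinearEquiv.finrank_eq
    { toFun := fun v => ⟨v.1.1, (isHom_subtype V E h).map_wt v.2, v.1.2⟩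
      invFun := fun v => ⟨⟨v.1, v.2.2⟩, fun g => Subtype.ext (v.2.1 g)⟩
      map_add' := fun _ _ => rfl
      map_smul' := fun _ _ => rfl
      left_inv := fun _ => rfl
      right_inv := fun _ => rfl }

theorem bun_fr {ι : Type} [Fintype ι] (δ : ι → Y.J → ℤ) : (Fr δ).IsBun (Fintype.card ι) := by
  have h := isBun_pi fun i => (isBun_one Y).shift (-δ i)
  rwa [Finset.sum_const, smul_eq_mul, mul_one] at h

theorem kc_fr {ι : Type} [Fintype ι] (δ : ι → Y.J → ℤ) :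
    kc (Fr δ) (Fintype.card ι) = ∑ i, line Y (-δ i) := by
  have h := kc_pi fun i => (isBun_one Y).shift (-δ i)
  rwa [Finset.sum_const, smul_eq_mul, mul_one] at h

namespace Dat

variable {D : Dat Y}

theorem bΦ0 (D : Dat Y) : D.Φ0.IsBun (Fintype.card D.Sx) := bun_fr fun _ => dg Y D.m

theorem bV0 (D : Dat Y) : D.V.IsBun D.ρ := isBun_pi fun a => (D.L a).free

theorem gen_low {S : Sur Y} (hB : Bas S) (q : D.Ix → ℂ) {k : ℤ} (hk : k < D.m) :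
    D.V.wt (dg Y k) ⊓ (D.gen q).restrictScalars ℂ = ⊥ := by
  refine eq_bot_iff.2 ?_
  rintro _ ⟨h1, a, rfl⟩
  obtain ⟨a', h2, h3⟩ := (D.μ0_hom q).exists_preimage h1
  have h4 : D.Φ0.wt (dg Y k) = ⊥ := hB.low_fr D.Sx (fun _ => D.m) D.m (fun _ => le_rfl) k hk
  rw [h4, Submodule.mem_bot] at h2
  rw [← h3, h2, map_zero]
  exact zero_mem _

theorem bK0 (S : Sur Y) {q : D.Ix → ℂ} (h : D.Reg q) :
    (D.K0' q).IsBun D.rK ∧ D.rK + D.ρ = Fintype.card D.Sx := by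
  obtain ⟨r, hr⟩ := S.syz ⟨D.Φ0, _, D.bΦ0⟩ ⟨D.V, _, D.bV0⟩ (D.μ0 q) (D.μ0_hom q)
  obtain ⟨y, hy⟩ := h.tor
  have h1 : FreeAt y.1 D.Φ0.M (r + D.ρ) := FreeAt.mid (hr y) (D.bV0 y)
    (f := (LinearMap.ker (D.μ0 q)).subtype) (g := D.μ0 q) (fun a => a.2)
    (InjAt.of_inj Subtype.val_injective) (ExAt.of_ker fun b hb => ⟨⟨b, hb⟩, rfl⟩)
    (surjAt_iff_coker.2 hy)
  have h2 := h1.unique (D.bΦ0 y)
  have h3 : D.rK = r := by
    unfold rK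
    omega
  exact ⟨h3 ▸ hr, h3 ▸ h2⟩

namespace Crd

variable (c : D.Crd W)

theorem bΦ : c.Φ.IsBun (Fintype.card D.Sx) := bun_fr c.ds

theorem bV : c.VV.IsBun D.ρ := isBun_pi fun a => ((D.L a).free.pull _).shift _

theorem kΦ : kc c.Φ (Fintype.card D.Sx) = ∑ s, line _ (-c.ds s) := kc_fr c.ds

theorem kV : c.vK =
    ∑ a, pullK (Mor.fst W Y) (line W (c.τ a)) * pullK (Mor.snd W Y) (D.L a).cls := by
  refine (kc_pi fun a => ((D.L a).free.pull _).shift _).trans (Finset.sum_congr rfl fun a _ => ?_)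
  rw [kc_shift ((D.L a).free.pull _), pullK_line, pullK_cls]
  rfl

variable {S : Sur Y} {z : W.Pt}

theorem fΦ (h : Fbk S z) : S.Fam z c.Φ D.Φ0 (c.εΦ z) :=
  h.pi _ _ _ _ fun s => h.one _ _

theorem fV (h : Fbk S z) : S.Fam z c.VV D.V (c.εV z) :=
  h.pi _ _ _ _ fun a => h.evS _ _

theorem iF (h : Fbk S z) : IsFib z c.F (D.F0 (c.cz z)) (c.εF z) :=
  h.quo _ _ _ _ _ _ c.μ c.μ_hom _ (D.μ0_hom _) _ (c.fΦ h).toIsFib (c.fV h).toIsFib (c.εV_μ z)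

theorem fdimF (hB : Bas S) (h : Fbk S z) (k : ℤ) :
    (fdim z.1 (S.pc c.F k).M : ℤ) = hq D.V (D.gen (c.cz z)) k := by
  rw [h.fdim _ _ _ k (c.iF h).toIsEv (h.fibK _ _ _ (c.iF h) k)]
  exact (hB.hq_quo _ _ _ k).symm

theorem bF (hB : Bas S) (h : ∀ z : W.Pt, Fbk S z) (hr : ∀ z, D.Reg (c.cz z)) {k : ℤ}
    (hk : D.m ≤ k) : (S.pc c.F k).IsBun (D.p k).toNat :=
  isBun_of_rank fun z => by
    rw [← (hr z).hq k hk, ← c.fdimF hB (h z), Int.toNat_natCast]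

theorem bF' (hB : Bas S) (h : ∀ z : W.Pt, Fbk S z) (hr : ∀ z, D.Reg (c.cz z)) (k : ℤ) :
    ∃ r, (S.pc c.F k).IsBun r := by
  rcases le_or_gt D.m k with hk | hk
  · exact ⟨_, c.bF hB h hr hk⟩
  · refine ⟨Module.finrank ℂ (D.V.wt (dg Y k)), isBun_of_rank fun z => ?_⟩
    have h1 := c.fdimF hB (h z) k
    rw [hq, gen_low hB _ hk, finrank_bot] at h1
    omega

end Crd

end Dat

theorem fam : FAM := by
  intro hF hL hB W Y S D c hr
  have hb := hB Y S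
  have h : ∀ z : W.Pt, Fbk S z := fun z => hF hB W Y S z
  have hKE : ∀ z, S.Fam z c.K1 (D.K0' (c.cz z)) (c.εK z) ∧ S.Fam z c.E (D.E0 (c.cz z)) (c.εE z) :=
    fun z => (h z).ker _ _ _ _ _ _ c.μ c.μ_hom _ (D.μ0_hom _) _ _ (c.fΦ (h z)) (c.fV (h z))
      (c.εV_μ z) fun k => (c.bF' hb h hr k).imp fun r h1 => h1 z
  have hK : c.K1.IsBun D.rK := fun w =>
    (hL hF hB W Y S w _ _ _ (hKE _).1).1 _ ((Dat.bK0 S (hr _)).1 _)
  have hE : Res 1 c.E c.eK := ⟨_, _, _, _, _, _, c.μ_hom.ses_range, c.bΦ, ⟨_, hK, rfl⟩, rfl⟩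
  refine ⟨fun z => c.fΦ (h z), fun z => c.fV (h z), fun z => (hKE z).1, fun z => (hKE z).2,
    fun z => ⟨c.iF (h z), fun k => (c.bF' hb h hr k).imp fun r h1 => h1 z⟩,
    fun k hk => c.bF hb h hr hk, fun k hk => isBun_of_rank fun z => ?_, c.bΦ, c.bV,
    fun z => (Dat.bK0 S (hr z)).1, hK, fun ⟨z⟩ => (Dat.bK0 S (hr z)).2, hE,
    ⟨⟨_, _, hK⟩, ⟨_, _, c.bΦ⟩, _, _, c.μ_hom.ses_range, ?_⟩,
    ⟨_, _, _, _, _, _, ses_sub_quo c.VV _ c.μ_hom.stab_range, c.bV, hE, rfl⟩, c.kΦ, c.kV⟩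
  · have h1 := (hKE z).2
    rw [(h z).fdim _ _ _ k h1.toIsEv ((h z).fibK _ _ _ h1.toIsFib k), ← (hr z).hq k hk, hq,
      sub_sub_cancel, Int.toNat_natCast]
    exact finrank_sub _ _ _ _
  · rw [← kc_eq c.bΦ, ← kc_eq hK]
    rfl

end Vale.Agent.P297Z.Qt
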