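import Vale.Agent.P297Z.Quot.Fbk1

/-!
# P297: the block FBK
-/

set_option linter.all false

open scoped TensorProduct

noncomputable section

namespace Vale.Agent.P297Z.Qt

variable {W X Y : Spc} {z : W.Pt}

theorem pl_add1 (f : Mor X Y) (M : GMod Y) (u v : M.M) : pl f M (u + v) = pl f M u + pl f M v :=
  f.tm_add M 1 u v

theorem pl_zero1 (f : Mor X Y) (M : GMod Y) : pl f M 0 = 0 := f.tm_zero M 1

theorem pl_smul1 (f : Mor X Y) (M : GMod Y) (r : Y.R) (v : M.M) :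
    pl f M (r • v) = f.φ r • pl f M v := f.tm_smul M 1 r v

theorem act_pl1 (f : Mor X Y) (M : GMod Y) (g : X.J → ℂˣ) (v : M.M) :
    (f.pull M).act g (pl f M v) = pl f M (M.act (tor f.ρ g) v) :=
  (f.act_tm M g 1 v).trans (congrArg (fun t => f.tm M t (M.act (tor f.ρ g) v)) (map_one (X.act g)))

theorem isFib_pull (z : W.Pt) (L : GMod Y) : IsFib z ((Mor.snd W Y).pull L) L (evL z L) where
  toIsEv := isEv_of_act (evL_smul z L) fun g m => by
    induction m using pull_ind with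
    | h0 => simp only [map_zero]
    | ha u v hu hv => simp only [map_add, hu, hv]
    | h1 a l => rw [GMod.act_smul, act_pl1, evL_pl, evL_pl, evR_act, tor_snd, L.act_smul]
  surj := fun l => ⟨(1 : (W.prod Y).R) • pl _ L l, by rw [evL_pl, map_one, one_smul]⟩
  ker := fun m hm => by
    have key : ∀ m : ((Mor.snd W Y).pull L).M, m - pl _ L (evL z L m) ∈ fibS z _ := by
      intro m
      induction m using pull_ind with
      | h0 => rw [map_zero, pl_zero1, sub_zero]; exact zero_mem _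
      | ha u v hu hv => rw [map_add, pl_add1, add_sub_add_comm]; exact add_mem hu hv
      | h1 a l =>
        rw [evL_pl, pl_smul1, ← sub_smul]
        exact Submodule.smul_mem_smul (sub_snd_mem z a) Submodule.mem_top
    have h := key m
    rwa [hm, pl_zero1, sub_zero] at h

theorem unsh_wt {M : GMod Y} {γ δ : Y.J → ℤ} {v : (M.shift γ).M} (h : v ∈ (M.shift γ).wt δ) :
    unsh M γ v ∈ M.wt (δ + γ) := GMod.mem_shift_wt.1 h

theorem IsFib.shift {M : GMod (W.prod Y)} {M₀ : GMod Y} {ε : M.M →+ M₀.M} (h : IsFib z M M₀ ε)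
    (τ : W.J → ℤ) :
    IsFib z (M.shift (Sum.elim τ 0)) M₀ (ε.comp (unsh M (Sum.elim τ 0)).toAddMonoidHom) where
  smul := fun a m => (congrArg ε (map_smul (unsh M _) a m)).trans (h.smul a _)
  wt := fun γ m hm => mwt_eq (h.wt _ _ (unsh_wt hm)) (funext fun j => add_zero _)
  surj := fun v => (h.surj v).elim fun m hm => ⟨sh M _ m, hm⟩
  ker := fun m hm => map_fibS (sh M _) (h.ker (unsh M _ m) hm)

theorem IsFib.shift' {M : GMod (W.prod Y)} {M₀ : GMod Y} {ε : M.M →+ M₀.M} (h : IsFib z M M₀ ε)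
    (γ : (W.prod Y).J → ℤ) (δ : Y.J → ℤ) (e : (fun j => γ (.inr j)) = δ) :
    IsFib z (M.shift γ) (M₀.shift δ)
      ((sh M₀ δ).toAddMonoidHom.comp (ε.comp (unsh M γ).toAddMonoidHom)) where
  smul := fun a m => (congrArg (sh M₀ δ) ((congrArg ε (map_smul (unsh M _) a m)).trans
    (h.smul a _))).trans (map_smul _ _ _)
  wt := fun γ' m hm => sh_wt (mwt_eq (h.wt _ _ (unsh_wt hm)) (e ▸ rfl))
  surj := fun v => (h.surj (unsh M₀ δ v)).elim fun m hm => ⟨sh M _ m, congrArg (sh M₀ δ) hm⟩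
  ker := fun m hm => map_fibS (sh M _) (h.ker (unsh M _ m) (congrArg (unsh M₀ δ) hm))

theorem isFib_one (z : W.Pt) : IsFib z (GMod.one (W.prod Y)) (GMod.one Y)
    (evR Y z : (W.prod Y).R →+* Y.R).toAddMonoidHom where
  toIsEv := isEv_of_act (map_mul (evR Y z)) (evR_act z)
  surj := fun b => ⟨(Mor.snd W Y).φ b, evR_snd z b⟩
  ker := fun (m : (W.prod Y).R) (hm : evR Y z m = 0) => by
    have h := sub_snd_mem z m
    rw [hm, map_zero, sub_zero] at h
    exact (mul_one m) ▸ Submodule.smul_mem_smul h (Submodule.mem_top (x := (1 : (W.prod Y).R)))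

theorem isFib_pi {ι : Type} [Fintype ι] {M : ι → GMod (W.prod Y)} {M₀ : ι → GMod Y}
    {ε : ∀ i, (M i).M →+ (M₀ i).M} (h : ∀ i, IsFib z (M i) (M₀ i) (ε i)) :
    IsFib z (GMod.pi M) (GMod.pi M₀) (piMap ε) where
  toIsEv := isEv_of_act (fun a m => funext fun i => (h i).smul a (m i))
    fun g m => funext fun i => (h i).toIsEv.act g (m i)
  surj := fun v => ⟨fun i => ((h i).surj (v i)).choose, funext fun i =>
    ((h i).surj (v i)).choose_spec⟩
  ker := fun m hm => by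
    classical
    rw [← Finset.univ_sum_single m]
    exact Submodule.sum_mem _ fun i _ => map_fibS (A := M i) (B := GMod.pi M)
      (LinearMap.single _ (fun i => (M i).M) i) ((h i).ker _ (congrFun hm i))

section uv

variable {A B : GMod (W.prod Y)} {A₀ B₀ : GMod Y} {εA : A.M →+ A₀.M} {εB : B.M →+ B₀.M}

theorem IsEv.sub (hA : IsEv z A A₀ εA) {N : Submodule _ A.M} (hN : A.Stab N)
    {N₀ : Submodule _ A₀.M} (hN₀ : A₀.Stab N₀) (h : ∀ m ∈ N, εA m ∈ N₀) :
    IsEv z (A.sub N hN) (A₀.sub N₀ hN₀) (subE εA hN hN₀ h) :=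
  isEv_of_act (fun a m => Subtype.ext (hA.smul a m.1)) fun g m => Subtype.ext (hA.act g m.1)

theorem IsEv.quo (hA : IsEv z A A₀ εA) {N : Submodule _ A.M} (hN : A.Stab N)
    {N₀ : Submodule _ A₀.M} (hN₀ : A₀.Stab N₀) (h : ∀ m ∈ N, εA m ∈ N₀) :
    IsEv z (A.quo N hN) (A₀.quo N₀ hN₀) (quoE εA hN hN₀ h) :=
  isEv_of_act
    (fun a m => by
      obtain ⟨m, rfl⟩ := N.mkQ_surjective m
      exact congrArg N₀.mkQ (hA.smul a m))
    fun g m => by
      obtain ⟨m, rfl⟩ := N.mkQ_surjective m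
      exact congrArg N₀.mkQ (hA.act g m)

variable {u : A.M →ₗ[(W.prod Y).R] B.M} {u₀ : A₀.M →ₗ[Y.R] B₀.M}

theorem isFib_quo (hu : A.IsHom B u) (hu₀ : A₀.IsHom B₀ u₀) h (hA : IsFib z A A₀ εA)
    (hB : IsFib z B B₀ εB) (e : ∀ a, εB (u a) = u₀ (εA a)) :
    IsFib z (B.quo _ hu.stab_range) (B₀.quo _ hu₀.stab_range)
      (quoE εB hu.stab_range hu₀.stab_range h) where
  toIsEv := hB.toIsEv.quo _ _ h
  surj := fun v => by
    obtain ⟨v, rfl⟩ := (LinearMap.range u₀).mkQ_surjective v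
    obtain ⟨b, rfl⟩ := hB.surj v
    exact ⟨(LinearMap.range u).mkQ b, rfl⟩
  ker := fun m hm => by
    obtain ⟨b, rfl⟩ := (LinearMap.range u).mkQ_surjective m
    obtain ⟨a₀, h0⟩ := (Submodule.Quotient.mk_eq_zero (LinearMap.range u₀)).1 hm
    obtain ⟨a, rfl⟩ := hA.surj a₀
    have h1 := map_fibS (B := B.quo _ hu.stab_range) (LinearMap.range u).mkQ
      (hB.ker (b - u a) (by rw [map_sub, e, h0, sub_self]))
    have h2 : (LinearMap.range u).mkQ (u a) = 0 :=
      (Submodule.Quotient.mk_eq_zero _).2 (LinearMap.mem_range_self u a)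
    have h3 : (LinearMap.range u).mkQ (b - u a) = (LinearMap.range u).mkQ b := by
      rw [map_sub, h2, sub_zero]
    exact h3 ▸ h1

end uv

namespace Sur

variable (S : Sur Y)

section ses

variable {K A C : GMod (W.prod Y)} {i : K.M →ₗ[(W.prod Y).R] A.M} {p : A.M →ₗ[(W.prod Y).R] C.M}
  (hi : K.IsHom A i) (hp : A.IsHom C p) (h2 : Function.Exact i p) (h3 : Function.Surjective p)
  (k : ℤ)
include h2 h3

theorem ses_ex {a : (S.pc A k).M}
    (ha : S.pm k p hp a ∈ RingHom.ker z.1 • (⊤ : Submodule W.R (S.pc C k).M)) :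
    ∃ n, a - S.pm k i hi n ∈ RingHom.ker z.1 • (⊤ : Submodule W.R (S.pc A k).M) := by
  have ex : Function.Exact (S.pm k i hi) (S.pm k p hp) := (S.prj W).partMap_exact _ hi hp h2
  obtain ⟨n, hn⟩ := (fib_exact (z := z.1) ex.apply_apply_eq_zero (.of_ker fun b => (ex b).1)
    (.of_surj ((S.prj W).partMap_surjective _ hp h3)) (Submodule.Quotient.mk a)).1
    ((Submodule.Quotient.mk_eq_zero _).2 ha)
  obtain ⟨n, rfl⟩ := fib_surj n
  exact ⟨n, (Submodule.Quotient.eq _).1 hn.symm⟩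

include hp in
theorem ses_free (h1 : Function.Injective i) (hA : ∃ r, FreeAt z.1 (S.pc A k).M r)
    (hC : ∃ r, FreeAt z.1 (S.pc C k).M r) : (∃ r, FreeAt z.1 (S.pc K k).M r) ∧
    ∀ n, S.pm k i hi n ∈ RingHom.ker z.1 • (⊤ : Submodule W.R (S.pc A k).M) →
      n ∈ RingHom.ker z.1 • (⊤ : Submodule W.R (S.pc K k).M) := by
  have ex : Function.Exact (S.pm k i hi) (S.pm k p hp) := (S.prj W).partMap_exact _ hi hp h2
  obtain ⟨a, hA⟩ := hA
  obtain ⟨c, hC⟩ := hC
  obtain ⟨r, s, t, k0, -, k2, -⟩ := exists_split hC ex.apply_apply_eq_zero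
    (.of_inj ((S.prj W).partMap_injective _ hi h1)) (.of_ker fun b => (ex b).1)
    (.of_surj ((S.prj W).partMap_surjective _ hp h3))
  exact ⟨⟨_, hA.of_summand k0 k2⟩, fun n hn => (Submodule.Quotient.mk_eq_zero _).1
    (fib_inj_of_left k0 k2 (((Submodule.Quotient.mk_eq_zero _).2 hn).trans (map_zero _).symm))⟩

end ses

theorem fam_pi {ι : Type} [Fintype ι] {M : ι → GMod (W.prod Y)} {M₀ : ι → GMod Y}
    {ε : ∀ i, (M i).M →+ (M₀ i).M} (h : ∀ i, S.Fam z (M i) (M₀ i) (ε i)) :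
    S.Fam z (GMod.pi M) (GMod.pi M₀) (piMap ε) :=
  ⟨isFib_pi fun i => (h i).toIsFib, fun k => by
    choose r hr using fun i => (h i).free k
    exact ⟨_, (AK.free_pi hr).of_isoAt' (IsoAt.of_bij (PK.part_pi (S.prj W) (fun _ => k) M))⟩⟩

theorem fam_ker {A B : GMod (W.prod Y)} {A₀ B₀ : GMod Y} {εA : A.M →+ A₀.M} {εB : B.M →+ B₀.M}
    {u : A.M →ₗ[(W.prod Y).R] B.M} {u₀ : A₀.M →ₗ[Y.R] B₀.M} (hu : A.IsHom B u)
    (hu₀ : A₀.IsHom B₀ u₀) h h' (hA : S.Fam z A A₀ εA) (hB : S.Fam z B B₀ εB)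
    (e : ∀ a, εB (u a) = u₀ (εA a))
    (hF : ∀ k, ∃ r, FreeAt z.1 (S.pc (B.quo _ hu.stab_range) k).M r) :
    S.Fam z (A.sub _ hu.stab_ker) (A₀.sub _ hu₀.stab_ker) (subE εA hu.stab_ker hu₀.stab_ker h) ∧
    S.Fam z (B.sub _ hu.stab_range) (B₀.sub _ hu₀.stab_range)
      (subE εB hu.stab_range hu₀.stab_range h') := by
  have s1 := fun k => S.ses_free (z := z) (GMod.isHom_subtype B _ hu.stab_range)
    (GMod.isHom_mkQ B _ hu.stab_range) (LinearMap.exact_subtype_mkQ _)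
    (Submodule.mkQ_surjective _) k (Submodule.injective_subtype _) (hB.free k) (hF k)
  have ex : Function.Exact (LinearMap.ker u).subtype u.rangeRestrict := fun a =>
    ⟨fun h => ⟨⟨a, congrArg Subtype.val h⟩, rfl⟩, by
      rintro ⟨b, rfl⟩
      exact Subtype.ext b.2⟩
  have s2 := fun k => S.ses_free (z := z) (GMod.isHom_subtype A _ hu.stab_ker) hu.rangeRestrict ex
    u.surjective_rangeRestrict k (Submodule.injective_subtype _) (hA.free k) (s1 k).1
  have r1 : ∀ k (n : (S.pc (B.sub _ hu.stab_range) k).M),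
      subE εB hu.stab_range hu₀.stab_range h' (S.val _ k n) = 0 →
      n ∈ RingHom.ker z.1 • (⊤ : Submodule W.R (S.pc (B.sub _ hu.stab_range) k).M) :=
    fun k n hn => (s1 k).2 n ((S.fibK hB.toIsFib k).ker _ (congrArg Subtype.val hn))
  have eR := hB.toIsEv.sub hu.stab_range hu₀.stab_range h'
  refine ⟨⟨S.isFib (hA.toIsEv.sub _ _ h) fun k => ⟨fun v hv => ?_, fun n hn => (s2 k).2 n
    ((S.fibK hA.toIsFib k).ker _ (congrArg Subtype.val hn))⟩, fun k => (s2 k).1⟩,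
    ⟨⟨eR, fun v => ?_, fun m hm => S.fibS_of_cm fun k => r1 k _ (by
      rw [S.ev_cm eR, hm, map_zero])⟩, fun k => (s1 k).1⟩⟩
  · obtain ⟨a, ha⟩ := (S.fibK hA.toIsFib k).surj v.1
      ((GMod.isHom_subtype A₀ _ hu₀.stab_ker).map_wt hv)
    obtain ⟨n, hn⟩ := S.ses_ex (z := z) (GMod.isHom_subtype A _ hu.stab_ker) hu.rangeRestrict ex
      u.surjective_rangeRestrict k (a := a) (r1 k _ (Subtype.ext
        ((e _).trans ((congrArg u₀ ha).trans v.2))))
    have h1 := hA.toIsEv.fibS (S.val_fibS hn)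
    rw [map_sub, map_sub, ha, sub_eq_zero] at h1
    exact ⟨n, Subtype.ext h1.symm⟩
  · obtain ⟨_, a₀, rfl⟩ := v
    obtain ⟨a, rfl⟩ := hA.surj a₀
    exact ⟨⟨u a, a, rfl⟩, Subtype.ext (e a)⟩

end Sur

theorem evR_map1 (g : Mor W X) (z : W.Pt) (a : (X.prod Y).R) :
    evR Y z ((g.map (Mor.id Y)).φ a) = evR Y (g.onPt z) a := by
  induction a using prod_ind1 with
  | h0 => simp only [map_zero]
  | ha a b ha hb => simp only [map_add, ha, hb]
  | ht r b =>
    rw [map_mul, map_fst, map_snd, map_mul, map_mul, evR_fst, evR_fst, evR_snd, evR_snd]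
    rfl

theorem tor_map (g : Mor W X) (h : Y.J → ℂˣ) : tor (g.map (Mor.id Y)).ρ (tY W h) = tY X h :=
  chr_ext fun γ => by
    rw [chr_tor, chr_tY, chr_tY]
    exact congrArg (chr · h) (funext fun j => zero_add _)

theorem exists_plift {V : Spc} (f : Mor V X) (M : GMod X) {M₀ : GMod Y} (e : V.R →ₐ[ℂ] Y.R)
    (ε : M.M →+ M₀.M) (h : ∀ r m, ε (r • m) = e (f.φ r) • ε m) :
    ∃ ε' : (f.pull M).M →+ M₀.M, ∀ a m, ε' (a • pl f M m) = e a • ε m := by
  let u : V.R →+ M.M →+ M₀.M := AddMonoidHom.mk' (fun a => AddMonoidHom.mk'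
    (fun m => e a • ε m) fun m n => by rw [map_add, smul_add]) fun a b =>
      AddMonoidHom.ext fun m => by
        change e (a + b) • ε m = e a • ε m + e b • ε m
        rw [map_add, add_smul]
  have hu : ∀ (r : X.R) a n, u (f.φ r * a) n = u a (r • n) := fun r a n => by
    change e (_ * a) • ε n = e a • ε (r • n)
    rw [map_mul, h, mul_comm, mul_smul]
  exact ⟨f.pullLift M u hu, fun a m => (f.pullLift_tm M u hu (a * 1) m).trans
    (congrArg (fun t => u t m) (mul_one a))⟩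

theorem pl_fibS (g : Mor W X) {M : GMod (X.prod Y)} (f : Mor (W.prod Y) (X.prod Y))
    (hf : ∀ r, f.φ ((Mor.fst X Y).φ r) = (Mor.fst W Y).φ (g.φ r)) {m : M.M}
    (hm : m ∈ fibS (g.onPt z) M) : pl f M m ∈ fibS z (f.pull M) :=
  fibS_ind (P := fun m => pl f M m ∈ fibS z (f.pull M)) (by rw [pl_zero1]; exact zero_mem _)
    (fun r m hr => by rw [pl_smul1, hf]; exact fst_smul_mem (r := g.φ r) hr _)
    (fun a b ha hb => by rw [pl_add1]; exact add_mem ha hb) hm

theorem exists_sub_pl (z : W.Pt) {M : GMod (X.prod Y)} (f : Mor (W.prod Y) (X.prod Y))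
    (hf : ∀ r, f.φ ((Mor.snd X Y).φ r) = (Mor.snd W Y).φ r) (x : (f.pull M).M) :
    ∃ m, x - pl f M m ∈ fibS z (f.pull M) := by
  induction x using pull_ind with
  | h0 => exact ⟨0, by rw [pl_zero1, sub_zero]; exact zero_mem _⟩
  | ha u v hu hv =>
    obtain ⟨m, hm⟩ := hu
    obtain ⟨n, hn⟩ := hv
    exact ⟨m + n, by rw [pl_add1, add_sub_add_comm]; exact add_mem hm hn⟩
  | h1 a l =>
    refine ⟨(Mor.snd X Y).φ (evR Y z a) • l, ?_⟩
    rw [pl_smul1, hf, ← sub_smul]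
    exact Submodule.smul_mem_smul (sub_snd_mem z a) Submodule.mem_top

theorem isFib_base (g : Mor W X) {M : GMod (X.prod Y)} {M₀ : GMod Y} {ε : M.M →+ M₀.M}
    (h : IsFib (g.onPt z) M M₀ ε) : ∃ ε', (∀ m, ε' (pl (g.map (Mor.id Y)) M m) = ε m) ∧
      IsFib z ((g.map (Mor.id Y)).pull M) M₀ ε' := by
  have e1 := evR_map1 (Y := Y) g z
  have e2 := tor_map (Y := Y) g
  have e3 := map_fst (Y := Y) g
  have e4 := map_snd (Y := Y) g
  generalize g.map (Mor.id Y) = f at e1 e2 e3 e4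
  obtain ⟨ε', h0⟩ := exists_plift f M (evR Y z) ε fun r m => by rw [e1, h.smul]
  have h1 : ∀ m, ε' (pl f M m) = ε m := fun m => by
    rw [← one_smul (W.prod Y).R (pl f M m), h0, map_one, one_smul]
  have h2 : IsEv z _ M₀ ε' := by
    refine isEv_of_act (fun a m => ?_) fun t m => ?_
    · induction m using pull_ind with
      | h0 => rw [smul_zero, map_zero, smul_zero]
      | ha u v hu hv => rw [smul_add, map_add, map_add, hu, hv, smul_add]
      | h1 b l => rw [smul_smul, h0, h0, map_mul, mul_smul]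
    · induction m using pull_ind with
      | h0 => simp only [map_zero]
      | ha u v hu hv => simp only [map_add, hu, hv]
      | h1 a l =>
        rw [GMod.act_smul, act_pl1, h0, h0, evR_act, e2, h.toIsEv.act, M₀.act_smul]
  refine ⟨ε', h1, h2, fun v => (h.surj v).elim fun m hm => ⟨_, (h1 m).trans hm⟩, fun x hx => ?_⟩
  obtain ⟨m, hm⟩ := exists_sub_pl z f e4 x
  have h3 := h2.fibS hm
  rw [map_sub, hx, h1, zero_sub, neg_eq_zero] at h3
  have h5 := add_mem hm (pl_fibS g f e3 (h.ker m h3))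
  rwa [sub_add_cancel] at h5

theorem free_piece {f : Mor X Y} (P : Prj f) (M : GMod X) (δ : X.J → ℤ) {k : P.E → ℤ}
    (e : P.π δ = k) (y : Y.R →ₐ[ℂ] ℂ) (r : ℕ) :
    FreeAt y (P.piece δ M).M r ↔ FreeAt y (P.part k M).M r := by
  subst e
  exact ⟨fun h => h.of_equiv (P.toPiece δ M).symm, fun h => h.of_equiv (P.toPiece δ M)⟩

theorem Sur.free_base (S : Sur Y) (g : Mor W X) (M : GMod (X.prod Y)) (k : ℤ) {r : ℕ}
    (h : FreeAt (g.onPt z).1 (S.pc M k).M r) :
    FreeAt z.1 (S.pc ((g.map (Mor.id Y)).pull M) k).M r := by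
  have hτ : ∀ δ, (S.prj W).π ((g.map (Mor.id Y)).ρ δ) = (S.prj X).π δ :=
    fun δ => congrArg (S.prj W).π (Mor.map_ρ g (Mor.id Y) δ)
  obtain ⟨e, -⟩ := (cart_fst g Y).part (S.prj X) (S.prj W) (AddEquiv.refl _) hτ M
    ((S.prj X).σ fun _ => k)
  have h1 := (free_piece (S.prj X) M _ ((S.prj X).π_σ _) _ _).2 h
  have h2 : FreeAt z.1 (g.pull ((S.prj X).piece ((S.prj X).σ fun _ => k) M)).M r :=
    AK.free_bc (S := g.Src) (w := z.1) (z := (g.onPt z).1) (fun _ => rfl) h1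
  exact (free_piece (S.prj W) _ _ ((hτ _).trans ((S.prj X).π_σ _)) _ _).1 (h2.of_equiv e)

theorem fbk : FBK := fun _ W Y S z =>
  { fibK := fun _ _ _ h k => S.fibK h k
    isFib := fun _ _ _ h hk => S.isFib h hk
    val_wt := fun _ _ _ h k m => S.ev_val h k m
    fib := fun _ _ _ k h hk => S.fib k h hk
    fdim := fun _ _ _ k h hk => S.fdim_eq k h hk
    pull := fun L => S.fam_of_const (fun z => isFib_pull z L) z
    evS := fun L τ => S.fam_of_const (fun z => (isFib_pull z L).shift τ) z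
    one := fun γ δ => S.fam_of_const (fun z => (isFib_one z).shift' (-Sum.elim γ δ) (-δ) rfl) z
    pi := fun _ _ _ _ _ h => S.fam_pi h
    quo := fun _ _ _ _ _ _ _ hu _ hu₀ h hA hB e => isFib_quo hu hu₀ h hA hB e
    ker := fun _ _ _ _ _ _ _ hu _ hu₀ h h' hA hB e hF => S.fam_ker hu hu₀ h h' hA hB e hF
    base := fun X g M M₀ ε h => (isFib_base g h.toIsFib).imp fun ε' h' =>
      ⟨h'.1, h'.2, fun k => (h.free k).imp fun r hr => S.free_base g M k hr⟩ }

end Vale.Agent.P297Z.Qt
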