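import Vale.Agent.P297Z.Quot.Sk

/-!
# P297: a family whose fibre is free at a point is free at that point
-/

set_option linter.all false

open scoped TensorProduct

noncomputable section

namespace Vale.Agent.P297Z.Qt

namespace Flb

section alg

variable {A R F M : Type} [CommRing A] [CommRing R] [Algebra ℂ A] [Algebra ℂ R] [AddCommGroup F]
  [Module R F] [AddCommGroup M] [Module R M] (φ : A →ₐ[ℂ] R) {n : ℕ} (a : Fin n → A)

variable (M) in
/-- the trivial relations -/
def Triv : Submodule R (Fin n → M) :=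
  Submodule.span R {v | ∃ (b : Fin n → A) (k : M), ∑ i, a i * b i = 0 ∧ v = fun i => φ (b i) • k}

variable {φ a}

theorem triv_lift {u : F →ₗ[R] M} {σ : R} (hσ : ∀ k, ∃ q, u q = σ • k) {v : Fin n → M}
    (hv : v ∈ Triv M φ a) :
    ∃ v' : Fin n → F, ∑ i, φ (a i) • v' i = 0 ∧ ∀ i, u (v' i) = σ • v i := by
  induction hv using Submodule.span_induction with
  | mem v hv =>
    obtain ⟨b, k, hb, rfl⟩ := hv
    obtain ⟨q, hq⟩ := hσ k
    refine ⟨fun i => φ (b i) • q, ?_, fun i => by rw [map_smul, hq, smul_comm]⟩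
    simp only [smul_smul, ← map_mul]
    rw [← Finset.sum_smul, ← map_sum, hb, map_zero, zero_smul]
  | zero => exact ⟨0, by simp, fun i => by simp⟩
  | add v v' _ _ h h' =>
    obtain ⟨q, h1, h2⟩ := h
    obtain ⟨q', h3, h4⟩ := h'
    refine ⟨q + q', ?_, fun i => by rw [Pi.add_apply, Pi.add_apply, map_add, h2, h4, smul_add]⟩
    simp only [Pi.add_apply, smul_add, Finset.sum_add_distrib, h1, h3, add_zero]
  | smul c v _ h =>
    obtain ⟨q, h1, h2⟩ := h
    refine ⟨c • q, ?_, fun i => by rw [Pi.smul_apply, Pi.smul_apply, map_smul, h2, smul_comm]⟩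
    simp only [Pi.smul_apply, smul_comm _ c]
    rw [← Finset.smul_sum, h1, smul_zero]

/-- the kernel of a map onto a flat module whose fibre is injective -/
theorem inj_core [IsNoetherianRing A] [IsNoetherian R F] [Module.Finite R M] (w : R →ₐ[ℂ] ℂ)
    {u : F →ₗ[R] M} (hu : SurjAt w u)
    (hfl : ∀ (n : ℕ) (a : Fin n → A) (m : Fin n → M), ∑ i, φ (a i) • m i = 0 →
      ∃ ρ, w ρ ≠ 0 ∧ ρ • m ∈ Triv M φ a)
    (hk : ∀ x, u x = 0 → ∃ s, w s ≠ 0 ∧
      s • x ∈ (RingHom.ker (w.comp φ)).map φ • (⊤ : Submodule R F)) : InjAt w u := by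
  obtain ⟨n, a, ha⟩ := Submodule.fg_iff_exists_fin_generating_family.1
    (IsNoetherian.noetherian (RingHom.ker (w.comp φ)))
  have h0 : ∀ i, w (φ (a i)) = 0 := fun i =>
    (ha ▸ Submodule.subset_span ⟨i, rfl⟩ : a i ∈ RingHom.ker (w.comp φ))
  have h1 : ∀ x ∈ (RingHom.ker (w.comp φ)).map φ • (⊤ : Submodule R F),
      ∃ p : Fin n → F, ∑ i, φ (a i) • p i = x := fun x hx => by
    refine Submodule.smul_induction_on (p := fun x => ∃ p : Fin n → F, ∑ i, φ (a i) • p i = x) hx
      (fun r hr p _ => ?_) ?_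
    · rw [← ha, Ideal.submodule_span_eq, Ideal.map_span, ← Set.range_comp] at hr
      obtain ⟨c, rfl⟩ := (Submodule.mem_span_range_iff_exists_fun R).1 hr
      refine ⟨fun i => c i • p, ?_⟩
      rw [Finset.sum_smul]
      exact Finset.sum_congr rfl fun i _ => by rw [smul_comm, smul_assoc]; rfl
    · rintro _ _ ⟨p, rfl⟩ ⟨q, rfl⟩
      exact ⟨p + q, by simp only [Pi.add_apply, smul_add, Finset.sum_add_distrib]⟩
  obtain ⟨σ, hσ, hσ'⟩ := hu.unif
  refine injAt_iff_ker.2 (zeroAt_iff_fib.2 fun x => ?_)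
  obtain ⟨x, rfl⟩ := fib_surj x
  obtain ⟨s, hs, h2⟩ := hk x.1 x.2
  obtain ⟨p, hp⟩ := h1 _ h2
  obtain ⟨ρ, hρ, h3⟩ := hfl n a (fun i => u (p i)) (by
    simp only [← map_smul]
    rw [← map_sum, hp, map_smul, LinearMap.mem_ker.1 x.2, smul_zero])
  obtain ⟨v, h4, h5⟩ := triv_lift hσ' h3
  have h6 : ∀ i, (σ * ρ) • p i - v i ∈ LinearMap.ker u := fun i => by
    rw [LinearMap.mem_ker, map_sub, map_smul, h5, Pi.smul_apply, mul_smul, sub_self]
  refine fib_eq_zero (ev_mul (ev_mul hσ hρ) hs) ?_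
  have h7 : (σ * ρ * s) • x = ∑ i, φ (a i) • (⟨_, h6 i⟩ : LinearMap.ker u) := by
    refine Subtype.ext ?_
    rw [Submodule.coe_sum, Submodule.coe_smul, mul_smul, ← hp, Finset.smul_sum]
    simp only [Submodule.coe_smul, smul_sub, Finset.sum_sub_distrib, h4, sub_zero]
    exact Finset.sum_congr rfl fun i _ => smul_comm _ _ _
  rw [← Submodule.Quotient.mk_smul, h7, Submodule.Quotient.mk_eq_zero]
  exact Submodule.sum_mem _ fun i _ => Submodule.smul_mem_smul (h0 i) Submodule.mem_top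

end alg

/-- a module whose parts are free at a point is flat there -/
theorem part_flat {X Y : Spc} {f : Mor X Y} (P : Prj f) (M : GMod X) (w : X.Pt)
    (h : ∀ k, ∃ r, FreeAt (f.onPt w).1 (P.part k M).M r) (n : ℕ) (a : Fin n → Y.R)
    (m : Fin n → M.M) (hm : ∑ i, f.φ (a i) • m i = 0) :
    ∃ ρ, w.1 ρ ≠ 0 ∧ ρ • m ∈ Triv M.M f.φ a := by
  classical
  choose s hs1 hs2 using fun i => exists_sum_cmp (P.spanE M) (m i)
  have h1 : m = ∑ k ∈ Finset.univ.biUnion s, fun i => cmp (P.spanE M) k (m i) := funext fun i => by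
    rw [Finset.sum_apply, ← Finset.sum_subset (Finset.subset_biUnion_of_mem s (Finset.mem_univ i))
      fun k _ hk => hs2 i k hk, hs1]
  rw [h1]
  refine Finset.sum_induction _ (fun v => ∃ ρ, w.1 ρ ≠ 0 ∧ ρ • v ∈ Triv M.M f.φ a) ?_
    ⟨1, ev_one, by rw [smul_zero]; exact Submodule.zero_mem _⟩ fun k _ => ?_
  · rintro v v' ⟨ρ, h2, h3⟩ ⟨ρ', h4, h5⟩
    refine ⟨ρ * ρ', ev_mul h2 h4, ?_⟩
    rw [smul_add]
    refine Submodule.add_mem _ ?_ ?_
    · rw [mul_comm, mul_smul]; exact Submodule.smul_mem _ _ h3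
    · rw [mul_smul]; exact Submodule.smul_mem _ _ h5
  · obtain ⟨r, e, ρ, g, h2, -, h3⟩ := h k
    let c : Fin n → (P.part k M).M := fun i => P.el _ (cmp_mem (P.spanE M) k (m i))
    have h4 : ∑ i, a i • c i = 0 := P.val_inj (by
      have := congrArg (cmp (P.spanE M) k) hm
      rw [map_sum, map_zero] at this
      rw [map_sum, map_zero, ← this]
      exact Finset.sum_congr rfl fun i _ => (P.cmpE_smul M k (a i) (m i)).symm)
    refine ⟨f.φ ρ, h2, ?_⟩
    have h5 : (f.φ ρ • fun i => cmp (P.spanE M) k (m i)) =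
        ∑ j, fun i => f.φ (g (c i) j) • P.val (e (Pi.single j 1)) := funext fun i => by
      rw [Finset.sum_apply]
      change P.val (ρ • c i) = ∑ j, P.val (g (c i) j • e (Pi.single j 1))
      rw [← h3, ← map_sum, LinearMap.pi_apply_eq_sum_univ e (g (c i))]
      refine congrArg P.val (Finset.sum_congr rfl fun j _ => ?_)
      congr 2
      funext l
      rw [Pi.single_apply]
      exact if_congr eq_comm rfl rfl
    rw [h5]
    refine Submodule.sum_mem _ fun j _ => Submodule.subset_span ⟨fun i => g (c i) j, _, ?_, rfl⟩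
    have h6 := congrFun (congrArg g h4) j
    rw [map_sum, map_zero, Finset.sum_apply] at h6
    simpa only [map_smul, Pi.smul_apply, smul_eq_mul, Pi.zero_apply] using h6

variable {W Y : Spc}

theorem prod_ind {P : (W.prod Y).R → Prop} (h0 : P 0)
    (h1 : ∀ a b, P ((Mor.fst W Y).φ a * (Mor.snd W Y).φ b)) (ha : ∀ u v, P u → P v → P (u + v))
    (x : (W.prod Y).R) : P x := by
  induction x using TensorProduct.induction_on with
  | zero => exact h0
  | add u v hu hv => exact ha u v hu hv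
  | tmul a b =>
    have e : (Mor.fst W Y).φ a * (Mor.snd W Y).φ b = (a ⊗ₜ[ℂ] b : W.R ⊗[ℂ] Y.R) :=
      (Algebra.TensorProduct.tmul_mul_tmul a 1 1 b).trans (by rw [mul_one, one_mul])
    exact e ▸ h1 a b

theorem sub_ev (z : W.Pt) (x : (W.prod Y).R) :
    x - (Mor.snd W Y).φ (evR Y z x) ∈ (RingHom.ker z.1).map (Mor.fst W Y).φ := by
  induction x using prod_ind with
  | h0 => rw [map_zero, map_zero, sub_zero]; exact Ideal.zero_mem _
  | ha a b ha hb =>
    rw [map_add, map_add, ← sub_add_sub_comm]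
    exact Ideal.add_mem _ ha hb
  | h1 a b =>
    have h := Ideal.mul_mem_right ((Mor.snd W Y).φ b) _ (Ideal.mem_map_of_mem (Mor.fst W Y).φ
      (show a - algebraMap ℂ W.R (z.1 a) ∈ RingHom.ker z.1 by simp [RingHom.mem_ker]))
    rw [map_sub, sub_mul, AlgHom.commutes] at h
    rwa [map_mul, evR_fst, evR_snd, map_mul, AlgHom.commutes]

theorem surj_at (w : (W.prod Y).Pt) {M N : Type} [AddCommGroup M] [Module (W.prod Y).R M]
    [Module.Finite (W.prod Y).R M] [AddCommGroup N] [Module (W.prod Y).R N]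
    (u : N →ₗ[(W.prod Y).R] M) (h : ∀ m, ∃ s n, w.1 s ≠ 0 ∧ s • m - u n ∈
      (RingHom.ker ((Mor.fst W Y).onPt w).1).map (Mor.fst W Y).φ •
        (⊤ : Submodule (W.prod Y).R M)) : SurjAt w.1 u := by
  refine surjAt_iff_fib.2 fun x => ?_
  obtain ⟨m, rfl⟩ := fib_surj x
  obtain ⟨s, n, h1, h2⟩ := h m
  refine fib_mem (S := LinearMap.range (fibMap w.1 u)) h1 ⟨Submodule.Quotient.mk n, ?_⟩
  rw [fibMap_mk, ← Submodule.Quotient.mk_smul, eq_comm, Submodule.Quotient.eq]
  exact Submodule.smul_mono_left (Ideal.map_le_iff_le_comap.2 fun r hr => hr) h2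

end Flb

open Flb in
theorem flb : FLB := by
  intro _ _ W Y S w M M₀ ε h
  refine ⟨?_, fun N u hu => surj_at w u fun m => ?_⟩
  · rintro r ⟨e, s, g, h1, h2, h3⟩
    choose m hm using fun i => h.surj (e (Pi.single i 1))
    have hε : ∀ v, ε (Fintype.linearCombination (W.prod Y).R m v) =
        e fun i => evR Y ((Mor.fst W Y).onPt w) (v i) := fun v => by
      rw [Fintype.linearCombination_apply, map_sum, LinearMap.pi_apply_eq_sum_univ e]
      refine Finset.sum_congr rfl fun i _ => ?_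
      rw [h.smul, hm]
      congr 2
      funext l
      rw [Pi.single_apply]
      exact if_congr eq_comm rfl rfl
    have hs : SurjAt w.1 (Fintype.linearCombination (W.prod Y).R m) := surj_at w _ fun b =>
      ⟨(Mor.snd W Y).φ s, fun i => (Mor.snd W Y).φ (g (ε b) i), h1, h.ker _ (by
        rw [map_sub, h.smul, hε, evR_snd]
        simp only [evR_snd]
        rw [h3, sub_self])⟩
    refine ⟨_, isoAt_of (inj_core (φ := (Mor.fst W Y).φ) w.1 hs
      (part_flat (S.prj W) M w fun k => h.free (k ())) fun x hx => ⟨(Mor.snd W Y).φ s, h1, ?_⟩) hs⟩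
    have h4 := h2 fun i => evR Y ((Mor.fst W Y).onPt w) (x i)
    rw [← hε, hx, map_zero, map_zero] at h4
    rw [pi_eq_sum_univ' ((Mor.snd W Y).φ s • x)]
    refine Submodule.sum_mem _ fun i _ => Submodule.smul_mem_smul ?_ Submodule.mem_top
    have h5 := sub_ev ((Mor.fst W Y).onPt w) ((Mor.snd W Y).φ s * x i)
    have h6 : s * evR Y ((Mor.fst W Y).onPt w) (x i) = 0 := (congrFun h4 i).symm
    rwa [map_mul, evR_snd, h6, map_zero, sub_zero] at h5
  · obtain ⟨n, hn⟩ := hu (ε m)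
    exact ⟨1, n, ev_one, h.ker _ (by rw [one_smul, map_sub, hn, sub_self])⟩

end Vale.Agent.P297Z.Qt
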