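import Vale.Agent.P297Z.Quot.Hbq1

/-!
# P297: homomorphisms of families
-/

set_option linter.all false

open scoped TensorProduct

noncomputable section

namespace Vale.Agent.P297Z.Qt

open GMod
open Submodule.Quotient (mk)

variable {W Y : Spc}

namespace Hb

theorem frk_add_le {A B C : GMod W} {u : A.M →ₗ[W.R] B.M} {v : B.M →ₗ[W.R] C.M}
    (h0 : ∀ a, v (u a) = 0) (y : W.R →ₐ[ℂ] ℂ) : frk y u + frk y v ≤ fdim y B.M := by
  have h1 : LinearMap.range (fibC y u) ≤ LinearMap.ker (fibC y v) := by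
    rintro _ ⟨x, rfl⟩
    exact fibMap_comp_zero h0 x
  have h2 := Submodule.finrank_mono h1
  have h3 := (fibC y v).finrank_range_add_finrank_ker
  unfold frk fdim
  omega

/-- the first cokernel of a complex whose fibre at a point is exact -/
theorem coker_at {A B C : GMod W} {u : A.M →ₗ[W.R] B.M} {v : B.M →ₗ[W.R] C.M} (hu : A.IsHom B u)
    (hv : B.IsHom C v) (h0 : ∀ a, v (u a) = 0) {z : W.Pt} {b c : ℕ} (hb : FreeAt z.1 B.M b)
    (hc : FreeAt z.1 C.M c) (h : ∀ y, fibMap z.1 v y = 0 → ∃ x, fibMap z.1 u x = y) :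
    ∃ r, FreeAt z.1 hu.cokerM.M r := by
  obtain ⟨s1, n1, h1⟩ := hb.nhd
  obtain ⟨s2, n2, h2⟩ := hc.nhd
  obtain ⟨s3, n3, h3⟩ := fdim_nhd (z := z.1) (A := hv.cokerM.M)
  refine PK.coker_free hu hb (ev_mul n1 (ev_mul n2 n3)) fun y hy => ?_
  rw [map_mul, map_mul] at hy
  have e2 : frk z.1 v + fdim z.1 hv.cokerM.M = fdim z.1 C.M := frk_add_coker v
  have e4 : frk y.1 v + fdim y.1 hv.cokerM.M = fdim y.1 C.M := frk_add_coker v
  have e5 := frk_add_of_exact (z := z.1) (f := u) (g := v) fun x => ⟨h x, by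
    rintro ⟨x, rfl⟩
    exact fibMap_comp_zero h0 x⟩
  have e6 := frk_add_le h0 y.1
  have e7 := h3 y.1 (right_ne_zero_of_mul (right_ne_zero_of_mul hy))
  have e8 := hb.fdim
  have e9 := hc.fdim
  have e10 := (h1 y.1 (left_ne_zero_of_mul hy)).fdim
  have e11 := (h2 y.1 (left_ne_zero_of_mul (right_ne_zero_of_mul hy))).fdim
  omega

section fb

variable {S : Sur Y} {z : W.Pt} {M : GMod (W.prod Y)} {M₀ : GMod Y} {ε : M.M →+ M₀.M} {k : ℤ}

theorem mk_eq_zero (h : IsEv z M M₀ ε) (f : S.FibK z M M₀ ε k) {m : (S.pc M k).M} :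
    (mk m : Fib z.1 (S.pc M k).M) = 0 ↔ ε (S.val M k m) = 0 :=
  (Submodule.Quotient.mk_eq_zero _).trans ⟨ev_val_zero S h, f.ker m⟩

theorem ev_of_mk (h : IsEv z M M₀ ε) {m m' : (S.pc M k).M}
    (e : (mk m : Fib z.1 (S.pc M k).M) = mk m') : ε (S.val M k m) = ε (S.val M k m') := by
  rw [← sub_eq_zero, ← map_sub, ← map_sub]
  exact ev_val_zero S h ((Submodule.Quotient.eq _).1 e)

theorem mk_eq_of (f : S.FibK z M M₀ ε k) {m m' : (S.pc M k).M}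
    (e : ε (S.val M k m) = ε (S.val M k m')) : (mk m : Fib z.1 (S.pc M k).M) = mk m' :=
  (Submodule.Quotient.eq _).2 (f.ker _ (by rw [map_sub, map_sub, e, sub_self]))

end fb

namespace Cov

variable {B G : GMod (W.prod Y)} (c : Cov B) (c' : Cov c.K) {z : W.Pt} {B₀ G₀ : GMod Y}
  {εB : B.M →+ B₀.M} {εG : G.M →+ G₀.M} {S : Sur Y}

/-- the map of a presentation -/
def d : c'.P.M →ₗ[(W.prod Y).R] c.P.M := c.ι ∘ₗ c'.π

/-- the map of a presentation on the fibres -/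
def d₀ (h : IsEv z B B₀ εB) : c'.P₀.M →ₗ[Y.R] c.P₀.M := c.ι₀ h ∘ₗ c'.π₀ (c.εK h)

theorem d_hom : c'.P.IsHom c.P (c.d c') := c.ι_hom.comp c'.π_hom

theorem d_exact : Function.Exact (c.d c') c.π := fun a => (c.ι_exact a).trans
  ⟨fun ⟨x, hx⟩ => (c'.π_surj x).imp fun y hy => (congrArg c.ι hy).trans hx,
    fun ⟨x, hx⟩ => ⟨_, hx⟩⟩

theorem ε_d (h : IsEv z B B₀ εB) (hK : IsEv z c.K (c.K₀ h) (c.εK h)) (a : c'.P.M) :
    c.ε z (c.d c' a) = c.d₀ c' h (c'.ε z a) :=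
  (c.ε_ι h _).trans (congrArg (c.ι₀ h) (c'.ε_π hK a))

/-- the inclusion of the homomorphisms of degree `k` -/
def u (S : Sur Y) (G : GMod (W.prod Y)) (k : ℤ) :
    (S.pc (B.hom G) k).M →ₗ[W.R] (S.pc (c.P.hom G) k).M := S.pm k (rs c.π G) (rs_hom c.π_hom G)

/-- the map whose kernel is the module of the homomorphisms of degree `k` -/
def v (S : Sur Y) (G : GMod (W.prod Y)) (k : ℤ) :
    (S.pc (c.P.hom G) k).M →ₗ[W.R] (S.pc (c'.P.hom G) k).M :=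
  S.pm k (rs (c.d c') G) (rs_hom (c.d_hom c') G)

theorem u_hom (S : Sur Y) (G : GMod (W.prod Y)) (k : ℤ) : IsHom _ _ (c.u S G k) := S.pm_hom _ _ _

theorem v_hom (S : Sur Y) (G : GMod (W.prod Y)) (k : ℤ) : IsHom _ _ (c.v c' S G k) :=
  S.pm_hom _ _ _

theorem val_u (k : ℤ) (φ : (S.pc (B.hom G) k).M) :
    S.val _ k (c.u S G k φ) = rs c.π G (S.val _ k φ) := rfl

theorem val_v (k : ℤ) (φ : (S.pc (c.P.hom G) k).M) :
    S.val _ k (c.v c' S G k φ) = rs (c.d c') G (S.val _ k φ) := rfl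

theorem u_inj (S : Sur Y) (G : GMod (W.prod Y)) (k : ℤ) : Function.Injective (c.u S G k) :=
  (S.prj W).partMap_injective _ (rs_hom c.π_hom G) (rs_inj c.π_surj G)

theorem uv_exact (S : Sur Y) (G : GMod (W.prod Y)) (k : ℤ) :
    Function.Exact (c.u S G k) (c.v c' S G k) :=
  (S.prj W).partMap_exact _ (rs_hom c.π_hom G) (rs_hom (c.d_hom c') G)
    (rs_exact (c.d_exact c') c.π_surj G)

theorem coker_free (F : Fbk S z) (fB : S.Fam z B B₀ εB) (fG : S.Fam z G G₀ εG) {k : ℤ}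
    (hk : Ext1 B₀ G₀ k) : ∃ r, FreeAt z.1 (c.v_hom c' S G k).cokerM.M r := by
  obtain ⟨c''⟩ := exists_cov S c'.K
  have fK := c.famK F fB
  have fK' := c'.famK F fK
  refine coker_at (c.v_hom c' S G k) (c'.v_hom c'' S G k) (fun a => S.val_inj ?_)
    (c'.hom_free fG k).choose_spec (c''.hom_free fG k).choose_spec fun y hy => ?_
  · rw [val_v, val_v, map_zero]
    refine hom_ext fun b => ?_
    rw [ap_rs, ap_rs, map_zero, LinearMap.zero_apply]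
    exact (congrArg (fun t => ap (S.val _ k a) (c.ι t))
      ((c'.d_exact c'').apply_apply_eq_zero b)).trans (by rw [map_zero, map_zero])
  · obtain ⟨a, rfl⟩ := fib_surj y
    rw [fibMap_mk, mk_eq_zero (evH_isEv _ _) (c''.hom_fibK F fG.toIsFib k), val_v,
      evH_rs _ (c'.famP F).toIsFib _ (c'.ε_d c'' fK.toIsEv fK'.toIsEv)] at hy
    obtain ⟨φ, h1, h2⟩ := exists_desc (c'.π₀_hom fK.toIsEv) (c'.π₀_surj fK.toIsFib)
      (F.val_wt _ _ _ (evH_isEv (c'.famP F).toIsFib fG.toIsEv) k a) fun b hb => by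
        obtain ⟨x, rfl⟩ := (c'.ι₀_exact fK.toIsEv b).1 hb
        obtain ⟨x, rfl⟩ := c''.π₀_surj fK'.toIsFib x
        exact congrArg (fun t => ap t x) hy
    obtain ⟨ψ, h3, h4⟩ := hk c.P₀ (c.π₀ εB) (c.π₀_hom fB.toIsEv) (c.π₀_surj fB.toIsFib) φ h1
    obtain ⟨a', h5⟩ := (c.hom_fibK F fG.toIsFib k).surj ψ h3
    refine ⟨Submodule.Quotient.mk a', ?_⟩
    rw [fibMap_mk]
    refine mk_eq_of (c'.hom_fibK F fG.toIsFib k) ?_
    rw [val_v, evH_rs _ (c.famP F).toIsFib _ (c.ε_d c' fB.toIsEv fK.toIsEv), h5, ← h2]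
    exact hom_ext fun b => h4 (c'.π₀ (c.εK fB.toIsEv) b)

theorem split (F : Fbk S z) (fB : S.Fam z B B₀ εB) (fG : S.Fam z G G₀ εG) {k : ℤ}
    (hk : Ext1 B₀ G₀ k) : (∃ a, FreeAt z.1 (S.pc (B.hom G) k).M a) ∧
      Function.Injective (fibMap z.1 (c.u S G k)) ∧
      Function.Exact (fibMap z.1 (c.u S G k)) (fibMap z.1 (c.v c' S G k)) :=
  PK.ker_free (c.u_hom S G k) (c.v_hom c' S G k) (c.u_inj S G k) (c.uv_exact c' S G k)
    (c.hom_free fG k).choose_spec (c'.hom_free fG k).choose_spec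
    (c.coker_free c' F fB fG hk).choose_spec

end Cov

theorem evH_fibK {S : Sur Y} {z : W.Pt} (F : Fbk S z) {B G : GMod (W.prod Y)} {B₀ G₀ : GMod Y}
    {εB : B.M →+ B₀.M} {εG : G.M →+ G₀.M} (fB : S.Fam z B B₀ εB) (fG : S.Fam z G G₀ εG) {k : ℤ}
    (hk : Ext1 B₀ G₀ k) : S.FibK z (B.hom G) (B₀.hom G₀) (evH fB.toIsFib fG.toIsEv) k ∧
      FreeAt z.1 (S.pc (B.hom G) k).M (Module.finrank ℂ ((B₀.hom G₀).wt (dg Y k))) := by
  obtain ⟨c⟩ := exists_cov S B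
  obtain ⟨c'⟩ := exists_cov S c.K
  obtain ⟨⟨a, ha⟩, h1, h2⟩ := c.split c' F fB fG hk
  have fK := c.famK F fB
  have e1 := evH_rs (c.famP F).toIsFib fB.toIsFib fG.toIsEv (c.ε_π fB.toIsEv)
  have f : S.FibK z (B.hom G) (B₀.hom G₀) (evH fB.toIsFib fG.toIsEv) k := by
    refine ⟨fun φ hφ => ?_, fun φ hφ => (Submodule.Quotient.mk_eq_zero _).1 (h1 ?_)⟩
    · obtain ⟨x, hx⟩ := (c.hom_fibK F fG.toIsFib k).surj _
        ((rs_hom (c.π₀_hom fB.toIsEv) G₀).map_wt hφ)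
      obtain ⟨y, hy⟩ := (h2 (mk x)).1 (by
        rw [fibMap_mk, mk_eq_zero (evH_isEv _ _) (c'.hom_fibK F fG.toIsFib k), Cov.val_v,
          evH_rs _ (c.famP F).toIsFib _ (c.ε_d c' fB.toIsEv fK.toIsEv), hx]
        refine hom_ext fun b => ?_
        rw [ap_rs, ap_rs, map_zero, LinearMap.zero_apply]
        exact (congrArg (ap φ) ((c.ι₀_exact fB.toIsEv).apply_apply_eq_zero _)).trans (map_zero _))
      obtain ⟨ψ, rfl⟩ := fib_surj y
      rw [fibMap_mk] at hy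
      have := ev_of_mk (evH_isEv (c.famP F).toIsFib fG.toIsEv) hy
      rw [hx, Cov.val_u, e1] at this
      exact ⟨ψ, rs_inj (c.π₀_surj fB.toIsFib) G₀ this⟩
    · rw [fibMap_mk, map_zero, mk_eq_zero (evH_isEv _ _) (c.hom_fibK F fG.toIsFib k), Cov.val_u,
        e1, hφ, map_zero]
  refine ⟨f, ?_⟩
  rw [← F.fdim _ _ _ k (evH_isEv fB.toIsFib fG.toIsEv) f, ha.fdim]
  exact ha

end Hb

theorem hb : HB := fun hF hB W Y S z _ _ _ _ _ _ fB fG =>
  ⟨Hb.evH fB.toIsFib fG.toIsEv, Hb.evH_ap _ _, Hb.evH_isEv _ _,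
    fun _ hk => Hb.evH_fibK (hF hB W Y S z) fB fG hk⟩

end Vale.Agent.P297Z.Qt
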