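import Vale.Agent.P297Z.Quot.Sk

/-!
# P297: the classes of the two bundles of homomorphisms
-/

set_option linter.all false

noncomputable section

namespace Vale.Agent.P297Z.Qt

theorem hcl_nat {n a : ℕ} {p : ℤ} (h : (n : ℤ) = a * p) : n = a * p.toNat := by
  rcases le_total 0 p with hp | hp
  · obtain ⟨b, rfl⟩ := Int.eq_ofNat_of_zero_le hp
    exact_mod_cast h
  · have h1 : (a : ℤ) * p ≤ 0 := mul_nonpos_of_nonneg_of_nonpos (Int.natCast_nonneg a) hp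
    rw [Int.toNat_of_nonpos hp, mul_zero]
    omega

theorem hcl_line (W Y : Spc) : line (W.prod Y) (Sum.elim (0 : W.J → ℤ) (dg Y 0)) = 1 := by
  have h : (Sum.elim (0 : W.J → ℤ) (dg Y 0) : (W.prod Y).J → ℤ) = 0 :=
    funext fun j => by cases j <;> rfl
  exact (congrArg (line (W.prod Y)) h).trans line_zero

theorem hcl_cls (hFBK : FBK) (hHB : HB) (hCLS : CLS) (hRESH : RESH) (hBAS : BAS) {W Y : Spc}
    (S : Sur Y) (hW : W.Cn) {B G : GMod (W.prod Y)} {b : ℕ} {x : K0 (W.prod Y)} (hB : B.IsBun b)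
    (hG : Res 2 G x)
    (h : ∀ z : W.Pt, ∃ (B₀ G₀ : GMod Y) (εB : B.M →+ B₀.M) (εG : G.M →+ G₀.M),
      S.Fam z B B₀ εB ∧ S.Fam z G G₀ εG ∧ (∀ k, 0 ≤ k → Ext1 B₀ G₀ k) ∧
        ∀ k, 0 ≤ k → KosEx (S.xp 1) (1 : ℕ) (B₀.hom G₀) k)
    {r : ℕ} (hr : (S.pc (B.hom G) 0).IsBun r) :
    kc (S.pc (B.hom G) 0) r = pK W Y (dualK _ (kc B b) * x) := by
  have h1 := hCLS hFBK hBAS W Y S hW 1 one_pos (B.hom G) 2 _ 0 (hRESH _ B G b 2 x hB hG)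
    (fun z => ?_) r hr
  · rwa [hcl_line, mul_one] at h1
  · obtain ⟨B₀, G₀, εB, εG, f1, f2, f3, f4⟩ := h z
    obtain ⟨ε, -, e1, e2⟩ := hHB hFBK hBAS W Y S z B G B₀ G₀ εB εG f1 f2
    refine ⟨B₀.hom G₀, ε, e1, fun i => ?_⟩
    have hi : (0 : ℤ) ≤ 0 + (i : ℤ) * ((1 : ℕ) : ℤ) := by positivity
    exact ⟨(e2 _ (f3 _ hi)).1, ⟨_, (e2 _ (f3 _ hi)).2⟩, f4 _ hi⟩

theorem hcl : HCL := by
  intro hFBK hFLB hFAM hHB hCLS hRESH hBAS hKOSP hEXK hH1 hPTS hKX W Y S D c ok hc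
  have pts := hPTS hBAS Y S D ok
  have fm := hFAM hFBK hFLB hBAS W Y S D c fun z => pts.reg _ (hc z)
  have kx := fun z => hKX hBAS hKOSP hEXK hH1 hPTS Y S D ok _ (hc z)
  have bA : (c.A S).IsBun (Fintype.card D.Sx * (D.p D.m).toNat) := fun z => by
    obtain ⟨ε, -, -, e2⟩ := hHB hFBK hBAS W Y S z _ _ _ _ _ _ (fm.fΦ z) (fm.fF z)
    rw [← hcl_nat (kx z).dimA]
    exact (e2 0 ((kx z).extA 0)).2
  have fH : ∀ z, FreeAt z.1 (c.H S).M (D.hd (c.cz z)) := fun z => by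
    obtain ⟨ε, -, -, e2⟩ := hHB hFBK hBAS W Y S z _ _ _ _ _ _ (fm.fK z) (fm.fF z)
    exact (e2 0 ((kx z).extH 0 le_rfl)).2
  have kA : W.Cn → kc (c.A S) (Fintype.card D.Sx * (D.p D.m).toNat) =
      pK W Y (dualK _ (kc c.Φ (Fintype.card D.Sx)) * (c.vK - c.eK)) := fun hW =>
    hcl_cls hFBK hHB hCLS hRESH hBAS S hW fm.bΦ fm.resF
      (fun z => ⟨_, _, _, _, fm.fΦ z, fm.fF z, fun k _ => (kx z).extA k, (kx z).kosA⟩) bA
  have kH : W.Cn → ∀ z, (c.H S).IsBun (D.hd (c.cz z)) ∧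
      kc (c.H S) (D.hd (c.cz z)) = pK W Y (dualK _ (kc c.K1 D.rK) * (c.vK - c.eK)) := by
    intro hW z
    obtain ⟨r, hr⟩ := hW.conn (c.H S) fun y => ⟨_, fH y⟩
    have h1 : (c.H S).IsBun (D.hd (c.cz z)) := by
      rw [(fH z).unique (hr z)]
      exact hr
    exact ⟨h1, hcl_cls hFBK hHB hCLS hRESH hBAS S hW fm.bK fm.resF
      (fun z => ⟨_, _, _, _, fm.fK z, fm.fF z, (kx z).extH, (kx z).kosH⟩) h1⟩
  refine ⟨bA, fH, kA, kH, fun hW z => ?_⟩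
  have h1 : dualK _ c.eK * (c.vK - c.eK) = dualK _ (kc c.Φ (Fintype.card D.Sx)) * (c.vK - c.eK) -
      dualK _ (kc c.K1 D.rK) * (c.vK - c.eK) := by
    rw [← sub_mul, ← map_sub]
    rfl
  rw [h1, map_sub, map_sub, ← kA hW, ← (kH hW z).2, rk_kc bA, rk_kc (kH hW z).1,
    ← hcl_nat (kx z).dimA, (kx z).dimA, sub_sub_cancel]

end Vale.Agent.P297Z.Qt
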