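import Vale.Agent.P297Z.Quot.Sk

/-!
# P297: a regular pair makes the Koszul complex exact
-/

set_option linter.all false

noncomputable section

namespace Vale.Agent.P297Z.Qt

section Abs

variable {R : Type} [CommRing R] (x : Fin 3 → R) {M : Type} [AddCommGroup M] [Module R M]

theorem k1_ap (v : M) (i : Fin 3) : k1 x M v i = x i • v := rfl

theorem k2_0 (w : Fin 3 → M) : k2 x M w 0 = x 1 • w 2 - x 2 • w 1 := rfl

theorem k2_1 (w : Fin 3 → M) : k2 x M w 1 = x 2 • w 0 - x 0 • w 2 := rfl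

theorem k2_2 (w : Fin 3 → M) : k2 x M w 2 = x 0 • w 1 - x 1 • w 0 := rfl

theorem k3_ap (w : Fin 3 → M) : k3 x M w = x 0 • w 0 + x 1 • w 1 + x 2 • w 2 := by
  rw [k3, Fin.sum_univ_three]
  rfl

theorem fin3 {P : Fin 3 → Prop} (h0 : P 0) (h1 : P 1) (h2 : P 2) (i : Fin 3) : P i := by
  match i with
  | 0 => exact h0
  | 1 => exact h1
  | 2 => exact h2

variable (W : ℤ → AddSubgroup M) (a b : Fin 3 → R) (h₀ h₁ : R)

theorem abs_e0 (e0 : h₀ = a 0 * x 0 + a 1 * x 1 + a 2 * x 2) (v : M) (hv : k1 x M v = 0) :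
    h₀ • v = 0 := by
  have h := fun i => (k1_ap x v i).symm.trans (congrFun hv i)
  have h0 : x 0 • v = 0 := h 0
  have h1 : x 1 • v = 0 := h 1
  have h2 : x 2 • v = 0 := h 2
  rw [e0]
  linear_combination (norm := module) a 0 • h0 + a 1 • h1 + a 2 • h2

theorem abs_e1 (ha : ∀ i k, ∀ v ∈ W k, a i • v ∈ W k) (hb : ∀ i k, ∀ v ∈ W k, b i • v ∈ W k)
    (hx : ∀ i k, ∀ v ∈ W k, x i • v ∈ W (k + 1))
    (e0 : h₀ = a 0 * x 0 + a 1 * x 1 + a 2 * x 2) (e1 : h₁ = b 0 * x 0 + b 1 * x 1 + b 2 * x 2)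
    (j : ℤ) (inj : ∀ v ∈ W (j + 1), h₀ • v = 0 → v = 0)
    (reg : ∀ v ∈ W (j + 1), ∀ u ∈ W (j + 1), h₁ • v = h₀ • u → ∃ u' ∈ W j, v = h₀ • u')
    (w : Fin 3 → M) (hw : ∀ i, w i ∈ W (j + 1)) (hk : k2 x M w = 0) :
    ∃ v ∈ W j, k1 x M v = w := by
  have h0 : x 1 • w 2 - x 2 • w 1 = 0 := congrFun hk 0
  have h1 : x 2 • w 0 - x 0 • w 2 = 0 := congrFun hk 1
  have h2 : x 0 • w 1 - x 1 • w 0 = 0 := congrFun hk 2
  obtain ⟨v, hv, e⟩ := reg (a 0 • w 0 + a 1 • w 1 + a 2 • w 2)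
    (add_mem (add_mem (ha _ _ _ (hw 0)) (ha _ _ _ (hw 1))) (ha _ _ _ (hw 2)))
    (b 0 • w 0 + b 1 • w 1 + b 2 • w 2)
    (add_mem (add_mem (hb _ _ _ (hw 0)) (hb _ _ _ (hw 1))) (hb _ _ _ (hw 2))) (by
      rw [e0, e1]
      linear_combination (norm := module) (a 2 * b 1 - a 1 * b 2) • h0 +
        (a 0 * b 2 - a 2 * b 0) • h1 + (a 1 * b 0 - a 0 * b 1) • h2)
  refine ⟨v, hv, funext fun i => ?_⟩
  rw [k1_ap]
  refine sub_eq_zero.1 (inj _ (sub_mem (hx i _ _ hv) (hw i)) ?_)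
  rw [smul_sub, smul_comm h₀ (x i) v, ← e, e0]
  revert i
  refine fin3 ?_ ?_ ?_
  · linear_combination (norm := module) a 1 • h2 - a 2 • h1
  · linear_combination (norm := module) a 2 • h0 - a 0 • h2
  · linear_combination (norm := module) a 0 • h1 - a 1 • h0

theorem abs_e2 (ha : ∀ i k, ∀ v ∈ W k, a i • v ∈ W k) (hb : ∀ i k, ∀ v ∈ W k, b i • v ∈ W k)
    (hx : ∀ i k, ∀ v ∈ W k, x i • v ∈ W (k + 1))
    (e0 : h₀ = a 0 * x 0 + a 1 * x 1 + a 2 * x 2) (e1 : h₁ = b 0 * x 0 + b 1 * x 1 + b 2 * x 2)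
    (j : ℤ) (inj : ∀ v ∈ W (j + 1), h₀ • v = 0 → v = 0)
    (reg : ∀ v ∈ W (j + 1), ∀ u ∈ W (j + 1), h₁ • v = h₀ • u → ∃ u' ∈ W j, v = h₀ • u')
    (surj : ∀ v ∈ W (j + 1), ∃ u ∈ W j, ∃ u' ∈ W j, v = h₀ • u + h₁ • u')
    (w : Fin 3 → M) (hw : ∀ i, w i ∈ W (j + 1)) (hk : k3 x M w = 0) :
    ∃ w' : Fin 3 → M, (∀ i, w' i ∈ W j) ∧ k2 x M w' = w := by
  rw [k3_ap] at hk
  have hc : ∀ c : Fin 3 → R, (∀ i k, ∀ v ∈ W k, c i • v ∈ W k) →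
      ∀ i, k2 c M w i ∈ W (j + 1) := fun c hc =>
    fin3 (sub_mem (hc _ _ _ (hw 2)) (hc _ _ _ (hw 1))) (sub_mem (hc _ _ _ (hw 0)) (hc _ _ _ (hw 2)))
      (sub_mem (hc _ _ _ (hw 1)) (hc _ _ _ (hw 0)))
  obtain ⟨u, hu, u', hu', e⟩ := surj (k3 a M (k2 b M w)) (by
    rw [k3_ap]
    exact add_mem (add_mem (ha _ _ _ (hc b hb 0)) (ha _ _ _ (hc b hb 1))) (ha _ _ _ (hc b hb 2)))
  rw [k3_ap, k2_0, k2_1, k2_2] at e
  have key : ∀ i, ∃ v ∈ W j, k2 a M w i + x i • u' = h₀ • v := by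
    intro i
    refine reg _ (add_mem (hc a ha i) (hx i _ _ hu')) (k2 b M w i - x i • u)
      (sub_mem (hc b hb i) (hx i _ _ hu)) ?_
    rw [e0, e1] at e ⊢
    revert i
    refine fin3 ?_ ?_ ?_
    · rw [k2_0, k2_0]
      linear_combination (norm := module) (a 1 * b 2 - a 2 * b 1) • hk - x 0 • e
    · rw [k2_1, k2_1]
      linear_combination (norm := module) (a 2 * b 0 - a 0 * b 2) • hk - x 1 • e
    · rw [k2_2, k2_2]
      linear_combination (norm := module) (a 0 * b 1 - a 1 * b 0) • hk - x 2 • e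
  choose v hv ev using key
  have v0 := ev 0
  have v1 := ev 1
  have v2 := ev 2
  rw [k2_0] at v0
  rw [k2_1] at v1
  rw [k2_2] at v2
  refine ⟨fun i => -v i, fun i => neg_mem (hv i), funext fun i => ?_⟩
  have hm : k2 x M (fun i => -v i) i ∈ W (j + 1) := by
    revert i
    exact fin3 (sub_mem (hx _ _ _ (neg_mem (hv 2))) (hx _ _ _ (neg_mem (hv 1))))
      (sub_mem (hx _ _ _ (neg_mem (hv 0))) (hx _ _ _ (neg_mem (hv 2))))
      (sub_mem (hx _ _ _ (neg_mem (hv 1))) (hx _ _ _ (neg_mem (hv 0))))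
  refine sub_eq_zero.1 (inj _ (sub_mem hm (hw i)) ?_)
  clear hm
  revert i
  refine fin3 ?_ ?_ ?_
  · rw [k2_0]
    have : h₀ • w 0 = (a 0 * x 0 + a 1 * x 1 + a 2 * x 2) • w 0 := by rw [e0]
    linear_combination (norm := module) x 1 • v2 - x 2 • v1 - a 0 • hk - this
  · rw [k2_1]
    have : h₀ • w 1 = (a 0 * x 0 + a 1 * x 1 + a 2 * x 2) • w 1 := by rw [e0]
    linear_combination (norm := module) x 2 • v0 - x 0 • v2 - a 1 • hk - this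
  · rw [k2_2]
    have : h₀ • w 2 = (a 0 * x 0 + a 1 * x 1 + a 2 * x 2) • w 2 := by rw [e0]
    linear_combination (norm := module) x 0 • v1 - x 1 • v0 - a 2 • hk - this

theorem abs_e3 (ha : ∀ i k, ∀ v ∈ W k, a i • v ∈ W k) (hb : ∀ i k, ∀ v ∈ W k, b i • v ∈ W k)
    (e0 : h₀ = a 0 * x 0 + a 1 * x 1 + a 2 * x 2) (e1 : h₁ = b 0 * x 0 + b 1 * x 1 + b 2 * x 2)
    (j : ℤ) (v u u' : M) (hu : u ∈ W j) (hu' : u' ∈ W j) (e : v = h₀ • u + h₁ • u') :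
    ∃ w : Fin 3 → M, (∀ i, w i ∈ W j) ∧ k3 x M w = v := by
  refine ⟨fun i => a i • u + b i • u', fun i => add_mem (ha _ _ _ hu) (hb _ _ _ hu'), ?_⟩
  rw [k3_ap, e, e0, e1]
  module

end Abs

theorem kosp : KOSP := by
  intro Y S M m h₀ hh₀ h₁ hh₁ P j hj
  obtain ⟨a, ea⟩ := (Submodule.mem_span_range_iff_exists_fun ℂ).1 hh₀
  obtain ⟨b, eb⟩ := (Submodule.mem_span_range_iff_exists_fun ℂ).1 hh₁
  let W : ℤ → AddSubgroup M.M := fun k => (M.wt (dg Y k)).toAddSubgroup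
  have hc : ∀ c : Fin 3 → ℂ, ∀ i k, ∀ v ∈ W k, algebraMap ℂ Y.R (c i) • v ∈ W k := by
    intro c i k v hv
    rw [algebraMap_smul]
    exact (M.wt (dg Y k)).smul_mem _ hv
  have hx : ∀ i k, ∀ v ∈ W k, S.x i • v ∈ W (k + 1) := fun i k v hv =>
    mwt_eq (GMod.smul_mem_wt (S.x_wt i) hv) (funext fun _ => add_comm (1 : ℤ) k)
  have e0 : h₀ = algebraMap ℂ Y.R (a 0) * S.x 0 + algebraMap ℂ Y.R (a 1) * S.x 1 +
      algebraMap ℂ Y.R (a 2) * S.x 2 := by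
    rw [← ea, Fin.sum_univ_three, Algebra.smul_def, Algebra.smul_def, Algebra.smul_def]
  have e1 : h₁ = algebraMap ℂ Y.R (b 0) * S.x 0 + algebraMap ℂ Y.R (b 1) * S.x 1 +
      algebraMap ℂ Y.R (b 2) * S.x 2 := by
    rw [← eb, Fin.sum_univ_three, Algebra.smul_def, Algebra.smul_def, Algebra.smul_def]
  have d2 : j + 2 * 1 = j + 1 + 1 := by ring
  have d3 : j + 3 * 1 = j + 1 + 2 := by ring
  refine ⟨⟨fun v hv h => P.inj j hj v hv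
    (abs_e0 S.x (fun i => algebraMap ℂ Y.R (a i)) h₀ e0 v h), fun w hw h => ?_⟩,
    fun w hw h => ?_, fun v hv => ?_⟩
  · exact abs_e1 S.x W _ _ h₀ h₁ (hc a) (hc b) hx e0 e1 j (P.inj (j + 1) (by omega))
      (P.reg j hj) w hw h
  · rw [d2] at hw
    refine abs_e2 S.x W _ _ h₀ h₁ (hc a) (hc b) hx e0 e1 (j + 1) (P.inj (j + 1 + 1) (by omega))
      (P.reg (j + 1) (by omega)) (fun v hv => P.surj j hj v ?_) w hw h
    rw [show j + 2 = j + 1 + 1 by ring]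
    exact hv
  · rw [d3] at hv
    obtain ⟨u, hu, u', hu', e⟩ := P.surj (j + 1) (by omega) v hv
    rw [d2]
    exact abs_e3 S.x W _ _ h₀ h₁ (hc a) (hc b) e0 e1 (j + 1 + 1) v u u' hu hu' e

end Vale.Agent.P297Z.Qt
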