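import Vale.Agent.P297Z.Quot.Sk

/-!
# P297: the vanishing theorems at a point of the Quot space
-/

set_option linter.all false

noncomputable section

namespace Vale.Agent.P297Z.Qt

open GMod

variable {Y : Spc}

namespace KxA

theorem isHom_of_wt0 {A B : GMod Y} {φ : (A.hom B).M} (h : φ ∈ (A.hom B).wt 0) :
    A.IsHom B (ap φ) := isHom_of_wt fun γ m hm => mwt_eq (ap_wt h hm) (add_zero γ)

theorem wt0_of_isHom {A B : GMod Y} {φ : (A.hom B).M} (h : A.IsHom B (ap φ)) :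
    φ ∈ (A.hom B).wt 0 := fun g => by
  rw [chr_zero, one_smul]
  refine ap.injective (LinearMap.ext fun a => ?_)
  rw [act_ap, ← h, A.act_act_inv]

/-- the generators of a free module -/
def gn {ι : Type} [Fintype ι] [DecidableEq ι] (δ : ι → Y.J → ℤ) (i : ι) : (Fr δ).M :=
  sgl (fun i => (GMod.one Y).shift (-δ i)) i (sh (GMod.one Y) (-δ i) (1 : Y.R))

theorem gn_wt {ι : Type} [Fintype ι] [DecidableEq ι] (δ : ι → Y.J → ℤ) (i : ι) :
    gn δ i ∈ (Fr δ).wt (δ i) :=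
  sgl_wt (M := fun i => (GMod.one Y).shift (-δ i))
    (sh_wt (M := GMod.one Y) (mwt_eq (M := GMod.one Y) Y.one_mem (add_neg_cancel (δ i)).symm))

theorem lc_gn {ι : Type} [Fintype ι] [DecidableEq ι] (δ : ι → Y.J → ℤ) {G : GMod Y}
    (v : ι → G.M) (i : ι) :
    (show (Fr δ).M →ₗ[Y.R] G.M from Fintype.linearCombination Y.R v) (gn δ i) = v i :=
  (Fintype.linearCombination_apply_single Y.R v i 1).trans (one_smul _ _)

theorem ext_gn {ι : Type} [Fintype ι] [DecidableEq ι] (δ : ι → Y.J → ℤ) {G : GMod Y}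
    {φ ψ : (Fr δ).M →ₗ[Y.R] G.M} (h : ∀ i, φ (gn δ i) = ψ (gn δ i)) : φ = ψ :=
  LinearMap.pi_ext' (φ := fun _ : ι => Y.R) fun i => LinearMap.ext_ring (h i)

/-- the maps of degree zero from a free module -/
theorem finrank_hom_fr {ι : Type} [Fintype ι] (δ : ι → Y.J → ℤ) (G : GMod Y)
    [∀ i, Module.Finite ℂ (G.wt (δ i))] :
    Module.finrank ℂ (((Fr δ).hom G).wt 0) = ∑ i, Module.finrank ℂ (G.wt (δ i)) := by
  classical
  let e : ((Fr δ).hom G).wt 0 →ₗ[ℂ] ∀ i, G.wt (δ i) :=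
    { toFun := fun φ i => ⟨ap φ.1 (gn δ i), (isHom_of_wt0 φ.2).map_wt (gn_wt δ i)⟩
      map_add' := fun _ _ => rfl
      map_smul' := fun _ _ => rfl }
  have hb : Function.Bijective e := by
    refine ⟨fun φ ψ h => Subtype.ext (ap.injective (ext_gn δ fun i =>
      congrArg Subtype.val (congrFun h i))), fun v => ?_⟩
    exact ⟨⟨ap.symm (Fintype.linearCombination Y.R fun i => (v i).1),
      wt0_of_isHom (lc_hom δ _ fun i => (v i).2)⟩,
      funext fun i => Subtype.ext (lc_gn δ (fun i => (v i).1) i)⟩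
  rw [(LinearEquiv.ofBijective e hb).finrank_eq, Module.finrank_pi_fintype]

theorem span_wt (S : Sur Y) {h : Y.R} (hh : h ∈ Submodule.span ℂ (Set.range S.x)) :
    h ∈ Y.wt (dg Y 1) :=
  Submodule.span_le.2 (by rintro _ ⟨i, rfl⟩; exact S.x_wt i) hh

theorem not_orb {γ : Y.J → ℤ} {h : Y.R} (hh : h ∈ Y.wt γ) {y z : Y.Pt} (hy : y.1 h ≠ 0)
    (hz : z.1 h = 0) : ¬ Y.Orb y z := by
  rintro ⟨g, e⟩
  rw [e, AlgHom.comp_apply, Spc.mem_wt.1 hh g, map_smul, smul_eq_mul] at hz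
  exact mul_ne_zero (chr_ne γ g) hy hz

theorem low_sub {M : GMod Y} {j : ℤ} (h : Low M j) (N : Submodule Y.R M.M) (hN : M.Stab N) :
    Low (M.sub N hN) j := fun k hk => eq_bot_iff.2 fun v hv => by
  have h1 := (isHom_subtype M N hN).map_wt hv
  rw [h k hk, Submodule.mem_bot] at h1
  exact Subtype.ext h1

theorem xp_one (S : Sur Y) : S.xp 1 = S.x := funext fun i => pow_one (S.x i)

end KxA

open KxA

theorem kx : KX := by
  intro hB kosp exk h1 pts Y S D ok q hq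
  have B := hB Y S
  have P := pts hB Y S D ok
  have bV : D.V.IsBun D.ρ := isBun_pi fun a => (D.L a).free
  have bΦ : D.Φ0.IsBun _ := isBun_pi fun _ : D.Sx => (isBun_one Y).shift (-dg Y D.m)
  obtain ⟨s, hs⟩ := S.tf ⟨D.V, _, bV⟩ (D.gen q) (D.μ0_hom q).stab_range
  obtain ⟨h₀, m₀, h₁, m₁, hne, hp⟩ := P.pair q hq s
  obtain ⟨pA, pH⟩ := h1 hB Y S D.Sx (fun _ => D.m) D.m D.V (D.F0 q) (D.μ0 q) (D.μ0_hom q) h₀ h₁
    (fun _ => le_rfl) (span_wt S m₀) (span_wt S m₁) hp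
  replace pH := pH fun y hy => hs y fun y' hy' => not_orb (span_wt S m₀) (hne y' hy') hy
  have kos : ∀ (M : GMod Y) (m : ℤ), Pair M m h₀ h₁ → ∀ j, m ≤ j →
      KosEx (S.xp 1) (1 : ℕ) M j := fun M m h j hj => by
    rw [xp_one, Nat.cast_one]
    exact kosp Y S M m h₀ m₀ h₁ m₁ h j hj
  have kF := kos _ _ hp
  have kH : ∀ k, 0 ≤ k → KosEx (S.xp 1) (1 : ℕ) ((D.K0' q).hom (D.F0 q)) k := kos _ _ pH
  have lowΦ : Low D.Φ0 D.m := B.low_fr D.Sx (fun _ => D.m) D.m fun _ => le_rfl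
  obtain ⟨r, hr⟩ := S.syz ⟨D.Φ0, _, bΦ⟩ ⟨D.V, _, bV⟩ (D.μ0 q) (D.μ0_hom q)
  refine ⟨kF, kos _ _ pA, kH, fun k => B.ext_fr D.Sx (fun _ => dg Y D.m) _ k, fun k hk => ?_, ?_⟩
  · exact exk hB Y S 1 one_pos (D.K0' q) (D.F0 q) D.m k (fun y => ⟨r, hr y⟩) (low_sub lowΦ _ _)
      (fun j hj => (kF j (by omega)).toDep) fun n => kH _ (by positivity)
  · haveI := B.fin (D.F0 q) D.m
    have e := finrank_hom_fr (fun _ : D.Sx => dg Y D.m) (D.F0 q)
    rw [Finset.sum_const, Finset.card_univ, smul_eq_mul] at e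
    have e' : Module.finrank ℂ ((D.Φ0.hom (D.F0 q)).wt (dg Y 0)) = _ := e
    rw [e', Nat.cast_mul, ← (P.reg q hq).hq D.m le_rfl,
      B.hq_quo D.V (D.gen q) (D.μ0_hom q).stab_range]
    rfl

end Vale.Agent.P297Z.Qt
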