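import Vale.Agent.P297Z.Quot.Fam
import Vale.Agent.P297Z.K.Cat

/-!
# P297: the universal families and base change
-/

set_option linter.all false

open scoped TensorProduct

noncomputable section

namespace Vale.Agent.P297Z.Qt

open GMod

variable {W W' Y : Spc} {g : Mor W' W}

theorem map_ρ (g : Mor W' W) (γ : W.J → ℤ) (δ : Y.J → ℤ) :
    (g.map (Mor.id Y)).ρ (Sum.elim γ δ) = Sum.elim (g.ρ γ) δ := funext fun j => by
  cases j with
  | inl j => exact add_zero _
  | inr j => exact zero_add _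

theorem prod_ind {P : (W.prod Y).R → Prop} (h0 : P 0)
    (h1 : ∀ a b, P ((Mor.fst W Y).φ a * (Mor.snd W Y).φ b)) (ha : ∀ u v, P u → P v → P (u + v))
    (u : (W.prod Y).R) : P u := by
  induction u using TensorProduct.induction_on with
  | zero => exact h0
  | add a b h h' => exact ha a b h h'
  | tmul a b =>
    have e : (Mor.fst W Y).φ a * (Mor.snd W Y).φ b = (a ⊗ₜ[ℂ] b : W.R ⊗[ℂ] Y.R) :=
      (Algebra.TensorProduct.tmul_mul_tmul a 1 1 b).trans (by rw [mul_one, one_mul])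
    exact e ▸ h1 a b

theorem evR_map (g : Mor W' W) (z : W'.Pt) (a : (W.prod Y).R) :
    evR Y z ((g.map (Mor.id Y)).φ a) = evR Y (g.onPt z) a := by
  induction a using prod_ind with
  | h0 => rw [map_zero, map_zero, map_zero]
  | ha a b ha hb => rw [map_add, map_add, map_add, ha, hb]
  | h1 a b =>
    rw [map_mul, map_mul, map_mul, map_fst, map_snd, evR_fst, evR_snd, evR_fst, evR_snd]
    rfl

namespace Over

variable {M N : GMod (W.prod Y)} {M' N' : GMod (W'.prod Y)} {u : M.M →+ M'.M}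

theorem cmul' (h : ∀ a m, u (a • m) = (g.map (Mor.id Y)).φ a • u m) (t : ℂ) (m : M.M) :
    u (t • m) = t • u m := by
  rw [← algebraMap_smul (W.prod Y).R t m, h, AlgHom.commutes, algebraMap_smul]

theorem of_act (h : ∀ a m, u (a • m) = (g.map (Mor.id Y)).φ a • u m)
    (h' : ∀ t m, u (M.act (tor (g.map (Mor.id Y)).ρ t) m) = M'.act t (u m)) : Over g M M' u :=
  ⟨h, fun γ m hm t => by rw [← h', hm, cmul' h, chr_tor]⟩

theorem act (h : Over g M M' u) (t : (W'.prod Y).J → ℂˣ) (m : M.M) :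
    u (M.act (tor (g.map (Mor.id Y)).ρ t) m) = M'.act t (u m) := by
  induction m using M.induction with
  | h0 => rw [map_zero, map_zero, map_zero]
  | ha x y hx hy => rw [map_add, map_add, map_add, map_add, hx, hy]
  | hw γ m hm => rw [hm, cmul' h.smul, h.wt γ m hm, chr_tor]

/-- the linear map on the pull-back -/
theorem exists_lift (h : Over g M M' u) :
    ∃ L : ((g.map (Mor.id Y)).pull M).M →ₗ[(W'.prod Y).R] M'.M,
      ((g.map (Mor.id Y)).pull M).IsHom M' L ∧ ∀ m, L (pl _ M m) = u m := by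
  obtain ⟨L, hL⟩ := AK.exists_plift (g.map (Mor.id Y)) M u h.smul
  exact ⟨L, AK.isHom_pu fun t x => by rw [hL, hL, h.act], hL⟩

theorem kc_eq (h : Over g M M' u) {r : ℕ} (hM : M.IsBun r) (hM' : M'.IsBun r)
    (hs : ∀ L : ((g.map (Mor.id Y)).pull M).M →ₗ[(W'.prod Y).R] M'.M, (∀ m, L (pl _ M m) = u m) →
      ∀ w : (W'.prod Y).Pt, SurjAt w.1 L) : pullK (g.map (Mor.id Y)) (kc M r) = kc M' r := by
  obtain ⟨L, h1, h2⟩ := h.exists_lift
  rw [pullK_kc _ hM]
  exact kc_qis ⟨h1, fun w => isoAt_of_surjAt (hM.pull _ w) (hM' w) (hs L h2 w)⟩ r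

theorem pi {ι : Type} [Fintype ι] {M : ι → GMod (W.prod Y)} {M' : ι → GMod (W'.prod Y)}
    {u : ∀ i, (M i).M →+ (M' i).M} (h : ∀ i, Over g (M i) (M' i) (u i)) :
    Over g (GMod.pi M) (GMod.pi M') (piMap u) :=
  of_act (fun a m => piMap_smul _ _ _ (fun i => (h i).smul a) m)
    fun t m => funext fun i => (h i).act t (m i)

theorem sub (h : Over g M M' u) {P : Submodule _ M.M} (hP : M.Stab P) {P' : Submodule _ M'.M}
    (hP' : M'.Stab P') (e : ∀ m ∈ P, u m ∈ P') :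
    Over g (M.sub P hP) (M'.sub P' hP') (subE u hP hP' e) :=
  of_act (fun a m => Subtype.ext (h.smul a m.1)) fun t m => Subtype.ext (h.act t m.1)

theorem quo (h : Over g M M' u) {P : Submodule _ M.M} (hP : M.Stab P) {P' : Submodule _ M'.M}
    (hP' : M'.Stab P') (e : ∀ m ∈ P, u m ∈ P') :
    Over g (M.quo P hP) (M'.quo P' hP') (quoE u hP hP' e) :=
  of_act (fun a m => by
      obtain ⟨m, rfl⟩ := P.mkQ_surjective m
      exact congrArg P'.mkQ (h.smul a m))
    fun t m => by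
      obtain ⟨m, rfl⟩ := P.mkQ_surjective m
      exact congrArg P'.mkQ (h.act t m)

theorem shift (h : Over g M M' u) {γ : (W.prod Y).J → ℤ} {γ' : (W'.prod Y).J → ℤ}
    (e : (g.map (Mor.id Y)).ρ γ = γ') : Over g (M.shift γ) (M'.shift γ') u :=
  ⟨h.smul, fun δ m hm => mem_shift_wt.2 (by
    rw [← e, ← map_add]
    exact h.wt _ _ (mem_shift_wt.1 hm))⟩

theorem one (g : Mor W' W) : Over g (GMod.one (W.prod Y)) (GMod.one (W'.prod Y))
    ((g.map (Mor.id Y)).φ : (W.prod Y).R →+* (W'.prod Y).R).toAddMonoidHom :=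
  ⟨map_mul (g.map (Mor.id Y)).φ, (g.map (Mor.id Y)).wt_map⟩

theorem pull (g : Mor W' W) (L : GMod Y) :
    Over g ((Mor.snd W Y).pull L) ((Mor.snd W' Y).pull L) (plM g L) :=
  of_act (plM_smul g L) fun t m => by
    induction m using pull_ind with
    | h0 => rw [map_zero, map_zero, map_zero]
    | ha x y hx hy => rw [map_add, map_add, map_add, map_add, hx, hy]
    | h1 a l =>
      have e : ∀ (X : Spc) (s : (X.prod Y).J → ℂˣ), ((Mor.snd X Y).pull L).act s (pl _ L l) =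
          pl _ L (L.act (tor (Mor.snd X Y).ρ s) l) := fun X s => AK.pu_act _ s l
      have e' : (g.map (Mor.id Y)).ρ.comp (Mor.snd W Y).ρ = (Mor.snd W' Y).ρ :=
        congrArg Mor.ρ (Mor.snd_map g (Mor.id Y))
      rw [act_smul, e, plM_pl, plM_pl, act_smul, e, Mor.act_map, ← tor_comp, e']

end Over

theorem evL_plM (g : Mor W' W) (z : W'.Pt) (L : GMod Y) (v : ((Mor.snd W Y).pull L).M) :
    evL z L (plM g L v) = evL (g.onPt z) L v := by
  induction v using pull_ind with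
  | h0 => rw [map_zero, map_zero, map_zero]
  | ha x y hx hy => rw [map_add, map_add, map_add, hx, hy]
  | h1 a l => rw [plM_pl, evL_pl, evL_pl, evR_map]

namespace Dat.Crd

variable {D : Dat Y} (c : D.Crd W) (g : Mor W' W)

theorem ρ_ds (s : D.Sx) : (g.map (Mor.id Y)).ρ (c.ds s) = (c.pull g).ds s :=
  (map_ρ g _ _).trans (by
    rw [map_add, map_sum]
    rfl)

theorem ρ_tw (a : D.ι) : (g.map (Mor.id Y)).ρ (c.tw a) = (c.pull g).tw a := map_ρ g _ _

theorem oΦ : Over g c.Φ (c.pull g).Φ (c.uΦ g) :=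
  Over.pi fun s => (Over.one g).shift ((map_neg _ _).trans (congrArg Neg.neg (c.ρ_ds g s)))

theorem oV : Over g c.VV (c.pull g).VV (c.uV g) :=
  Over.pi fun a => (Over.pull g _).shift (c.ρ_tw g a)

theorem oK : Over g c.K1 (c.pull g).K1 (c.uK g) := (c.oΦ g).sub _ _ _

theorem oE : Over g c.E (c.pull g).E (c.uE g) := (c.oV g).sub _ _ _

theorem oF : Over g c.F (c.pull g).F (c.uF g) := (c.oV g).quo _ _ _

theorem εΦ_u (z : W'.Pt) (a : c.Φ.M) : (c.pull g).εΦ z (c.uΦ g a) = c.εΦ (g.onPt z) a :=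
  funext fun s => evR_map g z (a s)

theorem εV_u (z : W'.Pt) (a : c.VV.M) : (c.pull g).εV z (c.uV g a) = c.εV (g.onPt z) a :=
  funext fun b => evL_plM g z _ (a b)

theorem εK_u (z : W'.Pt) (a : c.K1.M) : (c.pull g).εK z (c.uK g a) = c.εK (g.onPt z) a :=
  Subtype.ext (c.εΦ_u g z a.1)

theorem εE_u (z : W'.Pt) (a : c.E.M) : (c.pull g).εE z (c.uE g a) = c.εE (g.onPt z) a :=
  Subtype.ext (c.εV_u g z a.1)

theorem εF_u (z : W'.Pt) (a : c.F.M) : (c.pull g).εF z (c.uF g a) = c.εF (g.onPt z) a := by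
  obtain ⟨a, rfl⟩ := (LinearMap.range c.μ).mkQ_surjective a
  exact congrArg (D.gen (c.cz (g.onPt z))).mkQ (c.εV_u g z a)

theorem pull_vK : pullK (g.map (Mor.id Y)) c.vK = (c.pull g).vK := by
  rw [kV, kV, map_sum]
  refine Finset.sum_congr rfl fun a _ => ?_
  rw [map_mul, ← pullK_comp, ← pullK_comp, Mor.fst_map, Mor.snd_map, pullK_comp, pullK_line]
  rfl

theorem pull_kΦ : pullK (g.map (Mor.id Y)) (kc c.Φ (Fintype.card D.Sx)) =
    kc (c.pull g).Φ (Fintype.card D.Sx) := by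
  rw [kΦ, kΦ, map_sum]
  refine Finset.sum_congr rfl fun s _ => ?_
  rw [pullK_line, map_neg, ρ_ds]

end Dat.Crd

theorem nat : NAT := by
  intro hF hL hA hB W W' Y D c g
  have hK : ∀ S : Sur Y, (∀ z, D.Reg (c.cz z)) →
      pullK (g.map (Mor.id Y)) (kc c.K1 D.rK) = kc (c.pull g).K1 D.rK := fun S hr => by
    have h := hA hF hL hB W Y S D c hr
    have h' := hA hF hL hB W' Y S D (c.pull g) fun z => hr (g.onPt z)
    refine (c.oK g).kc_eq h.bK h'.bK fun L h1 w => (hL hF hB W' Y S w _ _ _ (h'.fK _)).2 _ L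
      fun v => ?_
    obtain ⟨a, ha⟩ := (h.fK (g.onPt ((Mor.fst W' Y).onPt w))).surj v
    exact ⟨_, (congrArg _ (h1 a)).trans ((c.εK_u g _ a).trans ha)⟩
  refine ⟨c.oΦ g, c.oV g, c.oK g, c.oE g, c.oF g, c.εΦ_u g, c.εV_u g, c.εK_u g, c.εE_u g,
    c.εF_u g, c.pull_vK g, c.pull_kΦ g, hK, fun S hr => ?_⟩
  rw [Dat.Crd.eK, map_sub, hK S hr, c.pull_kΦ g]
  rfl

end Vale.Agent.P297Z.Qt
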