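import Vale.Agent.P297Z.Quot.Pts1

/-!
# P297: the points of the Quot space
-/

set_option linter.all false

open Filter Module

noncomputable section

namespace Vale.Agent.P297Z.Qt

namespace PtA

open Bg

theorem chr_aux (g : Option Unit → ℂˣ) {r : ℕ} (w : Fin r → ℤ) :
    chr (fun o : Option Unit => o.elim 1 fun _ => ∑ b, w b) g =
      (g none : ℂ) * ∏ b, (g (some ()) : ℂ) ^ w b := by
  have h : ∀ s : Finset (Fin r), (g (some ()) : ℂ) ^ (∑ b ∈ s, w b) =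
      ∏ b ∈ s, (g (some ()) : ℂ) ^ w b := fun s => by
    induction s using Finset.induction_on with
    | empty => simp
    | insert a s ha ih =>
      rw [Finset.sum_insert ha, Finset.prod_insert ha, zpow_add₀ (Units.ne_zero _), ih]
  rw [chr_option, chr_eq_prod, Fintype.prod_unique, ← h]
  exact congrArg (· * _) (zpow_one _)

variable {Y : Spc} (D : Dat Y)

theorem act_X (g : D.Pol.J → ℂˣ) (J : D.Ix) : D.Pol.act g (D.X J) =
    ((g none : ℂ) * ∏ b, (g (some ()) : ℂ) ^ D.w (D.a (J b))) • D.X J := by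
  have h : D.Pol.act g (D.X J) = chr (fun o : Option Unit => o.elim 1 fun _ => D.d J) g • D.X J :=
    Spc.X_mem ptT D.Ix (fun a _ => D.d a) J g
  rw [h]
  congr 1
  exact chr_aux g _

theorem stabP' (g : D.Pol.J → ℂˣ) (f : D.Pol.R) (hf : f ∈ D.IP) : D.Pol.act g f ∈ D.IP := by
  refine Ideal.Quotient.eq_zero_iff_mem.1 ((Plk.le_ker_iff ((Ideal.Quotient.mk D.IP).comp
    (D.Pol.act g : D.Pol.R →+* D.Pol.R))).2 ?_ f hf)
  have h1 : Plk.Rel fun J => Ideal.Quotient.mk D.IP (D.X J) := Plk.rel_quot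
  have h2 := (rel_tw h1 fun i => algebraMap ℂ _ ((g (some ()) : ℂ) ^ D.w (D.a i))).smul
    (algebraMap ℂ _ (g none : ℂ))
  refine (congrArg Plk.Rel (funext fun J => ?_)).mp h2
  change _ = Ideal.Quotient.mkₐ ℂ D.IP (D.Pol.act g (D.X J))
  rw [act_X, map_smul, Algebra.smul_def, map_mul, map_prod, mul_assoc]
  rfl

theorem stabP : (GMod.one D.Pol).Stab D.IP := stabP' D

theorem act_minor (g : D.Pol.J → ℂˣ) {f : D.Pol.R} (hf : f ∈ D.minors) :
    D.Pol.act g f ∈ Ideal.span D.minors := by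
  obtain ⟨k, n, s, ρ, φ, h1, h2, h3, rfl⟩ := hf
  let κ : D.ι → ℂ := fun a => (g (some ()) : ℂ) ^ D.w a
  let c : Fin n → ℂ := fun u => g none * ∏ b ∈ Finset.univ.erase (s u).2, κ (D.a ((s u).1 b))
  obtain ⟨ψ, h8⟩ : ∃ ψ : Fin n → D.V.M →ₗ[ℂ] ℂ, ∀ t (ρ : Y.R) i,
      ψ t (ρ • D.eV i) = κ (D.a i) * φ t (ρ • D.eV i) :=
    ⟨fun t => φ t ∘ₗ sc (fun a => (D.L a).M) κ, fun t ρ i =>
      (congrArg (φ t) (sc_sgl _ κ _ _ _)).trans (map_smul _ _ _)⟩
  have h4 := Ideal.subset_span (s := D.minors) ⟨k, n, s, ρ, ψ, h1, h2, h3, rfl⟩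
  have h5 := Ideal.mul_mem_left _ (∏ u, algebraMap ℂ D.Pol.R (c u)) h4
  rw [← Matrix.det_diagonal, ← Matrix.det_mul] at h5
  rw [AlgHom.map_det]
  refine (congrArg (fun M : Matrix (Fin n) (Fin n) D.Pol.R => M.det ∈ Ideal.span D.minors)
    ?_).mp h5
  ext1 u t
  rw [Matrix.diagonal_mul, AlgHom.mapMatrix_apply, Matrix.map_apply, Matrix.of_apply,
    Matrix.of_apply, map_sum, Finset.mul_sum]
  refine Finset.sum_congr rfl fun i _ => ?_
  have h7 : ∏ b, (g (some ()) : ℂ) ^ D.w (D.a (Function.update (s u).1 (s u).2 i b)) =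
      (∏ b ∈ Finset.univ.erase (s u).2, κ (D.a ((s u).1 b))) * κ (D.a i) := by
    rw [← Finset.mul_prod_erase _ _ (Finset.mem_univ (s u).2), Function.update_self, mul_comm]
    congr 1
    exact Finset.prod_congr rfl fun b hb => by
      rw [Function.update_of_ne (Finset.ne_of_mem_erase hb)]
  rw [h8, map_smul (D.Pol.act g), vec, act_X, h7, ← Algebra.smul_def, smul_smul, smul_smul]
  congr 1
  simp only [c]
  ring

theorem stabI : (GMod.one D.Pol).Stab D.I :=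
  (stabP D).sup (GMod.stab_span (M := GMod.one D.Pol) fun g _ hf => act_minor D g hf)

theorem co_ne (z : D.Pol.Pt) : ∃ J, D.co z J ≠ 0 :=
  ((Spc.adj_pt ptT D.Ix (fun a _ => D.d a) z.1).1 z.2).2

theorem exists_pt (q : D.Ix → ℂ) (h : ∃ J, q J ≠ 0) : ∃ z : D.Pol.Pt, D.co z = q := by
  refine ⟨⟨MvPolynomial.aevalTower (AlgHom.id ℂ ℂ) q, (Spc.adj_pt ptT D.Ix (fun a _ => D.d a) _).2
    ⟨⟨(1 : ℂ), trivial, ?_⟩, h.imp fun J hJ => ?_⟩⟩, funext fun J => ?_⟩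
  · exact (MvPolynomial.aevalTower_C (AlgHom.id ℂ ℂ) q 1).trans_ne one_ne_zero
  · exact (MvPolynomial.aevalTower_X (AlgHom.id ℂ ℂ) q J).trans_ne hJ
  · exact MvPolynomial.aevalTower_X (AlgHom.id ℂ ℂ) q J

/-- the generators in degree `k` -/
def gs (q : D.Ix → ℂ) (k : ℤ) : Set D.V.M :=
  {v | ∃ s, ∃ ρ ∈ Y.wt (dg Y (k - D.m)), v = ρ • D.v0 q s}

theorem v0_mem (q : D.Ix → ℂ) (s : D.Sx) : D.v0 q s ∈ D.gen q := by
  classical
  exact ⟨Pi.single s (1 : Y.R), (Fintype.linearCombination_apply_single Y.R (D.v0 q) s 1).trans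
    (one_smul _ _)⟩

theorem gen_le {q : D.Ix → ℂ} {E : Submodule Y.R D.V.M} (h : ∀ s, D.v0 q s ∈ E) : D.gen q ≤ E := by
  rintro _ ⟨a, rfl⟩
  change ∑ s, (show Y.R from a s) • D.v0 q s ∈ E
  exact E.sum_mem fun s _ => E.smul_mem _ (h s)

theorem span_gs (q : D.Ix → ℂ) (k : ℤ) : Submodule.span ℂ (gs D q k) =
    D.V.wt (dg Y k) ⊓ (D.gen q).restrictScalars ℂ := by
  refine le_antisymm (Submodule.span_le.2 ?_) ?_
  · rintro _ ⟨s, ρ, hρ, rfl⟩
    exact ⟨mwt_eq (GMod.smul_mem_wt hρ (D.v0_wt q s)) (funext fun _ => sub_add_cancel k D.m),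
      (D.gen q).smul_mem _ (v0_mem D q s)⟩
  · rintro _ ⟨hv, a, rfl⟩
    obtain ⟨a', ha, e⟩ := (D.μ0_hom q).exists_preimage hv
    rw [← e]
    change ∑ s, (show Y.R from a' s) • D.v0 q s ∈ _
    exact Submodule.sum_mem _ fun s _ => Submodule.subset_span ⟨s, _, fr_wt ha s, rfl⟩

theorem ev_minor (z : D.Pol.Pt) {n : ℕ} (s : Fin n → D.Sx) (ρ : Fin n → Y.R)
    (φ : Fin n → D.V.M →ₗ[ℂ] ℂ) :
    z.1 (Matrix.of fun u t => ∑ i, φ t (ρ u • D.eV i) • vec D.X (s u) i).det =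
      (Matrix.of fun u t => φ t (ρ u • D.v0 (D.co z) (s u))).det := by
  rw [AlgHom.map_det]
  congr 1
  ext1 u t
  rw [AlgHom.mapMatrix_apply, Matrix.map_apply, Matrix.of_apply, Matrix.of_apply, map_sum,
    Dat.v0, Finset.smul_sum, map_sum]
  refine Finset.sum_congr rfl fun i _ => ?_
  rw [map_smul, smul_comm (ρ u), (φ t).map_smul, smul_eq_mul, smul_eq_mul, mul_comm]
  rfl

variable {S : Sur Y}

theorem mem_VI (B : Bas S) (z : D.Pol.Pt) : z ∈ D.VI ↔ D.Pt (D.co z) := by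
  have hP : (∀ f ∈ D.IP, z.1 f = 0) ↔ Plk.Rel (D.co z) :=
    Plk.le_ker_iff (z.1 : D.Pol.R →+* ℂ)
  have hd : ∀ k n, (∀ v : Fin n → D.V.M, (∀ u, v u ∈ gs D (D.co z) k) →
      ∀ φ : Fin n → D.V.M →ₗ[ℂ] ℂ, (Matrix.of fun u t => φ t (v u)).det = 0) ↔
      finrank ℂ ↥(D.V.wt (dg Y k) ⊓ (D.gen (D.co z)).restrictScalars ℂ) < n := fun k n => by
    haveI := B.fin D.V k
    haveI : FiniteDimensional ℂ (Submodule.span ℂ (gs D (D.co z) k)) := by
      rw [span_gs]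
      exact Submodule.finiteDimensional_inf_left _ _
    rw [← span_gs]
    exact det_iff _ n
  constructor
  · intro h
    refine ⟨hP.1 fun f hf => h f (Ideal.mem_sup_left hf), co_ne D z, fun k hk => ?_⟩
    by_contra hn
    refine lt_irrefl _ ((hd k _).1 fun v hv φ => ?_)
    choose s ρ hρ e using hv
    rw [funext e, ← ev_minor]
    refine h _ (Ideal.mem_sup_right (Ideal.subset_span ⟨k, _, s, ρ, φ, hk, ?_, hρ, rfl⟩))
    rw [hq] at hn
    omega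
  · intro h
    refine (sup_le (fun f hf => hP.2 h.rel f hf) (Ideal.span_le.2 ?_) :
      D.I ≤ RingHom.ker z.1)
    rintro _ ⟨k, n, s, ρ, φ, h1, h2, h3, rfl⟩
    have h4 := h.hq k h1
    rw [hq] at h4
    exact (ev_minor D z s ρ φ).trans ((hd k n).2 (by omega) _ (fun u => ⟨_, _, h3 u, rfl⟩) φ)

theorem deg_eq (S : Sur Y) (q : D.Ix → ℂ) : D.V.wt (dg Y D.m) ⊓ (D.gen q).restrictScalars ℂ =
    (Plk.sub q).map (Fintype.linearCombination ℂ D.eV) := by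
  rw [← span_gs, Plk.sub, Submodule.map_span]
  refine le_antisymm (Submodule.span_le.2 ?_) (Submodule.span_mono ?_)
  · rintro _ ⟨s, ρ, hρ, rfl⟩
    rw [sub_self] at hρ
    obtain ⟨c, rfl⟩ := S.cst ρ hρ
    rw [algebraMap_smul]
    exact Submodule.smul_mem _ _ (Submodule.subset_span ⟨_, ⟨s.1, s.2, rfl⟩, rfl⟩)
  · rintro _ ⟨_, ⟨J, c, rfl⟩, rfl⟩
    exact ⟨(J, c), 1, by rw [sub_self]; exact Y.one_mem, (one_smul _ _).symm⟩

theorem dimV (h : D.Ok S) : (finrank ℂ (D.V.wt (dg Y D.m)) : ℤ) = D.r + D.p D.m := by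
  rw [← h.span, finrank_span_eq_card h.ind, h.card]

theorem rank_map (h : D.Ok S) (U : Submodule ℂ (D.β → ℂ)) :
    finrank ℂ (U.map (Fintype.linearCombination ℂ D.eV)) = finrank ℂ U :=
  (Submodule.equivMapOfInjective _ h.ind.fintypeLinearCombination_injective U).finrank_eq.symm

theorem hq_m (h : D.Ok S) {q : D.Ix → ℂ} (h1 : Plk.Rel q) (h2 : ∃ J, q J ≠ 0) :
    hq D.V (D.gen q) D.m = D.p D.m := by
  obtain ⟨J, hJ⟩ := h2
  rw [hq, deg_eq D S, rank_map D h, h1.finrank_sub hJ, dimV D h]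
  ring

theorem main (B : Bas S) (h : D.Ok S) {q : D.Ix → ℂ} (hq' : D.Pt q) :
    (∀ k, D.m ≤ k → hq D.V (S.sat D.V (D.gen q)) k = D.p k) ∧
    (∀ k, D.m ≤ k → ∀ v ∈ D.V.wt (dg Y k), v ∈ S.sat D.V (D.gen q) → v ∈ D.gen q) ∧
    ∀ s : Finset Y.Pt, ∃ h₀ ∈ S.lin, ∃ h₁ ∈ S.lin, (∀ y ∈ s, y.1 h₀ ≠ 0) ∧
      Pair (D.F0 q) D.m h₀ h₁ := by
  have hN : D.V.Stab (D.gen q) := (D.μ0_hom q).stab_range
  have hle := B.le_sat D.V (D.gen q)
  have hm := hq_m D h hq'.rel hq'.ne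
  haveI := B.fin D.V D.m
  obtain ⟨h1, h2, h3⟩ := h.big _ (B.sat_sat D.V _ hN) (Or.inl ((hq_mono hle).trans hm.le)) (by
    filter_upwards [B.sat_ev D.V _ hN, eventually_ge_atTop D.m] with k h1 h2
    exact (hq'.hq k h2).trans (hq_congr hle h1).le)
  have h4 := gen_ind (mem_of_hq hle (hm.trans (h1 _ le_rfl).symm)) h2
  refine ⟨h1, h4, fun s => ?_⟩
  obtain ⟨h₀, w₀, h₁, w₁, h5, h6⟩ := h3 s
  exact ⟨h₀, w₀, h₁, w₁, h5, pair_tr hN _ hle h4 (S.lin_wt w₀) (S.lin_wt w₁) h6⟩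

theorem surj (B : Bas S) (h : D.Ok S) (E : Submodule Y.R D.V.M) (hE : S.Good D.V D.l D.c E) :
    ∃ q, D.Pt q ∧ S.sat D.V (D.gen q) = E := by
  obtain ⟨h1, h2, -⟩ := h.big E hE.1 (Or.inr (hE.2.mono fun k hk => hk.le))
    (hE.2.mono fun k hk => hk.ge)
  have h3 : ((E.restrictScalars ℂ).comap (Fintype.linearCombination ℂ D.eV)).map
      (Fintype.linearCombination ℂ D.eV) = D.V.wt (dg Y D.m) ⊓ E.restrictScalars ℂ := by
    rw [Submodule.map_comap_eq, Fintype.range_linearCombination, h.span]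
  obtain ⟨q, k1, k2, k3⟩ := Plk.exists_rel (r := D.r)
    ((E.restrictScalars ℂ).comap (Fintype.linearCombination ℂ D.eV)) (by
      have h4 := h1 _ le_rfl
      rw [hq, dimV D h, ← h3, rank_map D h, Dat.p] at h4
      omega)
  have h5 := deg_eq D S q
  rw [k3, h3] at h5
  have h6 : D.gen q ≤ E := gen_le D fun s =>
    (h5.le (show D.v0 q s ∈ _ from ⟨D.v0_wt q s, v0_mem D q s⟩)).2
  have h7 := gen_ind (N := D.gen q) (fun v hv hv' => (h5.ge (show v ∈ _ from ⟨hv, hv'⟩)).2) h2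
  have hN : D.V.Stab (D.gen q) := (D.μ0_hom q).stab_range
  refine ⟨q, ⟨k1, k2, fun k hk => ((hq_congr h6 (h7 k hk)).trans (h1 k hk)).ge⟩, ?_⟩
  conv_rhs => rw [← B.sat_eq D.V E hE.1]
  exact le_antisymm (B.sat_congr D.V _ _ hN hE.1.1 (Eventually.of_forall fun k v _ hv => h6 hv))
    (B.sat_congr D.V _ _ hE.1.1 hN ((eventually_ge_atTop D.m).mono h7))

theorem inj (B : Bas S) (h : D.Ok S) {q q' : D.Ix → ℂ} (h1 : D.Pt q) (h2 : D.Pt q')
    (e : S.sat D.V (D.gen q) = S.sat D.V (D.gen q')) : ∃ t : ℂ, t ≠ 0 ∧ ∀ J, q' J = t * q J := by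
  obtain ⟨J, hJ⟩ := h1.ne
  obtain ⟨J', hJ'⟩ := h2.ne
  refine h1.rel.eq_of_sub h2.rel hJ hJ' ?_
  rw [← Submodule.map_le_map_iff_of_injective h.ind.fintypeLinearCombination_injective,
    ← deg_eq D S, ← deg_eq D S]
  exact fun v hv => ⟨hv.1, (main D B h h1).2.1 _ le_rfl v hv.1 (e ▸ B.le_sat D.V _ hv.2)⟩

end PtA

open PtA

theorem pts : PTS := fun hB Y S D h =>
  have B := hB Y S
  { stabP := stabP D
    stabI := stabI D
    stab := fun z hz z' ⟨g, e⟩ f hf => by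
      rw [e]
      exact hz _ (stabI D g f hf)
    clo := fun z hz f hf => hz f fun z' hz' => hz' f hf
    co_ne := co_ne D
    exists_pt := exists_pt D
    mem := mem_VI D B
    deg_m := fun q _ v hv => by
      rw [← deg_eq D S]
      exact ⟨fun h1 => ⟨hv, h1⟩, fun h1 => h1.2⟩
    reg := fun q hq' => by
      obtain ⟨h1, h2, h3⟩ := main D B h hq'
      obtain ⟨h₀, w₀, h₁, w₁, -, P⟩ := h3 ∅
      exact ⟨fun k hk => (hq_congr (B.le_sat D.V _) (h2 k hk)).trans (h1 k hk),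
        tor_of_pair S w₀ w₁ P⟩
    good := fun q hq' => ⟨B.sat_sat D.V _ (D.μ0_hom q).stab_range,
      (eventually_ge_atTop D.m).mono (main D B h hq').1⟩
    sat_eq := fun q hq' => (main D B h hq').2.1
    surj := surj D B h
    inj := fun q q' => inj D B h
    pair := fun q hq' => (main D B h hq').2.2 }

end Vale.Agent.P297Z.Qt
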