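import Vale.Agent.P297Z.Quot.Sk
import Vale.Agent.P297Z.Quot.Big

/-!
# P297: the block REGB
-/

namespace Vale.Agent.P297Z.Qt

theorem regb : REGB := fun _ _ _ S V l c => S.exists_big V l c

end Vale.Agent.P297Z.Qt
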