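import Mathlib

/-!
# P297: the Pluecker relations over a commutative ring
-/

set_option linter.all false

open Matrix

noncomputable section

namespace Vale.Agent.P297Z.Plk

variable {A A' : Type} [CommRing A] [CommRing A'] {r : ℕ} {B : Type}

/-- the square matrix of the columns `J` -/
def cols (u : Fin r → B → A) (J : Fin r → B) : Matrix (Fin r) (Fin r) A :=
  Matrix.of fun a b => u a (J b)

/-- the maximal minors -/
def plk (u : Fin r → B → A) (J : Fin r → B) : A := (cols u J).det

/-- the vectors attached to a family of coordinates -/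
def vc (z : (Fin r → B) → A) (J : Fin r → B) (c : Fin r) (i : B) : A := z (Function.update J c i)

/-- the relations -/
def Rel (z : (Fin r → B) → A) : Prop := ∀ J J₁, z J ^ r * z J₁ = z J * plk (vc z J) J₁

theorem plk_map (φ : A →+* A') (u : Fin r → B → A) (J : Fin r → B) :
    φ (plk u J) = plk (fun a i => φ (u a i)) J := φ.map_det _

theorem plk_mul (N : Matrix (Fin r) (Fin r) A) (u : Fin r → B → A) (J : Fin r → B) :
    plk (fun c i => ∑ a, N c a * u a i) J = N.det * plk u J := by
  rw [plk, plk, ← det_mul]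
  rfl

theorem plk_smul (t : A) (u : Fin r → B → A) (J : Fin r → B) :
    plk (fun c i => t * u c i) J = t ^ r * plk u J := by
  have : cols (fun c i => t * u c i) J = t • cols u J := rfl
  rw [plk, this, det_smul, Fintype.card_fin, plk]

/-- Cramer's rule -/
theorem plk_update (u : Fin r → B → A) (J : Fin r → B) (c : Fin r) (i : B) :
    plk u (Function.update J c i) = ∑ a, (cols u J).adjugate c a * u a i := by
  have h : cols u (Function.update J c i) = (cols u J).updateCol c fun a => u a i := by
    ext a b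
    by_cases hb : b = c
    · subst hb
      simp [cols]
    · simp [cols, hb]
  rw [plk, h, ← cramer_apply, cramer_eq_adjugate_mulVec]
  rfl

theorem plk_eq_zero (u : Fin r → B → A) {J : Fin r → B} (h : ¬ Function.Injective J) :
    plk u J = 0 := by
  obtain ⟨b, b', h1, h2⟩ := Function.not_injective_iff.1 h
  exact det_zero_of_column_eq h2 fun a => by simp [cols, h1]

theorem vc_self (z : (Fin r → B) → A) (J : Fin r → B) (c : Fin r) : vc z J c (J c) = z J := by
  rw [vc, Function.update_eq_self]

theorem vc_plk (t : A) (u : Fin r → B → A) (J : Fin r → B) (c : Fin r) (i : B) :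
    vc (fun J => t * plk u J) J c i = ∑ a, (t • (cols u J).adjugate) c a * u a i := by
  simp only [vc, plk_update, Finset.mul_sum, Matrix.smul_apply, smul_eq_mul, mul_assoc]

theorem rel_plk (t : A) (u : Fin r → B → A) : Rel fun J => t * plk u J := by
  intro J J₁
  have h1 : vc (fun J => t * plk u J) J = fun c i => ∑ a, (t • (cols u J).adjugate) c a * u a i :=
    funext fun c => funext fun i => vc_plk t u J c i
  have h2 : plk u J * (cols u J).adjugate.det = plk u J ^ r := by
    rw [plk, ← det_mul, mul_adjugate, det_smul, det_one, mul_one, Fintype.card_fin]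
  simp only [h1, plk_mul, det_smul, Fintype.card_fin, mul_pow]
  rw [← h2]
  ring

theorem Rel.map {z : (Fin r → B) → A} (h : Rel z) (φ : A →+* A') : Rel fun J => φ (z J) := by
  intro J J₁
  have := congrArg φ (h J J₁)
  rwa [map_mul, map_mul, map_pow, plk_map] at this

theorem Rel.smul {z : (Fin r → B) → A} (h : Rel z) (t : A) : Rel fun J => t * z J := by
  intro J J₁
  have h1 : vc (fun J => t * z J) J = fun c i => t * vc z J c i := rfl
  rw [h1, plk_smul]
  linear_combination t ^ r * t * h J J₁

theorem Rel.eq_zero {z : (Fin r → B) → A} (h : Rel z) {J J₁ : Fin r → B} (hJ : IsUnit (z J))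
    (h1 : ¬ Function.Injective J₁) : z J₁ = 0 := by
  have := h J J₁
  rw [plk_eq_zero _ h1, mul_zero] at this
  exact (hJ.pow r).mul_right_eq_zero.1 this

theorem Rel.inj [Nontrivial A] {z : (Fin r → B) → A} (h : Rel z) {J : Fin r → B}
    (hJ : IsUnit (z J)) : Function.Injective J := by
  by_contra h1
  exact hJ.ne_zero (h.eq_zero hJ h1)

theorem Rel.vc_ne {z : (Fin r → B) → A} (h : Rel z) {J : Fin r → B} (hJ : IsUnit (z J))
    {c b : Fin r} (hb : c ≠ b) : vc z J c (J b) = 0 :=
  h.eq_zero hJ fun h1 => hb (h1 (by rw [Function.update_self, Function.update_of_ne hb.symm]))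

/-- on the chart, the normalised vectors restrict to the unit matrix -/
theorem Rel.cols_eq {z : (Fin r → B) → A} (h : Rel z) {J : Fin r → B} {s : A} (hs : s * z J = 1) :
    cols (fun c i => s * vc z J c i) J = 1 := by
  ext c b
  by_cases hb : c = b
  · subst hb
    simp [cols, vc_self, hs]
  · simp [cols, h.vc_ne (IsUnit.of_mul_eq_one_right s hs) hb, hb]

/-- on the chart, all coordinates are minors of the normalised vectors -/
theorem Rel.eq_plk {z : (Fin r → B) → A} (h : Rel z) {J : Fin r → B} {s : A} (hs : s * z J = 1)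
    (J₁ : Fin r → B) : z J₁ = z J * plk (fun c i => s * vc z J c i) J₁ := by
  rw [plk_smul]
  have h1 : s ^ r * z J ^ r = 1 := by rw [← mul_pow, hs, one_pow]
  linear_combination s ^ r * h J J₁ - z J₁ * h1

theorem vc_of_cols {u : Fin r → B → A} {J : Fin r → B} (h : cols u J = 1) (t : A) (c : Fin r)
    (i : B) : vc (fun J => t * plk u J) J c i = t * u c i := by
  simp [vc_plk, h, one_apply]

/-- the vectors of one chart are combinations of the vectors of another chart -/
theorem Rel.vc_vc {z : (Fin r → B) → A} (h : Rel z) {J : Fin r → B} {s : A} (hs : s * z J = 1)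
    (J₁ : Fin r → B) (c : Fin r) :
    ∃ N : Fin r → A, ∀ i, vc z J₁ c i = ∑ a, N a * vc z J a i := by
  refine ⟨fun a => (z J • (cols (fun c i => s * vc z J c i) J₁).adjugate) c a * s, fun i => ?_⟩
  have h1 : z = fun J₁ => z J * plk (fun c i => s * vc z J c i) J₁ := funext (h.eq_plk hs)
  conv_lhs => rw [h1, vc_plk]
  simp only [mul_assoc]

section field

variable {F : Type} [Field F]

theorem linInd_of_plk {u : Fin r → B → F} {J : Fin r → B} (h : plk u J ≠ 0) :
    LinearIndependent F u := by
  have h1 : LinearIndependent F (cols u J).row :=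
    linearIndependent_rows_iff_isUnit.2 ((isUnit_iff_isUnit_det _).2 h.isUnit)
  exact LinearIndependent.of_comp (LinearMap.funLeft F F J) h1

theorem exists_plk_ne {u : Fin r → B → F} (h : LinearIndependent F u) : ∃ J, plk u J ≠ 0 := by
  classical
  have h1 : Submodule.span F (Set.range fun i : B => fun a => u a i) = ⊤ := by
    by_contra hc
    obtain ⟨l, h0, hl⟩ := Submodule.exists_le_ker_of_lt_top _ (lt_top_iff_ne_top.2 hc)
    refine h0 (LinearMap.pi_ext' fun a => LinearMap.ext_ring ?_)
    refine Fintype.linearIndependent_iff.1 h (fun a => l (Pi.single a 1)) (funext fun i => ?_) a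
    have h2 : l (fun a => u a i) = 0 := hl (Submodule.subset_span ⟨i, rfl⟩)
    rw [LinearMap.pi_apply_eq_sum_univ] at h2
    rw [Finset.sum_apply, Pi.zero_apply, ← h2]
    refine Finset.sum_congr rfl fun a _ => ?_
    rw [Pi.smul_apply, smul_eq_mul, smul_eq_mul, mul_comm]
    congr 2
    funext j
    simp [Pi.single_apply, eq_comm]
  obtain ⟨s, hs, h2, h3⟩ := exists_linearIndependent F (Set.range fun i : B => fun a => u a i)
  rw [h1] at h2
  haveI : Fintype s := h3.setFinite.fintype
  let b : Module.Basis s F (Fin r → F) := Module.Basis.mk h3 (by rw [Subtype.range_coe, h2])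
  have h4 : Fintype.card s = r := by rw [← Module.finrank_eq_card_basis b]; simp
  let e := (Fintype.equivFinOfCardEq h4).symm
  choose J hJ using fun k : Fin r => hs (e k).2
  refine ⟨J, ((isUnit_iff_isUnit_det _).1 (linearIndependent_cols_iff_isUnit.1 ?_)).ne_zero⟩
  have h5 : (cols u J).col = (fun x : s => (x : Fin r → F)) ∘ e := funext fun k => hJ k
  rw [h5]
  exact h3.comp e e.injective

theorem vc_mem_span (t : F) (u : Fin r → B → F) (J : Fin r → B) (c : Fin r) :
    vc (fun J => t * plk u J) J c ∈ Submodule.span F (Set.range u) := by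
  have h : vc (fun J => t * plk u J) J c = ∑ a, (t • (cols u J).adjugate) c a • u a :=
    funext fun i => by rw [vc_plk, Finset.sum_apply]; rfl
  rw [h]
  exact Submodule.sum_mem _ fun a _ => Submodule.smul_mem _ _ (Submodule.subset_span ⟨a, rfl⟩)

theorem Rel.linInd {z : (Fin r → B) → F} (h : Rel z) {J : Fin r → B} (hJ : z J ≠ 0) :
    LinearIndependent F (vc z J) := by
  refine linInd_of_plk (J := J) fun h0 => ?_
  have := h J J
  rw [h0, mul_zero] at this
  exact mul_ne_zero (pow_ne_zero _ hJ) hJ this

theorem span_vc {t : F} {u : Fin r → B → F} {J : Fin r → B} (hJ : t * plk u J ≠ 0) :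
    Submodule.span F (Set.range (vc (fun J => t * plk u J) J)) =
      Submodule.span F (Set.range u) := by
  haveI : FiniteDimensional F (Submodule.span F (Set.range u)) :=
    FiniteDimensional.span_of_finite F (Set.finite_range u)
  refine Submodule.eq_of_le_of_finrank_eq (Submodule.span_le.2 ?_) ?_
  · rintro _ ⟨c, rfl⟩
    exact vc_mem_span t u J c
  · rw [finrank_span_eq_card ((rel_plk t u).linInd hJ),
      finrank_span_eq_card (linInd_of_plk (right_ne_zero_of_mul hJ))]

/-- the points -/
theorem Rel.exists_plk {z : (Fin r → B) → F} (h : Rel z) {J : Fin r → B} (hJ : z J ≠ 0) :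
    ∃ u : Fin r → B → F, LinearIndependent F u ∧ cols u J = 1 ∧ ∀ J₁, z J₁ = z J * plk u J₁ := by
  have hs := inv_mul_cancel₀ hJ
  refine ⟨_, linInd_of_plk (J := J) ?_, h.cols_eq hs, h.eq_plk hs⟩
  rw [plk, h.cols_eq hs, det_one]
  exact one_ne_zero

theorem plk_of_span {u u' : Fin r → B → F}
    (h : Submodule.span F (Set.range u') ≤ Submodule.span F (Set.range u)) :
    ∃ t : F, ∀ J, plk u' J = t * plk u J := by
  choose N hN using fun c => (Submodule.mem_span_range_iff_exists_fun F).1
    (h (Submodule.subset_span ⟨c, rfl⟩))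
  refine ⟨(Matrix.of N).det, fun J => ?_⟩
  rw [← plk_mul]
  congr 1
  funext c i
  rw [← hN c, Finset.sum_apply]
  rfl

/-- the subspace of a point -/
def sub (z : (Fin r → B) → F) : Submodule F (B → F) :=
  Submodule.span F {v | ∃ J c, v = vc z J c}

theorem sub_plk {t : F} (ht : t ≠ 0) {u : Fin r → B → F} (hu : LinearIndependent F u) :
    sub (fun J => t * plk u J) = Submodule.span F (Set.range u) := by
  obtain ⟨J, hJ⟩ := exists_plk_ne hu
  refine le_antisymm (Submodule.span_le.2 ?_) ?_
  · rintro _ ⟨J, c, rfl⟩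
    exact vc_mem_span t u J c
  · rw [← span_vc (mul_ne_zero ht hJ)]
    refine Submodule.span_mono ?_
    rintro _ ⟨c, rfl⟩
    exact ⟨J, c, rfl⟩

theorem Rel.sub_eq {z : (Fin r → B) → F} (h : Rel z) {J : Fin r → B} (hJ : z J ≠ 0) :
    sub z = Submodule.span F (Set.range (vc z J)) := by
  obtain ⟨u, h1, h2, h3⟩ := h.exists_plk hJ
  have e : z = fun J₁ => z J * plk u J₁ := funext h3
  have h4 : z J * plk u J ≠ 0 := h3 J ▸ hJ
  rw [e, sub_plk hJ h1, span_vc h4]

theorem Rel.finrank_sub {z : (Fin r → B) → F} (h : Rel z) {J : Fin r → B} (hJ : z J ≠ 0) :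
    Module.finrank F (sub z) = r := by
  rw [h.sub_eq hJ, finrank_span_eq_card (h.linInd hJ), Fintype.card_fin]

/-- the subspace determines the point up to a scalar -/
theorem Rel.eq_of_sub {z z' : (Fin r → B) → F} (h : Rel z) (h' : Rel z') {J J' : Fin r → B}
    (hJ : z J ≠ 0) (hJ' : z' J' ≠ 0) (e : sub z' ≤ sub z) :
    ∃ t : F, t ≠ 0 ∧ ∀ J₁, z' J₁ = t * z J₁ := by
  obtain ⟨u, h1, -, h3⟩ := h.exists_plk hJ
  obtain ⟨u', h1', -, h3'⟩ := h'.exists_plk hJ'
  rw [funext h3, funext h3', sub_plk hJ h1, sub_plk hJ' h1'] at e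
  obtain ⟨t, ht⟩ := plk_of_span e
  have key : ∀ J₁, z' J₁ = z' J' * t * (z J)⁻¹ * z J₁ := fun J₁ => by
    rw [h3' J₁, ht, h3 J₁]
    field_simp
  refine ⟨_, fun h0 => hJ' ?_, key⟩
  rw [key J', h0, zero_mul]

/-- every subspace of the right dimension comes from a point -/
theorem exists_rel (U : Submodule F (B → F)) [FiniteDimensional F U]
    (hU : Module.finrank F U = r) :
    ∃ z : (Fin r → B) → F, Rel z ∧ (∃ J, z J ≠ 0) ∧ sub z = U := by
  let b := Module.finBasisOfFinrankEq F U hU
  have h1 : LinearIndependent F fun a => (b a : B → F) :=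
    b.linearIndependent.map' U.subtype U.ker_subtype
  obtain ⟨J, hJ⟩ := exists_plk_ne h1
  refine ⟨_, rel_plk 1 _, ⟨J, by rwa [one_mul]⟩, ?_⟩
  rw [sub_plk one_ne_zero h1]
  have := congrArg (Submodule.map U.subtype) b.span_eq
  rwa [Submodule.map_span, Submodule.map_top, Submodule.range_subtype, ← Set.range_comp] at this

end field

end Vale.Agent.P297Z.Plk
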