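import Vale.Agent.P297Z.Quot.Con2

/-!
# P297: the conormal bundle of the Grassmannian
-/

set_option linter.all false

noncomputable section

namespace Vale.Agent.P297Z.Qt

open GMod AK
open Submodule.Quotient (mk)

namespace Cn

theorem ev_mv {ι : Type} (z : MvPolynomial ι ℂ →ₐ[ℂ] ℂ) (f : MvPolynomial ι ℂ) :
    z f = MvPolynomial.eval (fun J => z (MvPolynomial.X J)) f :=
  (AlgHom.congr_fun (MvPolynomial.aeval_unique z) f).trans
    (congrFun (MvPolynomial.aeval_eq_eval _) f)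

theorem ev_mk {R N : Type} [CommRing R] [Algebra ℂ R] [AddCommGroup N] [Module R N]
    {z : R →ₐ[ℂ] ℂ} (l : N →ₗ[R] R) {n n' : N} (h : (mk n : Fib z N) = mk n') :
    z (l n) = z (l n') := by
  rw [← sub_eq_zero, ← map_sub, ← map_sub]
  refine Submodule.smul_induction_on (p := fun x => z (l x) = 0)
    ((Submodule.Quotient.eq _).1 h) (fun a ha m _ => ?_) fun a b ha hb => ?_
  · rw [map_smul, smul_eq_mul, map_mul, RingHom.mem_ker.1 ha, zero_mul]
  · rw [map_add, map_add, ha, hb, add_zero]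

section np

variable {W X : Spc} (f : Mor W X) {I : Ideal X.R} (hI : (one X).Stab I) {P : Ideal X.R}

variable (P) in
/-- the image of a smaller ideal -/
def np : Submodule W.R (f.pull ((one X).sub I hI)).M :=
  Submodule.span _ {n | ∃ a : I, a.1 ∈ P ∧ n = pl f ((one X).sub I hI) a}

theorem np_stab (hP : (one X).Stab P) : (f.pull ((one X).sub I hI)).Stab (np f hI P) :=
  stab_span (by
    rintro g _ ⟨a, ha, rfl⟩
    exact Submodule.subset_span ⟨((one X).sub I hI).act (tor f.ρ g) a, hP _ _ ha,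
      pu_act (A := (one X).sub I hI) f g a⟩)

variable (h : P ≤ I)

/-- the class of an element of the smaller ideal -/
def cN : P →+ np f hI P :=
  AddMonoidHom.mk' (fun a => ⟨pu f ((one X).sub I hI) (Submodule.inclusion h a),
    Submodule.subset_span ⟨_, a.2, rfl⟩⟩) fun a b => Subtype.ext
      (map_add (pu f ((one X).sub I hI)) (Submodule.inclusion h a) (Submodule.inclusion h b))

theorem cN_smul (s : X.R) (a : P) : cN f hI h (s • a) = f.φ s • cN f hI h a :=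
  Subtype.ext (pu_smul (A := (one X).sub I hI) f s (Submodule.inclusion h a))

theorem fib_cN (z : W.R →ₐ[ℂ] ℂ) (n : np f hI P) :
    ∃ a : P, (mk n : Fib z (np f hI P)) = mk (cN f hI h a) := by
  obtain ⟨n, hn⟩ := n
  induction hn using Submodule.span_induction with
  | mem x hx =>
    obtain ⟨a, ha, rfl⟩ := hx
    exact ⟨⟨a.1, ha⟩, rfl⟩
  | zero => exact ⟨0, by rw [map_zero]; rfl⟩
  | add x y hx hy h1 h2 =>
    obtain ⟨a, ha⟩ := h1
    obtain ⟨b, hb⟩ := h2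
    exact ⟨a + b, by rw [map_add, Submodule.Quotient.mk_add, ← ha, ← hb]; rfl⟩
  | smul r x hx h1 =>
    obtain ⟨a, ha⟩ := h1
    refine ⟨algebraMap ℂ X.R (z r) • a, ?_⟩
    rw [cN_smul, Submodule.Quotient.mk_smul, ← ha, fib_smul, AlgHom.commutes, AlgHom.commutes]
    exact fib_smul r (mk ⟨x, hx⟩ : Fib z (np f hI P))

theorem cN_zero (z : W.R →ₐ[ℂ] ℂ) {m : Ideal X.R} (hm : ∀ s ∈ m, z (f.φ s) = 0) {a : P} {s : X.R}
    (hs : z (f.φ s) ≠ 0) (ha : s * a.1 ∈ m * P) :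
    (mk (cN f hI h a) : Fib z (np f hI P)) = 0 := by
  refine fib_eq_zero hs ?_
  rw [← Submodule.Quotient.mk_smul, ← cN_smul]
  refine Submodule.smul_induction_on
    (p := fun a : P => (mk (cN f hI h a) : Fib z (np f hI P)) = 0)
    ((Submodule.mem_smul_top_iff m P (s • a)).2 ha) (fun r hr b _ => ?_) fun a b ha hb => ?_
  · rw [cN_smul, Submodule.Quotient.mk_smul, fib_ker_smul (hm r hr)]
  · rw [map_add, Submodule.Quotient.mk_add, ha, hb, add_zero]

end np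

theorem exists_L {ι : Type} [Fintype ι] [Nonempty ι] {d : ι → ℤ} {W : Spc} (j : Mor W (Amb ι d))
    {I : Ideal (Amb ι d).R} (hI : (one _).Stab I) (h0 : ∀ a ∈ I, j.φ a = 0) (a : ι) :
    ∃ ψ : (j.pull ((one _).sub I hI)).M →ₗ[W.R] W.R,
      (∀ f : I, ψ (pu j ((one _).sub I hI) f) = j.φ (Amb.pd d a f)) ∧
      (j.pull ((one _).sub I hI)).IsHom ((one _).shift (-j.ρ (Amb.deg d a))) ψ := by
  obtain ⟨ψ, h⟩ := exists_plift j ((one _).sub I hI) (V := W.R)
    (AddMonoidHom.mk' (fun f : I => j.φ (Amb.pd d a f)) fun (x y : I) =>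
      (congrArg j.φ (Lc.ObA.pd_add a x.1 y.1)).trans (map_add _ _ _)) fun s (x : I) => by
    show j.φ (Amb.pd d a (s * x)) = j.φ s * j.φ (Amb.pd d a x)
    rw [Lc.ObA.pd_mul, map_add, map_mul, map_mul, h0 _ x.2, zero_mul, add_zero]
  refine ⟨ψ, h, isHom_pu fun t (x : I) => (h _).trans ?_⟩
  refine Eq.trans ?_ (congrArg (((one W).shift (-j.ρ (Amb.deg d a))).act t) (h x)).symm
  refine (congrArg j.φ (Obk.pd_act a _ x.1)).trans ((map_smul _ _ _).trans ?_)
  exact congrArg₂ (· • ·) ((chr_tor _ _ _).trans (congrArg (chr · t) (neg_neg _).symm))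
    (j.act_map t _)

variable {W Y : Spc} {D : Dat Y} {S : Sur Y}

theorem dJ_crd (J : D.Ix) : dJ D.crd J = D.dX J := funext fun o => by
  rw [dJ, Pi.add_apply, Finset.sum_apply]
  cases o with
  | none => exact (congrArg _ Finset.sum_const_zero).trans (add_zero _)
  | some o => exact zero_add _

theorem dJ_pull (j : Mor W D.Pol) (J : D.Ix) : dJ (D.crd.pull j) J = j.ρ (D.dX J) := by
  rw [← dJ_crd, dJ, dJ, map_add, map_sum]
  rfl

theorem ev_pt (j : Mor W D.Pol) (z : W.Pt) (f : D.Pol.R) :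
    z.1 (j.φ f) = MvPolynomial.eval ((D.crd.pull j).cz z) (show MvPolynomial D.Ix ℂ from f) :=
  ev_mv (z.1.comp j.φ) f

theorem main [Nonempty W.Pt] (hO : D.Ok S) (hP : Pts S D) (hF : ∀ z : W.Pt, Fbk S z)
    (j : Mor W D.Pol) (hM : Fm S (D.crd.pull j)) (hq : ∀ z, D.Pt ((D.crd.pull j).cz z))
    (hG : ∀ z, Grt D.r D.β ((D.crd.pull j).cz z)) {I : Ideal D.Pol.R} (hI : (one _).Stab I)
    (h : D.IP ≤ I) (h0 : ∀ a ∈ I, j.φ a = 0)
    (hA : ((D.crd.pull j).A' S).IsBun (D.r * (D.p D.m).toNat)) :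
    ∃ ν, ((j.pull ((one _).sub I hI)).sub _ (np_stab j hI hP.stabP)).IsBun ν ∧
      dualK W (kc ((j.pull ((one _).sub I hI)).sub _ (np_stab j hI hP.stabP)) ν) =
        ∑ J, line W (j.ρ (D.dX J)) - 1 - kc ((D.crd.pull j).A' S) (D.r * (D.p D.m).toNat) := by
  choose L hL hL' using exists_L j hI h0
  obtain ⟨δ, hδ⟩ : ∃ δ : D.Ix → np j hI D.IP →ₗ[W.R] W.R, ∀ J n, δ J n = L J n.1 :=
    ⟨fun J => (L J).domRestrict _, fun _ _ => rfl⟩
  have e1 : ∀ (z : W.Pt) J (a : D.IP), z.1 (δ J (cN j hI h a)) = MvPolynomial.eval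
      ((D.crd.pull j).cz z) (MvPolynomial.pderiv J (show MvPolynomial D.Ix ℂ from a.1)) :=
    fun z J a => (congrArg z.1 ((hδ J _).trans (hL J _))).trans (ev_pt j z _)
  have e2 : ∀ (z : W.Pt) (τ : D.Ix → ℂ), (∀ n, ∑ J, τ J * z.1 (δ J n) = 0) ↔
      τ ∈ Tq (Plk.IPl ℂ D.r D.β) ((D.crd.pull j).cz z) := fun z τ =>
    ⟨fun k a ha => (Finset.sum_congr rfl fun J _ =>
      congrArg (τ J * ·) (e1 z J ⟨a, ha⟩).symm).trans (k _), fun k n => by
      obtain ⟨a, ha⟩ := fib_cN j hI h z.1 n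
      exact (Finset.sum_congr rfl fun J _ =>
        congrArg (τ J * ·) ((ev_mk (δ J) ha).trans (e1 z J a))).trans (k a.1 a.2)⟩
  have e3 : ∀ (τ : D.Ix → W.R), (∀ n, ∑ J, τ J * δ J n = 0) → ∀ z : W.Pt,
      (fun J => z.1 (τ J)) ∈ Tq (Plk.IPl ℂ D.r D.β) ((D.crd.pull j).cz z) := fun τ k z =>
    (e2 z _).1 fun n => by simpa only [map_sum, map_mul, map_zero] using congrArg z.1 (k n)
  obtain ⟨ν, k1, k2⟩ := core (N := (j.pull ((one _).sub I hI)).sub _ (np_stab j hI hP.stabP))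
    _ hA (fun J => -j.ρ (D.dX J)) δ (fun J g n => (hδ J _).trans ((hL' J g n.1).trans
      (congrArg (((one W).shift (-j.ρ (D.dX J))).act g) (hδ J n).symm)))
    (bb S (D.crd.pull j)) (fun J => dJ_pull j J ▸ bb_wt S _ J) (D.crd.pull j).y
    (fun J => wt_eq ((D.crd.pull j).y_wt J) ((dJ_pull j J).trans (neg_neg _).symm))
    (fun z n k => by
      obtain ⟨a, ha⟩ := fib_cN j hI h z.1 n
      obtain ⟨s, hs, hs'⟩ := (hG z).loc a.1 a.2 fun J =>
        (e1 z J a).symm.trans ((ev_mk (δ J) ha).symm.trans (k J))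
      exact ha.trans (cN_zero j hI h z.1 (fun s k => (ev_pt j z s).trans k)
        ((ev_pt j z s).trans_ne hs) hs'))
    (fun z V k => by
      have k' : Module.finrank ℂ V + D.r * D.r = D.r * Fintype.card D.β + 1 :=
        (hG z).dim V (Set.ext fun τ => (k τ).trans (e2 z τ))
      rw [card_eq hO (hq z), mul_add] at k'
      omega)
    (fun n => W.sep _ fun z hz => by
      have k := (e2 ⟨z, hz⟩ _).2
        ((hG ⟨z, hz⟩).tan2 1 0 ((D.crd.pull j).cz ⟨z, hz⟩) fun J => by simp).1 n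
      rw [map_sum]
      exact (Finset.sum_congr rfl fun J _ => map_mul z _ _).trans k)
    (sum_y S _) (fun z => (hq z).ne)
    (fun τ k => mem_kil hO hP hF hM (fun z => (hq z).rel) hG (e3 τ k))
    fun z τ k => rad hO hP hM (hq z).rel (hG z) (e3 τ k z)
  simp only [neg_neg] at k2
  exact ⟨ν, k1, k2⟩

end Cn

theorem con' : CON := fun hF hL hA _ hB _ _ _ hP _ hG Y S D hO Z hZ I hI hc hne hVI h h0 hA' => by
  have P := hP hB Y S D hO
  have h1 : ∀ a ∈ D.Pol.van Z, (Mor.incl _ Z hZ).φ a = 0 := fun a ha =>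
    Ideal.Quotient.eq_zero_iff_mem.2 ha
  have hq : ∀ z, D.Pt ((D.crd.pull (Mor.incl _ Z hZ)).cz z) := fun z =>
    (P.mem ((Mor.incl _ Z hZ).onPt z)).1 (hVI (hc _ fun r hr =>
      (congrArg z.1 (h1 r hr)).trans (map_zero _)))
  obtain ⟨z, hz⟩ := hne
  haveI : Nonempty (D.Pol.sub Z hZ).Pt :=
    ⟨⟨Ideal.Quotient.liftₐ (D.Pol.van Z) z.1 fun a ha => ha z hz, (Spc.sub_pt _ Z hZ _).2 z.2⟩⟩
  exact ⟨Cn.np_stab _ hI P.stabP, Cn.main hO P (hF hB _ Y S) _
    (hA hF hL hB _ Y S D _ fun z => P.reg _ (hq z)) hq (fun z => hG _ _ _ (hq z).rel (hq z).ne)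
    hI h (fun a ha => h1 a (h0 ha)) hA'⟩

end Vale.Agent.P297Z.Qt
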