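import Vale.Agent.P297Z.Quot.All
import Vale.Agent.P297Z.Quot.Conm

/-!
# P297: the obstruction theory of the Quot space
-/

namespace Vale.Agent.P297Z.Qt

theorem obs : OBS := obs_con con'

end Vale.Agent.P297Z.Qt
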