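import Vale.Agent.P297Z.Quot.Bas

/-!
# P297: a regular pair for the homomorphisms from the relations
-/

set_option linter.all false

open Filter

noncomputable section

namespace Vale.Agent.P297Z.Qt

namespace Hone

open Bg Bs

variable {Y : Spc} (S : Sur Y) {A F : GMod Y} {m n k : ℤ} {h : Y.R}

theorem ap_sm (r : Y.R) (φ : (A.hom F).M) (a : A.M) : ap (r • φ) a = r • ap φ a := by
  rw [map_smul, LinearMap.smul_apply]

theorem ap_dg {j : ℤ} {φ : (A.hom F).M} {a : A.M} (hφ : φ ∈ (A.hom F).wt (dg Y k))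
    (ha : a ∈ A.wt (dg Y j)) : ap φ a ∈ F.wt (dg Y (j + k)) := ap_wt hφ ha

include S in
theorem low_ind (hA : Low A m) {P : A.M → Prop} (h0 : P 0)
    (hw : ∀ j, m ≤ j → ∀ a ∈ A.wt (dg Y j), P a) (ha : ∀ x y, P x → P y → P (x + y)) (a : A.M) :
    P a := by
  refine A.induction h0 (fun γ a hγ => ?_) ha a
  rw [S.eq_dg γ] at hγ
  rcases lt_or_ge (γ S.uniq.default) m with e | e
  · rw [hA _ e] at hγ
    rw [(Submodule.mem_bot ℂ).1 hγ]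
    exact h0
  · exact hw _ e a hγ

include S in
theorem hom_zero (hA : Low A m) {φ : (A.hom F).M}
    (H : ∀ j, m ≤ j → ∀ a ∈ A.wt (dg Y j), ap φ a = 0) : φ = 0 :=
  ap.injective (LinearMap.ext fun a => by
    rw [map_zero, LinearMap.zero_apply]
    exact low_ind S hA (P := fun a => ap φ a = 0) (map_zero _) H
      (fun x y hx hy => by rw [map_add, hx, hy, add_zero]) a)

/-- the part of degree at least `n` -/
def ge (F : GMod Y) (n : ℤ) : Submodule Y.R F.M where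
  carrier := {v | ∀ k < n, F.cmp (dg Y k) v = 0}
  zero_mem' := fun _ _ => map_zero _
  add_mem' := fun {a b} ha hb k hk => by rw [map_add, ha k hk, hb k hk, add_zero]
  smul_mem' := fun r v hv k hk => by
    refine Y.induction (P := fun r => F.cmp (dg Y k) (r • v) = 0) ?_ (fun γ r hr => ?_)
      (fun x y hx hy => ?_) r
    · rw [zero_smul, map_zero]
    · rw [S.eq_dg γ] at hr
      rcases lt_or_ge (γ S.uniq.default) 0 with e | e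
      · rw [S.neg _ e] at hr
        rw [(Submodule.mem_bot ℂ).1 hr, zero_smul, map_zero]
      · rw [← cmp_sm' F hr (j := k - γ S.uniq.default) (by ring), hv _ (by omega), smul_zero]
    · rw [add_smul, map_add, hx, hy, add_zero]

theorem mem_ge {j : ℤ} (hj : n ≤ j) {v : F.M} (hv : v ∈ F.wt (dg Y j)) : v ∈ ge S F n :=
  fun k hk => F.cmp_of_ne (fun e => by have := S.dg_inj e; omega) hv

theorem ge_inj (hh : h ∈ Y.wt (dg Y 1))
    (inj : ∀ j, n ≤ j → ∀ v ∈ F.wt (dg Y j), h • v = 0 → v = 0) {v : F.M} (hv : v ∈ ge S F n)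
    (e : h • v = 0) : v = 0 := by
  obtain ⟨s, hs, -⟩ := F.exists_sum_cmp v
  rw [← hs]
  refine Finset.sum_eq_zero fun γ _ => ?_
  rw [S.eq_dg γ]
  rcases lt_or_ge (γ S.uniq.default) n with e' | e'
  · exact hv _ e'
  · exact inj _ e' _ (F.cmp_mem _ _) (by rw [← cmp_sm hh, e, map_zero])

include S in
/-- the division of a homomorphism -/
theorem hom_div (hA : Low A m) (hh : h ∈ Y.wt (dg Y 1))
    (inj : ∀ j, n ≤ j → ∀ v ∈ F.wt (dg Y j), h • v = 0 → v = 0) (hn : n ≤ m + k)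
    {φ : (A.hom F).M} (hφ : φ ∈ (A.hom F).wt (dg Y (k + 1)))
    (H : ∀ j, m ≤ j → ∀ a ∈ A.wt (dg Y j), ∃ u, ap φ a = h • u) :
    ∃ ψ ∈ (A.hom F).wt (dg Y k), φ = h • ψ := by
  let f : ge S F n →ₗ[Y.R] F.M := h • (ge S F n).subtype
  have hf : ∀ a, f a = 0 → (1 : Y.R) • a = 0 := fun a ha => by
    rw [one_smul]
    exact Subtype.ext (ge_inj S hh inj a.2 ha)
  have h2 : ∀ a, ∃ v, f v = (1 : Y.R) • ap φ a := by
    intro a
    rw [one_smul]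
    refine low_ind S hA (P := fun a => ∃ v, f v = ap φ a) ⟨0, by rw [map_zero, map_zero]⟩
      (fun j hj a ha => ?_) (fun x y ⟨v, hv⟩ ⟨w, hw⟩ => ⟨v + w, by rw [map_add, map_add, hv, hw]⟩) a
    obtain ⟨u, hu⟩ := H j hj a ha
    obtain ⟨u', h1, h2⟩ := div_wt (k := j + k) hh
      (mwt_eq (ap_dg hφ ha) (congrArg (dg Y) (by ring))) hu.symm
    exact ⟨⟨u', mem_ge S (by omega) h1⟩, h2.symm⟩
  obtain ⟨t, ht⟩ := exists_lift hf h2
  refine div_wt hh hφ (u := ap.symm ((ge S F n).subtype ∘ₗ t)) (ap.injective (LinearMap.ext fun a => ?_))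
  obtain ⟨v, hv⟩ := h2 a
  rw [ap_sm, LinearEquiv.apply_symm_apply, LinearMap.comp_apply, ht a v hv, one_smul]
  exact hv.trans (one_smul _ _)

include S in
theorem hom_inj (hA : Low A m) (inj : ∀ j, n ≤ j → ∀ v ∈ F.wt (dg Y j), h • v = 0 → v = 0)
    (hn : n ≤ m + k) {φ : (A.hom F).M} (hφ : φ ∈ (A.hom F).wt (dg Y k)) (e : h • φ = 0) : φ = 0 :=
  hom_zero S hA fun j hj a ha => inj (j + k) (by omega) _ (ap_dg hφ ha) (by
    rw [← ap_sm, e, map_zero, LinearMap.zero_apply])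

variable {h₀ h₁ : Y.R}

include S in
theorem hom_reg (hA : Low A m) (hh₀ : h₀ ∈ Y.wt (dg Y 1)) (P : Pair F m h₀ h₁) (hk : 0 ≤ k)
    {φ ψ : (A.hom F).M} (hφ : φ ∈ (A.hom F).wt (dg Y (k + 1)))
    (hψ : ψ ∈ (A.hom F).wt (dg Y (k + 1))) (e : h₁ • φ = h₀ • ψ) :
    ∃ χ ∈ (A.hom F).wt (dg Y k), φ = h₀ • χ := by
  refine hom_div S hA hh₀ P.inj (by omega) hφ fun j hj a ha => ?_
  obtain ⟨u, -, hu⟩ := P.reg (j + k) (by omega) (ap φ a)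
    (mwt_eq (ap_dg hφ ha) (congrArg (dg Y) (by ring))) (ap ψ a)
    (mwt_eq (ap_dg hψ ha) (congrArg (dg Y) (by ring))) (by rw [← ap_sm, ← ap_sm, e])
  exact ⟨u, hu⟩

theorem two_wt {M : GMod Y} (hh₀ : h₀ ∈ Y.wt (dg Y 1)) (hh₁ : h₁ ∈ Y.wt (dg Y 1)) {v u u' : M.M}
    (hv : v ∈ M.wt (dg Y (k + 2))) (e : v = h₀ • u + h₁ • u') :
    ∃ u ∈ M.wt (dg Y (k + 1)), ∃ u' ∈ M.wt (dg Y (k + 1)), v = h₀ • u + h₁ • u' := by
  refine ⟨_, M.cmp_mem _ u, _, M.cmp_mem _ u', ?_⟩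
  rw [← cmp_sm hh₀, ← cmp_sm hh₁, ← map_add, ← e,
    M.cmp_of_mem (mwt_eq hv (congrArg (dg Y) (by ring)))]

variable {ι : Type} [Fintype ι]

theorem fr_ext {δ : ι → Y.J → ℤ} {N : Type} [AddCommGroup N] [Module Y.R N]
    {f g : (Fr δ).M →ₗ[Y.R] N} (H : ∀ i, f (fe δ i) = g (fe δ i)) : f = g :=
  LinearMap.ext fun a => by rw [fr_apply f, fr_apply g, funext H]

theorem exists_fr (δ : ι → Y.J → ℤ) {N : Type} [AddCommGroup N] [Module Y.R N] (v : ι → N) :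
    ∃ f : (Fr δ).M →ₗ[Y.R] N, ∀ i, f (fe δ i) = v i := by
  classical
  refine ⟨Fintype.linearCombination Y.R v, fun i => ?_⟩
  have e : fe δ i = (Pi.single i (1 : Y.R) : ι → Y.R) := by
    funext j
    change Pi.single (M := fun _ => Y.R) i 1 j = Pi.single (M := fun _ => Y.R) i 1 j
    rfl
  rw [e]
  exact (Fintype.linearCombination_apply_single Y.R v i 1).trans (one_smul _ _)

theorem fr_surj {a : ι → ℤ} (ha : ∀ i, m ≤ a i) (hh₀ : h₀ ∈ Y.wt (dg Y 1))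
    (hh₁ : h₁ ∈ Y.wt (dg Y 1)) (P : Pair F m h₀ h₁) (hk : 0 ≤ k)
    {φ : ((Fr fun i => dg Y (a i)).hom F).M}
    (hφ : φ ∈ ((Fr fun i => dg Y (a i)).hom F).wt (dg Y (k + 2))) :
    ∃ ψ ∈ ((Fr fun i => dg Y (a i)).hom F).wt (dg Y (k + 1)),
      ∃ ψ' ∈ ((Fr fun i => dg Y (a i)).hom F).wt (dg Y (k + 1)), φ = h₀ • ψ + h₁ • ψ' := by
  have h1 : ∀ i, ∃ u u', ap φ (fe _ i) = h₀ • u + h₁ • u' := fun i => by
    obtain ⟨u, -, u', -, e⟩ := P.surj (a i + k) (by have := ha i; omega) (ap φ (fe _ i))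
      (mwt_eq (ap_dg hφ (fe_wt (fun i => dg Y (a i)) i)) (congrArg (dg Y) (by ring)))
    exact ⟨u, u', e⟩
  choose u u' e using h1
  obtain ⟨f, hf⟩ := exists_fr (fun i => dg Y (a i)) u
  obtain ⟨f', hf'⟩ := exists_fr (fun i => dg Y (a i)) u'
  refine two_wt hh₀ hh₁ hφ (u := ap.symm f) (u' := ap.symm f') (ap.injective (fr_ext fun i => ?_))
  rw [map_add, LinearMap.add_apply, ap_sm, ap_sm, LinearEquiv.apply_symm_apply,
    LinearEquiv.apply_symm_apply, hf, hf', e]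

/-- the module modulo the first parameter -/
abbrev bar (F : GMod Y) (hh : h ∈ Y.wt (dg Y 1)) : GMod Y := F.quo (mulS F h) (mulS_stab F hh)

theorem bar_zero (hh : h ∈ Y.wt (dg Y 1)) {v : F.M} :
    qm F _ (mulS_stab F hh) v = 0 ↔ ∃ u, h • u = v := qm_zero

theorem bar_kill (hh : h ∈ Y.wt (dg Y 1)) (v : (bar F hh).M) : h • v = 0 := by
  obtain ⟨u, rfl⟩ := qm_surj v
  rw [← map_smul]
  exact (bar_zero hh).2 ⟨u, rfl⟩

theorem bar_inj (hh₀ : h₀ ∈ Y.wt (dg Y 1)) (hh₁ : h₁ ∈ Y.wt (dg Y 1)) (P : Pair F m h₀ h₁)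
    (j : ℤ) (hj : m + 1 ≤ j) (v : (bar F hh₀).M) (hv : v ∈ (bar F hh₀).wt (dg Y j))
    (e : h₁ • v = 0) : v = 0 := by
  obtain ⟨w, hw, rfl⟩ := qm_lift hv
  rw [← map_smul] at e
  obtain ⟨u, hu⟩ := (bar_zero hh₀).1 e
  obtain ⟨u', h1, h2⟩ := div_wt hh₀ (sm_wt hh₁ hw) hu
  obtain ⟨k, rfl⟩ : ∃ k, j = k + 1 := ⟨j - 1, by ring⟩
  obtain ⟨t, -, ht⟩ := P.reg k (by omega) w hw u' h1 h2
  exact (bar_zero hh₀).2 ⟨t, ht.symm⟩

theorem bar_surj (hh₀ : h₀ ∈ Y.wt (dg Y 1)) (P : Pair F m h₀ h₁)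
    (j : ℤ) (hj : m + 2 ≤ j) (v : (bar F hh₀).M) (hv : v ∈ (bar F hh₀).wt (dg Y j)) :
    ∃ u, v = h₁ • u := by
  obtain ⟨w, hw, rfl⟩ := qm_lift hv
  obtain ⟨k, rfl⟩ : ∃ k, j = k + 2 := ⟨j - 2, by ring⟩
  obtain ⟨u, -, u', -, e⟩ := P.surj k (by omega) w hw
  refine ⟨qm F _ _ u', ?_⟩
  rw [e, map_add, map_smul, map_smul, bar_kill hh₀, zero_add]

include S in
theorem bar_div (hA : Low A m) (hh₀ : h₀ ∈ Y.wt (dg Y 1)) (hh₁ : h₁ ∈ Y.wt (dg Y 1))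
    (P : Pair F m h₀ h₁) (hk : 1 ≤ k) {φ : (A.hom (bar F hh₀)).M}
    (hφ : φ ∈ (A.hom (bar F hh₀)).wt (dg Y (k + 1))) :
    ∃ ψ ∈ (A.hom (bar F hh₀)).wt (dg Y k), φ = h₁ • ψ :=
  hom_div S hA hh₁ (bar_inj hh₀ hh₁ P) (by omega) hφ fun j hj a ha =>
    bar_surj hh₀ P _ (by omega) _ (ap_dg hφ ha)

include S in
/-- the extension of homomorphisms by descending induction -/
theorem bar_ext {B : GMod Y} (hA : Low A m) (hB : Low B m) {i : A.M →ₗ[Y.R] B.M}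
    (hi : A.IsHom B i) (hh₀ : h₀ ∈ Y.wt (dg Y 1)) (hh₁ : h₁ ∈ Y.wt (dg Y 1)) (P : Pair F m h₀ h₁)
    (spl : ∀ y : Y.Pt, y.1 h₀ = 0 → ∃ (r : Y.R) (t : B.M →ₗ[Y.R] A.M), y.1 r ≠ 0 ∧
      ∀ a, t (i a) = r • a) (hk : 1 ≤ k) :
    ∀ φ ∈ (A.hom (bar F hh₀)).wt (dg Y k), ∃ ψ ∈ (B.hom (bar F hh₀)).wt (dg Y k),
      rs i _ ψ = φ := by
  have h1 := ((proj S).surj (rs_hom hi (bar F hh₀))).1 fun z φ => by
    by_cases hz : z.1 h₀ = 0
    · obtain ⟨r, t, h1, h2⟩ := spl z hz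
      refine ⟨r, ap.symm (ap φ ∘ₗ t), h1, ap.injective (LinearMap.ext fun b => ?_)⟩
      rw [ap_rs, LinearEquiv.apply_symm_apply, LinearMap.comp_apply, h2, map_smul, ap_sm]
    · refine ⟨h₀, 0, hz, ap.injective (LinearMap.ext fun b => ?_)⟩
      rw [map_zero, map_zero, LinearMap.zero_apply, ap_sm, bar_kill hh₀]
  obtain ⟨K, hK⟩ := eventually_atTop.1 (ev_of' S h1)
  rcases le_or_gt K k with e | e
  · exact hK k e
  refine Int.le_induction_down (m := K) (motive := fun k _ => 1 ≤ k →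
    ∀ φ ∈ (A.hom (bar F hh₀)).wt (dg Y k), ∃ ψ ∈ (B.hom (bar F hh₀)).wt (dg Y k), rs i _ ψ = φ)
    (fun _ => hK K le_rfl) (fun l _ ih hl φ hφ => ?_) k e.le hk
  obtain ⟨l, rfl⟩ : ∃ l', l = l' + 1 := ⟨l - 1, by ring⟩
  rw [add_sub_cancel_right] at hl hφ ⊢
  obtain ⟨ψ, h2, h3⟩ := ih (by omega) _ (sm_wt hh₁ hφ)
  obtain ⟨χ, h4, rfl⟩ := bar_div S hB hh₀ hh₁ P hl h2
  refine ⟨χ, h4, sub_eq_zero.1 (hom_inj S hA (bar_inj hh₀ hh₁ P) (k := l) (by omega)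
    (Submodule.sub_mem _ ((rs_hom hi _).map_wt h4) hφ) ?_)⟩
  rw [smul_sub, ← map_smul, h3, sub_self]

/-- the composition with a map -/
def cs (A : GMod Y) {B B' : GMod Y} (u : B.M →ₗ[Y.R] B'.M) : (A.hom B).M →ₗ[Y.R] (A.hom B').M :=
  LinearMap.llcomp Y.R A.M B.M B'.M u

theorem ap_cs (A : GMod Y) {B B' : GMod Y} (u : B.M →ₗ[Y.R] B'.M) (φ : (A.hom B).M) (a : A.M) :
    ap (cs A u φ) a = u (ap φ a) := rfl

theorem cs_hom (A : GMod Y) {B B' : GMod Y} {u : B.M →ₗ[Y.R] B'.M} (hu : B.IsHom B' u) :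
    (A.hom B).IsHom (A.hom B') (cs A u) := fun g φ => LinearMap.ext fun a =>
  hu g (ap φ (A.act g⁻¹ a))

include S in
theorem ker_surj {δ : ι → Y.J → ℤ} (hA : Low A m) (hB : Low (Fr δ) m)
    {i : A.M →ₗ[Y.R] (Fr δ).M} (hi : A.IsHom (Fr δ) i) (hh₀ : h₀ ∈ Y.wt (dg Y 1))
    (hh₁ : h₁ ∈ Y.wt (dg Y 1)) (P : Pair F m h₀ h₁)
    (spl : ∀ y : Y.Pt, y.1 h₀ = 0 → ∃ (r : Y.R) (t : (Fr δ).M →ₗ[Y.R] A.M), y.1 r ≠ 0 ∧
      ∀ a, t (i a) = r • a) (hk : 0 ≤ k) {φ : (A.hom F).M}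
    (hφ : φ ∈ (A.hom F).wt (dg Y (k + 2))) :
    ∃ ψ ∈ (A.hom F).wt (dg Y (k + 1)), ∃ ψ' ∈ (A.hom F).wt (dg Y (k + 1)),
      φ = h₀ • ψ + h₁ • ψ' := by
  have hq := qm_hom _ (mulS_stab F hh₀)
  have hφ' : φ ∈ (A.hom F).wt (dg Y (k + 1 + 1)) := mwt_eq hφ (congrArg (dg Y) (by ring))
  obtain ⟨ψ, h1, h2⟩ := bar_div S hA hh₀ hh₁ P (k := k + 1) (by omega) ((cs_hom A hq).map_wt hφ')
  obtain ⟨χ, h3, rfl⟩ := bar_ext S hA hB hi hh₀ hh₁ P spl (k := k + 1) (by omega) ψ h1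
  have h4 : ∃ χ', cs (Fr δ) (qm F _ (mulS_stab F hh₀)) χ' = χ := by
    choose v hv using fun i => qm_surj (ap χ (fe δ i))
    obtain ⟨f, hf⟩ := exists_fr δ v
    refine ⟨ap.symm f, ap.injective (fr_ext fun i => ?_)⟩
    rw [ap_cs, LinearEquiv.apply_symm_apply, hf, hv]
  obtain ⟨χ', rfl⟩ := h4
  obtain ⟨χ'', h5, h6⟩ := (cs_hom (Fr δ) hq).exists_preimage h3
  have h7 := (rs_hom hi F).map_wt h5
  obtain ⟨ω, h8, h9⟩ := hom_div S hA hh₀ P.inj (k := k + 1) (by omega)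
    (Submodule.sub_mem _ hφ' (sm_wt hh₁ h7)) fun j hj a ha => by
      obtain ⟨u, hu⟩ := (bar_zero hh₀ (v := ap (φ - h₁ • rs i F χ'') a)).1 (by
        rw [map_sub, LinearMap.sub_apply, map_sub, ap_sm, map_smul, ← ap_cs, h2, ap_sm, ← h6, ap_rs,
          ap_rs, ap_cs, sub_self])
      exact ⟨u, hu.symm⟩
  exact ⟨ω, h8, _, h7, by rw [← h9, sub_add_cancel]⟩

end Hone

open Hone Bs

theorem h1 : H1 := by
  intro hb Y S ι _ a m V F u hu h₀ h₁ ha hh₀ hh₁ P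
  have hB := (hb Y S).low_fr ι a m ha
  refine ⟨⟨fun k hk φ hφ e => hom_inj S hB P.inj (by omega) hφ e,
    fun k hk φ hφ ψ hψ e => hom_reg S hB hh₀ P hk hφ hψ e,
    fun k hk φ hφ => fr_surj ha hh₀ hh₁ P hk hφ⟩, fun hf => ?_⟩
  have hi := GMod.isHom_subtype _ _ hu.stab_ker
  have hA : Low ((Fr fun i => dg Y (a i)).sub _ hu.stab_ker) m := fun k hk =>
    (Submodule.eq_bot_iff _).2 fun v hv =>
      Subtype.ext ((Submodule.eq_bot_iff _).1 (hB k hk) _ (hi.map_wt hv))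
  refine ⟨fun k hk φ hφ e => hom_inj S hA P.inj (by omega) hφ e,
    fun k hk φ hφ ψ hψ e => hom_reg S hA hh₀ P hk hφ hψ e,
    fun k hk φ hφ => ker_surj S hA hB hi hh₀ hh₁ P (fun y hy => ?_) hk hφ⟩
  obtain ⟨n, hn⟩ := hf y hy
  obtain ⟨r, s, t, h1, -, h2, -⟩ := exists_split hn (f := (LinearMap.ker u).subtype)
    (g := u.rangeRestrict) (fun a => Subtype.ext a.2)
    (fun a ha => ⟨1, ev_one, Subtype.ext ((one_smul _ _).trans ha)⟩)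
    (fun b hb => ⟨1, ⟨b, congrArg Subtype.val hb⟩, ev_one, (one_smul _ _).symm⟩)
    (SurjAt.of_surj u.surjective_rangeRestrict)
  exact ⟨r, t, h1, h2⟩

end Vale.Agent.P297Z.Qt
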