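import Vale.Agent.P297Z.Quot.NatQ

/-!
# P297: base change for the bundles of homomorphisms
-/

set_option linter.all false

open scoped TensorProduct

noncomputable section

namespace Vale.Agent.P297Z.Qt

open GMod

variable {W W' Y : Spc} {g : Mor W' W}

namespace Bc

/-- a map of families induces a map on the parts -/
theorem exists_part (S : Sur Y) {M : GMod (W.prod Y)} {M' : GMod (W'.prod Y)} {u : M.M →+ M'.M}
    (h : Over g M M' u) (k : ℤ) : ∃ L : (g.pull (S.pc M k)).M →ₗ[W'.R] (S.pc M' k).M,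
      (g.pull (S.pc M k)).IsHom (S.pc M' k) L ∧
        ∀ m, S.val M' k (L (AK.pu g _ m)) = u (S.val M k m) := by
  have e1 : (S.prj W').π.comp (g.map (Mor.id Y)).ρ = (S.prj W).π :=
    AddMonoidHom.ext fun γ => funext fun _ => zero_add _
  have e2 : (S.prj W').ret.comp (g.map (Mor.id Y)).ρ = g.ρ.comp (S.prj W).ret :=
    AddMonoidHom.ext fun γ => funext fun _ => add_zero _
  have h1 : ∀ m : (S.pc M k).M, u (S.val M k m) ∈ wt ((S.prj W').actE M') fun _ => k :=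
    fun m t => by
      have h2 : M.act (tor (S.prj W).π t) (S.val M k m) = chr (fun _ => k) t • S.val M k m :=
        S.val_mem m t
      change M'.act (tor (S.prj W').π t) _ = _
      rw [← h.act, ← tor_comp, e1]
      exact (congrArg u h2).trans (Over.cmul' h.smul _ _)
  obtain ⟨L, hL⟩ := AK.exists_plift g (S.pc M k) (V := (S.pc M' k).M)
    (AddMonoidHom.mk' (fun m => S.el _ (h1 m)) fun a b => S.val_inj (by
      rw [map_add (S.val M' k), S.val_el, S.val_el, S.val_el, map_add, map_add]))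
    fun s m => S.val_inj (by
      rw [S.val_smul, ← map_fst]
      exact h.smul _ _)
  have h3 : ∀ m, S.val M' k (L (AK.pu g _ m)) = u (S.val M k m) := fun m =>
    congrArg (S.val M' k) (hL m)
  refine ⟨L, AK.isHom_pu fun t m => S.val_inj ?_, h3⟩
  rw [S.val_act, h3, h3, S.val_act, ← h.act, ← tor_comp, ← tor_comp, e2]

/-- the extension of homomorphisms to the pull-back -/
theorem exists_hom (B : GMod (W.prod Y)) {G : GMod (W.prod Y)} {G' : GMod (W'.prod Y)}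
    {u : G.M →+ G'.M} (h : Over g G G' u) :
    ∃ v : (B.hom G).M →+ (((g.map (Mor.id Y)).pull B).hom G').M,
      Over g (B.hom G) (((g.map (Mor.id Y)).pull B).hom G') v ∧
        ∀ φ b, ap (v φ) (AK.pu _ B b) = u (ap φ b) := by
  choose L hL using fun φ : (B.hom G).M => AK.exists_plift (g.map (Mor.id Y)) B
    (u.comp (ap φ).toAddMonoidHom) fun s b => (congrArg u (map_smul (ap φ) s b)).trans (h.smul _ _)
  have h1 : ∀ φ b, ap (ap.symm (L φ) : (((g.map (Mor.id Y)).pull B).hom G').M) (AK.pu _ B b) =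
      u (ap φ b) := hL
  have h2 : ∀ ψ ψ' : (((g.map (Mor.id Y)).pull B).hom G').M,
      (∀ b, ap ψ (AK.pu _ B b) = ap ψ' (AK.pu _ B b)) → ψ = ψ' := fun ψ ψ' e =>
    ap.injective (LinearMap.ext (AK.pu_ext e))
  refine ⟨AddMonoidHom.mk' (fun φ => ap.symm (L φ)) fun φ ψ => h2 _ _ fun b => ?_,
    Over.of_act (fun a φ => h2 _ _ fun b => ?_) fun t φ => h2 _ _ fun b => ?_, h1⟩
  · rw [map_add ap, LinearMap.add_apply, h1, h1, h1, map_add, LinearMap.add_apply, map_add]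
  · rw [map_smul ap, LinearMap.smul_apply]
    refine (h1 _ b).trans ?_
    rw [map_smul, LinearMap.smul_apply, h.smul]
    exact congrArg _ (h1 φ b).symm
  · refine (h1 _ b).trans ?_
    rw [act_ap, act_ap, AK.pu_act, h.act, tor_inv]
    exact congrArg _ (h1 φ _).symm

theorem surjAt_of (S : Sur Y) {z : W.Pt} (hF : Fbk S z) {M : GMod (W.prod Y)} {M₀ : GMod Y}
    {ε : M.M →+ M₀.M} {k : ℤ} (h1 : IsEv z M M₀ ε) (h2 : S.FibK z M M₀ ε k) {A : GMod W}
    {L : A.M →ₗ[W.R] (S.pc M k).M}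
    (h : ∀ v ∈ M₀.wt (dg Y k), ∃ a, ε (S.val M k (L a)) = v) : SurjAt z.1 L := by
  refine surjAt_iff_fib.2 fun x => ?_
  obtain ⟨m, rfl⟩ := fib_surj x
  obtain ⟨a, ha⟩ := h _ (hF.val_wt M M₀ ε h1 k m)
  refine ⟨Submodule.Quotient.mk a, (Submodule.Quotient.eq _).2 (h2.ker _ ?_)⟩
  rw [map_sub, map_sub, ha, sub_self]

end Bc

open Bc

theorem bch : BCH := by
  intro hF hH hB W W' Y S g B G B' G' uB uG k n oB oG hz hn
  obtain ⟨LB, b1, b2⟩ := oB.exists_lift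
  obtain ⟨v, v1, v2⟩ := exists_hom B oG
  obtain ⟨L, l1, l2⟩ := exists_part S v1 k
  have key : ∀ z : W'.Pt, FreeAt z.1 (S.pc (B'.hom G') k).M n ∧
      FreeAt z.1 (S.pc (((g.map (Mor.id Y)).pull B).hom G') k).M n ∧ SurjAt z.1 L ∧
      SurjAt z.1 (S.pm k (rs LB G') (rs_hom b1 G')) := fun z => by
    obtain ⟨B₀, G₀, εB, εG, εB', εG', f1, f2, f3, f4, e1, e2, hE⟩ := hz z
    have F := hF hB W' Y S z
    obtain ⟨εP, e3, f5⟩ := F.base W g B B₀ εB f1
    obtain ⟨ε₁, a1, -, a2⟩ := hH hF hB W Y S _ B G B₀ G₀ εB εG f1 f2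
    obtain ⟨ε₂, a3, -, a4⟩ := hH hF hB W' Y S z B' G' B₀ G₀ εB' εG' f3 f4
    obtain ⟨ε₃, a5, a6, a7⟩ := hH hF hB W' Y S z _ G' B₀ G₀ εP εG' f5 f4
    have e4 := (hn _).unique (a2 k hE).2
    have h1 : ∀ ψ (φ : (B₀.hom G₀).M), (∀ b, εG' (ap ψ (pl _ B b)) = ap φ (εB b)) → ε₃ ψ = φ :=
      fun ψ φ e => ap.injective (LinearMap.ext fun b₀ => by
        obtain ⟨b, rfl⟩ := f1.surj b₀
        rw [← e, ← a5, e3])
    refine ⟨e4 ▸ (a4 k hE).2, e4 ▸ (a7 k hE).2, surjAt_of S F a6 (a7 k hE).1 fun w hw => ?_,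
      surjAt_of S F a6 (a7 k hE).1 fun w hw => ?_⟩
    · obtain ⟨φ, rfl⟩ := (a2 k hE).1.surj w hw
      refine ⟨AK.pu g _ φ, h1 _ _ fun b => ?_⟩
      rw [l2, a1, ← e2]
      exact congrArg εG' (v2 _ b)
    · obtain ⟨φ, rfl⟩ := (a4 k hE).1.surj w hw
      refine ⟨φ, h1 _ _ fun b => ?_⟩
      rw [S.val_pm, ap_rs, b2, ← e1, a3]
  refine ⟨fun z => (key z).1, ?_⟩
  rw [pullK_kc _ hn,
    kc_qis ⟨l1, fun z => isoAt_of_surjAt (hn.pull g z) (key z).2.1 (key z).2.2.1⟩,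
    kc_qis ⟨S.pm_hom k _ (rs_hom b1 G'),
      fun z => isoAt_of_surjAt (key z).1 (key z).2.1 (key z).2.2.2⟩]

end Vale.Agent.P297Z.Qt
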