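import Vale.Agent.P297Z.Quot.Sk

/-!
# P297: a map of constant rank modulo an ideal
-/

set_option linter.all false

noncomputable section

namespace Vale.Agent.P297Z.Qt

namespace BlkA

open Matrix

theorem det_thru {R : Type} [CommRing R] {n n' : ℕ} (h : n < n') (C : Matrix (Fin n') (Fin n) R)
    (W : Matrix (Fin n) (Fin n') R) : (C * W).det = 0 := by
  have h1 : C * W = fun i => ∑ u, C i u • W u := by
    funext i j
    simp [Matrix.mul_apply, Finset.sum_apply]
  have h2 := (detRowAlternating (n := Fin n') (R := R)).toMultilinearMap.map_sum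
    (fun i u => C i u • W u)
  refine (congrArg Matrix.det h1).trans (h2.trans (Finset.sum_eq_zero fun f _ => ?_))
  rw [MultilinearMap.map_smul_univ]
  have h3 : ¬ Function.Injective fun i => W (f i) := fun hi => by
    have h4 := Fintype.card_le_of_injective f (Function.Injective.of_comp (f := W) hi)
    rw [Fintype.card_fin, Fintype.card_fin] at h4
    omega
  have h5 := (detRowAlternating (n := Fin n') (R := R)).map_eq_zero_of_not_injective _ h3
  exact (congrArg _ h5).trans (smul_zero _)

variable {P A B : Type} [CommRing P] [Algebra ℂ P] [AddCommGroup A] [Module P A]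
  [AddCommGroup B] [Module P B] {z : P →ₐ[ℂ] ℂ} {n : ℕ}

theorem dual_mem {J : Ideal P} (g : Module.Dual P B) {x : B} (h : x ∈ J • (⊤ : Submodule P B)) :
    g x ∈ J :=
  Submodule.smul_induction_on h (fun r hr y _ => by
    rw [map_smul]; exact J.mul_mem_right _ hr) fun x y hx hy => by
    rw [map_add]; exact J.add_mem hx hy

theorem map_mem {J : Ideal P} (f : A →ₗ[P] B) {x : A} (h : x ∈ J • (⊤ : Submodule P A)) :
    f x ∈ J • (⊤ : Submodule P B) :=
  Submodule.smul_induction_on h (fun r hr y _ => by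
    rw [map_smul]; exact Submodule.smul_mem_smul hr trivial) fun x y hx hy => by
    rw [map_add]; exact Submodule.add_mem _ hx hy

theorem pi_mem {J : Ideal P} {b : ℕ} {v : Fin b → P} (h : ∀ i, v i ∈ J) :
    v ∈ J • (⊤ : Submodule P (Fin b → P)) := by
  rw [pi_eq_sum_univ' v]
  exact Submodule.sum_mem _ fun i _ => Submodule.smul_mem_smul (h i) trivial

theorem exists_ind [Module ℂ A] [IsScalarTower ℂ P A] [Module ℂ B] [IsScalarTower ℂ P B]
    [Module.Finite P B] (μ : A →ₗ[P] B) (hn : frk z μ = n) :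
    ∃ a : Fin n → A,
      LinearIndependent ℂ fun u => (Submodule.Quotient.mk (μ (a u)) : Fib z B) := by
  unfold frk at hn
  have h0 : ∀ y ∈ LinearMap.range (fibC z μ), ∃ a : A,
      (Submodule.Quotient.mk (μ a) : Fib z B) = y := by
    rintro _ ⟨x, rfl⟩
    obtain ⟨a, rfl⟩ := fib_surj x
    exact ⟨a, rfl⟩
  generalize LinearMap.range (fibC z μ) = V at hn h0
  have β := Module.finBasisOfFinrankEq ℂ V hn
  choose a ha using fun u => h0 _ (β u).2
  refine ⟨a, ?_⟩
  rw [funext ha]
  exact β.linearIndependent.map' V.subtype V.ker_subtype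

theorem exists_minor [Module ℂ A] [IsScalarTower ℂ P A] [Module ℂ B] [IsScalarTower ℂ P B]
    [Module.Finite P B] (μ : A →ₗ[P] B) {b : ℕ} (hB : FreeAt z B b) (hn : frk z μ = n) :
    ∃ (a : Fin n → A) (g : Fin n → Module.Dual P B),
      z (Matrix.of fun u t => g t (μ (a u))).det ≠ 0 := by
  obtain ⟨e, s, e', hs, -, he⟩ := hB
  obtain ⟨a, hli⟩ := exists_ind μ hn
  set w : Fin n → Fin b → ℂ := fun u i => z (e' (μ (a u)) i) with hw
  have hw' : LinearMap.ker (Fintype.linearCombination ℂ w) = ⊥ := by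
    rw [LinearMap.ker_eq_bot']
    intro c hc
    have h2 : (Submodule.Quotient.mk (e' (∑ u, algebraMap ℂ P (c u) • μ (a u))) :
        Fib z (Fin b → P)) = 0 := mk_pi_eq_zero.2 fun i => by
      have h3 := congrFun hc i
      rw [Fintype.linearCombination_apply] at h3
      simpa [hw, Finset.sum_apply] using h3
    have h4 := congrArg (fibMap z e) h2
    rw [fibMap_mk, he, map_zero, Submodule.Quotient.mk_smul] at h4
    have h5 := fib_eq_zero hs h4
    rw [← Submodule.mkQ_apply, map_sum] at h5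
    refine funext (Fintype.linearIndependent_iff.1 hli c ?_)
    rw [← h5]
    exact Finset.sum_congr rfl fun u _ => by rw [map_smul, algebraMap_smul]; rfl
  obtain ⟨G, hG⟩ := (Fintype.linearCombination ℂ w).exists_leftInverse_of_injective hw'
  refine ⟨a, fun t => ∑ i, algebraMap ℂ P (G (Pi.single i 1) t) • (LinearMap.proj i ∘ₗ e'), ?_⟩
  rw [AlgHom.map_det]
  have h6 : z.mapMatrix (Matrix.of fun u t => (∑ i, algebraMap ℂ P (G (Pi.single i 1) t) •
      (LinearMap.proj i ∘ₗ e') : Module.Dual P B) (μ (a u))) = 1 := by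
    ext u t
    have h7 := congrFun (LinearMap.congr_fun hG (Pi.single u 1)) t
    rw [LinearMap.comp_apply, Fintype.linearCombination_apply_single, one_smul,
      pi_eq_sum_univ' (w u), map_sum] at h7
    simp only [map_smul, Finset.sum_apply, Pi.smul_apply, smul_eq_mul, LinearMap.id_apply] at h7
    rw [Matrix.one_apply, Pi.single_apply] at *
    simp only [AlgHom.mapMatrix_apply, Matrix.map_apply, Matrix.of_apply, LinearMap.sum_apply,
      LinearMap.smul_apply, LinearMap.comp_apply, LinearMap.proj_apply, smul_eq_mul, map_sum,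
      map_mul, AlgHom.commutes, Algebra.algebraMap_self, RingHom.id_apply]
    rw [show (if u = t then (1 : ℂ) else 0) = if t = u then 1 else 0 from by simp [eq_comm], ← h7]
    exact Finset.sum_congr rfl fun i _ => mul_comm _ _
  rw [h6, Matrix.det_one]
  exact one_ne_zero

variable (μ : A →ₗ[P] B) (a : Fin n → A) (g : Fin n → Module.Dual P B)

/-- the matrix of the pairing -/
def Mx : Matrix (Fin n) (Fin n) P := Matrix.of fun u t => g t (μ (a u))

/-- the coefficients of the projection of an element -/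
def cA (x : A) (u : Fin n) : P := ∑ t, g t (μ x) * (Mx μ a g).adjugate t u

/-- the coefficients of the projection of a form -/
def dB (h : Module.Dual P B) (t : Fin n) : P := ∑ u, (Mx μ a g).adjugate t u * h (μ (a u))

/-- the projection of an element -/
def pA : A →ₗ[P] A :=
  (Mx μ a g).det • LinearMap.id -
    ∑ u, (∑ t, (Mx μ a g).adjugate t u • (g t ∘ₗ μ)).smulRight (a u)

/-- the projection of a form -/
def pB (h : Module.Dual P B) : Module.Dual P B := (Mx μ a g).det • h - ∑ t, dB μ a g h t • g t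

theorem pA_apply (x : A) : pA μ a g x = (Mx μ a g).det • x - ∑ u, cA μ a g x u • a u := by
  simp [pA, cA, mul_comm]

theorem pB_apply (h : Module.Dual P B) (y : B) :
    pB μ a g h y = (Mx μ a g).det * h y - ∑ t, dB μ a g h t * g t y := by
  simp [pB]

theorem h_pA (h : Module.Dual P B) (x : A) :
    h (μ (pA μ a g x)) = (Mx μ a g).det * h (μ x) - ∑ u, cA μ a g x u * h (μ (a u)) := by
  simp [pA_apply]

theorem g_pA (t : Fin n) (x : A) : g t (μ (pA μ a g x)) = 0 := by
  rw [h_pA, sub_eq_zero]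
  have h1 : ∀ t', ∑ u, (Mx μ a g).adjugate t' u * g t (μ (a u)) =
      (Mx μ a g).det * if t' = t then 1 else 0 := fun t' => by
    have h2 := congrFun (congrFun (Matrix.adjugate_mul (Mx μ a g)) t') t
    rw [Matrix.mul_apply, Matrix.smul_apply, Matrix.one_apply, smul_eq_mul] at h2
    exact h2
  simp only [cA, Finset.sum_mul, mul_assoc]
  rw [Finset.sum_comm]
  simp only [← Finset.mul_sum, h1]
  simp [mul_comm]

theorem pB_eq (h : Module.Dual P B) (x : A) : pB μ a g h (μ x) = h (μ (pA μ a g x)) := by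
  rw [h_pA, pB_apply]
  congr 1
  simp only [cA, dB, Finset.sum_mul]
  rw [Finset.sum_comm]
  exact Finset.sum_congr rfl fun u _ => Finset.sum_congr rfl fun t _ => by ring

theorem det_cons (h : Module.Dual P B) (x : A) :
    (Matrix.of fun u t => (Fin.cons h g : Fin (n + 1) → Module.Dual P B) t
      (μ ((Fin.cons (pA μ a g x) a : Fin (n + 1) → A) u))).det =
      h (μ (pA μ a g x)) * (Mx μ a g).det := by
  rw [Matrix.det_succ_row_zero, Fin.sum_univ_succ, Finset.sum_eq_zero, add_zero]
  · simp only [Fin.val_zero, pow_zero, one_mul, Matrix.of_apply, Fin.cons_zero]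
    rfl
  · intro t _
    simp only [Matrix.of_apply, Fin.cons_zero, Fin.cons_succ, g_pA, mul_zero, zero_mul]

theorem unif [Module.Finite P A] {b : ℕ} (hB : FreeAt z B b) {I : Ideal P}
    (hδ : z (Mx μ a g).det ≠ 0)
    (hI : ∀ (a : Fin (n + 1) → A) (g : Fin (n + 1) → Module.Dual P B),
      ∃ r, z r ≠ 0 ∧ r * (Matrix.of fun u t => g t (μ (a u))).det ∈ I) :
    ∃ r, z r ≠ 0 ∧ ∀ x, μ (r • pA μ a g x) ∈ I • (⊤ : Submodule P B) := by
  obtain ⟨e, s, e', hs, -, he⟩ := hB
  obtain ⟨r, h1, h2⟩ := unif_fg (z := z) (N := (⊤ : Submodule P A))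
    (P := (I • (⊤ : Submodule P B)).comap (μ ∘ₗ pA μ a g)) Module.Finite.fg_top fun x _ => by
      choose r hr hr' using fun i : Fin b => hI (Fin.cons (pA μ a g x) a)
        (Fin.cons (LinearMap.proj i ∘ₗ e') g)
      simp only [det_cons] at hr'
      refine ⟨((∏ i, r i) * (Mx μ a g).det) * s, ev_mul (ev_mul ?_ hδ) hs, ?_⟩
      · rw [map_prod]
        exact Finset.prod_ne_zero_iff.2 fun i _ => hr i
      · rw [Submodule.mem_comap, map_smul, mul_smul, ← he, ← map_smul]
        refine map_mem e (pi_mem fun i => ?_)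
        obtain ⟨c, hc⟩ := Finset.dvd_prod_of_mem r (Finset.mem_univ i)
        have h3 := I.mul_mem_left c (hr' i)
        rw [hc, Pi.smul_apply, smul_eq_mul]
        refine (congrArg (· ∈ I) ?_).mp h3
        simp only [LinearMap.comp_apply, LinearMap.proj_apply]
        ring
  refine ⟨r, h1, fun x => ?_⟩
  have h3 := h2 x trivial
  rwa [Submodule.mem_comap, LinearMap.comp_apply, map_smul] at h3

end BlkA

open BlkA

theorem blk : BLK := by
  intro P A B _ _ _ _ _ _ _ _ _ _ _ _ z μ n b I hB hn hI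
  obtain ⟨a, g, hδ⟩ := exists_minor μ hB hn
  obtain ⟨r, hr, hκ⟩ := unif μ a g hB hδ hI
  have hδ' : z (r * (Mx μ a g).det) ≠ 0 := ev_mul hr hδ
  have hg : ∀ (h : Module.Dual P B) x, (r • pB μ a g h) (μ x) ∈ I := fun h x => by
    have h1 := dual_mem h (hκ x)
    rwa [map_smul, map_smul, ← pB_eq] at h1
  refine ⟨fun J _ x hx => ⟨_, _, hδ', hκ x, ?_⟩, fun J _ h hh => ⟨_, _, hδ', hg h, fun y => ?_⟩,
    fun J _ κ h _ hJ hh => ⟨1, ev_one, ?_⟩, fun n' hn' a' g' => ?_⟩
  · rw [pA_apply, mul_smul, ← smul_sub, sub_sub_cancel]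
    exact Submodule.smul_mem _ _ (Submodule.sum_mem _ fun u _ => Submodule.smul_mem_smul
      (J.sum_mem fun t _ => J.mul_mem_right _ (dual_mem _ hx)) trivial)
  · rw [LinearMap.smul_apply, pB_apply, smul_eq_mul, mul_assoc, ← mul_sub, sub_sub_cancel]
    exact J.mul_mem_left _ (J.sum_mem fun t _ => J.mul_mem_right _
      (J.sum_mem fun u _ => J.mul_mem_left _ (hh _)))
  · rw [one_mul]
    exact Submodule.smul_induction_on hJ (fun s hs y _ => by
      rw [map_smul, map_smul]; exact Ideal.mul_mem_mul hs (hh y)) fun x y hx hy => by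
      rw [map_add, map_add]; exact Ideal.add_mem _ hx hy
  · refine ⟨((r * (Mx μ a g).det) ^ 2) ^ Fintype.card (Fin n'), ev_pow (ev_pow hδ' 2) _, ?_⟩
    set L : Ideal P := Ideal.span {f | ∃ (κ : A) (g' : Module.Dual P B),
      μ κ ∈ I • (⊤ : Submodule P B) ∧ (∀ a, g' (μ a) ∈ I) ∧ f = g' (μ κ)} with hL
    have h1 : ∀ (h : Module.Dual P B) x, (r * (Mx μ a g).det) ^ 2 * h (μ x) -
        ∑ u, (r ^ 2 * (Mx μ a g).det * cA μ a g x u) * h (μ (a u)) ∈ L := fun h x => by
      have h2 : (r • pB μ a g h) (μ (r • pA μ a g x)) ∈ L :=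
        Ideal.subset_span ⟨_, _, hκ x, hg h, rfl⟩
      refine (congrArg (· ∈ L) ?_).mp h2
      rw [LinearMap.smul_apply, map_smul, map_smul, pB_apply]
      simp only [g_pA, mul_zero, Finset.sum_const_zero, sub_zero, h_pA, smul_eq_mul, mul_assoc,
        ← Finset.mul_sum]
      ring
    rw [← Ideal.Quotient.eq_zero_iff_mem, ← Matrix.det_smul,
      RingHom.map_det, ← det_thru hn'
        (Matrix.of fun v u => Ideal.Quotient.mk L (r ^ 2 * (Mx μ a g).det * cA μ a g (a' v) u))
        (Matrix.of fun u t => Ideal.Quotient.mk L (g' t (μ (a u))))]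
    congr 1
    ext v t
    have h3 := Ideal.Quotient.eq.2 (h1 (g' t) (a' v))
    rw [map_sum] at h3
    simp only [Matrix.mul_apply, Matrix.of_apply, ← map_mul]
    exact h3

end Vale.Agent.P297Z.Qt
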