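import Vale.Agent.P297Z.Quot.Sk
import Vale.Agent.P297Z.Dim.Pt

/-!
# P297: the numerical invariants are locally constant on the Quot space
-/

set_option linter.all false

open scoped TensorProduct
open Filter

noncomputable section

namespace Vale.Agent.P297Z.Qt

open Dim

theorem cut_rank {R A : Type} [CommRing R] [Algebra ℂ R] [IsDomain R] [AddCommGroup A] [Module R A]
    {z z' : R →ₐ[ℂ] ℂ} {m n : ℕ} (h : FreeAt z A m) (h' : FreeAt z' A n) : m = n :=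
  le_antisymm (h.rank_le h') (h'.rank_le h)

theorem cut_avoid {X : Spc} {T : Set (Ideal X.R)} (hT : T.Finite) {z : X.Pt}
    (h : ∀ p ∈ T, z ∉ zer X p) : ∃ a, z.1 a ≠ 0 ∧ ∀ p ∈ T, a ∈ p := by
  have hp := (ker_isMaximal z.1).isPrime
  have : ¬hT.toFinset.inf id ≤ RingHom.ker z.1 := fun h1 => by
    obtain ⟨q, hq, h2⟩ := hp.inf_le'.1 h1
    exact h q (hT.mem_toFinset.1 hq) fun r hr => h2 hr
  obtain ⟨a, ha, ha'⟩ := SetLike.not_le_iff_exists.1 this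
  exact ⟨a, ha', fun p hp => Finset.inf_le (f := id) (hT.mem_toFinset.2 hp) ha⟩

/-- a set that is a union of components -/
theorem cut_comp {X : Spc} {I : Ideal X.R} (hI : ∀ g, ∀ r ∈ I, X.act g r ∈ I) {Z : Set X.Pt}
    (h0 : Z ⊆ zer X I)
    (h : ∀ p ∈ I.minimalPrimes, ∀ z ∈ Z, z ∈ zer X p → zer X p ⊆ Z) :
    X.Stab Z ∧ X.Clo Z ∧ ∀ z, z ∉ Z → ∃ a, z.1 a ≠ 0 ∧ ∀ z' ∈ Z, ∃ r, z'.1 r ≠ 0 ∧ r * a ∈ I := by
  have h3 : ∀ z, z ∉ Z → ∃ a, z.1 a ≠ 0 ∧ ∀ z' ∈ Z, ∃ r, z'.1 r ≠ 0 ∧ r * a ∈ I := by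
    intro z hz
    obtain ⟨N, hN⟩ := Ideal.exists_radical_pow_le_of_fg I (IsNoetherian.noetherian _)
    obtain ⟨a, ha, ha'⟩ := cut_avoid (z := z) ((finite_comp I).subset
      (Set.sep_subset _ fun p => zer X p ⊆ Z)) fun p hp h1 => hz (hp.2 h1)
    refine ⟨a ^ N, by rw [map_pow]; exact pow_ne_zero _ ha, fun z' hz' => ?_⟩
    obtain ⟨r, hr, hr'⟩ := cut_avoid (z := z') ((finite_comp I).subset
      (Set.sep_subset _ fun p => ¬zer X p ⊆ Z)) fun p hp h1 => hp.2 (h p hp.1 z' hz' h1)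
    refine ⟨r ^ N, by rw [map_pow]; exact pow_ne_zero _ hr, hN ?_⟩
    rw [← mul_pow]
    refine Ideal.pow_mem_pow ?_ N
    rw [← Ideal.sInf_minimalPrimes]
    refine Ideal.mem_sInf.2 fun {q} hq => ?_
    by_cases e : zer X q ⊆ Z
    · exact q.mul_mem_left _ (ha' q ⟨hq, e⟩)
    · exact q.mul_mem_right _ (hr' q ⟨hq, e⟩)
  refine ⟨fun z hz z' ho => ?_, fun z hz => ?_, h3⟩
  · have := ker_isMaximal z.1
    obtain ⟨p, hp, h1⟩ := Ideal.exists_minimalPrimes_le (I := I) (J := RingHom.ker z.1) (h0 hz)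
    exact h p hp z hz h1 (stab_zer (stab_min hI hp) z h1 z' ho)
  · by_contra o
    obtain ⟨a, ha, h1⟩ := h3 z o
    refine ha (hz a fun z' hz' => ?_)
    obtain ⟨r, hr, h2⟩ := h1 z' hz'
    exact (mul_eq_zero.1 ((map_mul z'.1 r a).symm.trans (h0 hz' _ h2))).resolve_left hr

theorem cut : CUT := by
  intro hFBK hFLB hFAM hHB hBAS hKOSP hEXK hH1 hPTS hKX Y S D hD
  have bas := hBAS Y S
  have pts := hPTS hBAS Y S D hD
  have kx := hKX hBAS hKOSP hEXK hH1 hPTS Y S D hD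
  have key : ∀ (W : Spc) (c : D.Crd W), IsDomain W.R → (∀ z, D.Pt (c.cz z)) → ∀ z z',
      D.hd (c.cz z) = D.hd (c.cz z') ∧ ∀ b, D.tau b (c.cz z) = D.tau b (c.cz z') := by
    intro W c hW hc z z'
    have fm := hFAM hFBK hFLB hBAS W Y S D c fun z => pts.reg _ (hc z)
    have h1 : ∀ z, FreeAt z.1 (S.pc (c.K1.hom c.F) 0).M (D.hd (c.cz z)) := fun z => by
      obtain ⟨εH, -, -, h⟩ := hHB hFBK hBAS W Y S z c.K1 c.F _ _ _ _ (fm.fK z) (fm.fF z)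
      exact (h 0 ((kx _ (hc z)).extH 0 le_rfl)).2
    have h2 : ∀ (B : Bun Y) z, ∀ᶠ k in atTop,
        FreeAt z.1 (S.pc (((Mor.snd W Y).pull B.M).hom c.F) k).M
          (Module.finrank ℂ ((B.M.hom (D.F0 (c.cz z))).wt (dg Y k))) := fun B z => by
      obtain ⟨εH, -, -, h⟩ := hHB hFBK hBAS W Y S z _ c.F _ _ _ _
        ((hFBK hBAS W Y S z).pull B.M) (fm.fF z)
      exact (bas.ext_ev B.M _ fun y => ⟨_, B.free y⟩).mono fun k hk => (h k hk).2
    have h3 : ∀ B : Bun Y, D.tau (dualK Y B.cls) (c.cz z) = D.tau (dualK Y B.cls) (c.cz z') := by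
      intro B
      rw [Dat.tau, Dat.tau, ← kc_bun, ← cls_hom B.free, ← cls_hom B.free]
      exact bas.chi _ _ (((h2 B z).and (h2 B z')).mono fun k hk => cut_rank hk.1 hk.2)
    refine ⟨cut_rank (h1 z) (h1 z'), fun b => ?_⟩
    obtain ⟨B₀, B₁, e⟩ := K0_induction (dualK Y b)
    have h4 : ∀ q, D.tau b q = D.tau (dualK Y B₀.cls) q - D.tau (dualK Y B₁.cls) q := fun q => by
      rw [← dualK_dualK b, e, map_sub, Dat.tau, Dat.tau, Dat.tau, map_sub, AddMonoidHom.sub_apply,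
        map_sub]
    rw [h4, h4, h3, h3]
  refine ⟨key, fun Z hZ => cut_comp pts.stabI hZ.sub fun p hp z hz h1 z' h2 => ?_⟩
  have hpp := hp.1.1
  have hs : D.Pol.Stab (zer D.Pol p) := stab_zer (stab_min pts.stabI hp)
  have hv := van_zer_prime (not_b_le h1)
  have hsub : zer D.Pol p ⊆ D.VI := zer_anti hp.1.2
  have hdom : IsDomain (D.Pol.sub _ hs).R := by
    change IsDomain (D.Pol.R ⧸ D.Pol.van (zer D.Pol p))
    rw [hv]
    infer_instance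
  have hc : ∀ w, D.Pt ((D.crd.pull (Mor.incl _ _ hs)).cz w) := fun w =>
    (pts.mem ((Mor.incl _ _ hs).onPt w)).1 (hsub fun r hr =>
      (congrArg w.1 (Ideal.Quotient.eq_zero_iff_mem.2 (le_van_zer hr))).trans (map_zero _))
  have hk := key _ _ hdom hc
    ⟨Ideal.Quotient.liftₐ _ z'.1 (subset_zer_van h2), (Spc.sub_pt _ _ hs _).2 z'.2⟩
    ⟨Ideal.Quotient.liftₐ _ z.1 (subset_zer_van h1), (Spc.sub_pt _ _ hs _).2 z.2⟩
  exact hZ.num z hz z' (hsub h2) hk.1 hk.2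

end Vale.Agent.P297Z.Qt
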