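import Vale.Agent.P297Z.Quot.Plk2

/-!
# P297: dual numbers, the first order expansion, the cone over the Grassmannian
-/

set_option linter.all false

noncomputable section

namespace Vale.Agent.P297Z.Plk

open Matrix MvPolynomial TrivSqZeroExt

section taylor

variable {k L ι : Type} [CommRing k] [CommRing L] [Algebra k L] [Fintype ι] [DecidableEq ι]

theorem taylor (α σ : MvPolynomial ι k →ₐ[k] L) (H : Ideal L) (h : ∀ J, α (X J) - σ (X J) ∈ H)
    (f : MvPolynomial ι k) :
    α f - σ f - ∑ J, (α (X J) - σ (X J)) * α (pderiv J f) ∈ H * H := by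
  induction f using MvPolynomial.induction_on with
  | C c => simp
  | add p q hp hq =>
    have e : α (p + q) - σ (p + q) - ∑ J, (α (X J) - σ (X J)) * α (pderiv J (p + q)) =
        (α p - σ p - ∑ J, (α (X J) - σ (X J)) * α (pderiv J p)) +
        (α q - σ q - ∑ J, (α (X J) - σ (X J)) * α (pderiv J q)) := by
      simp only [map_add, mul_add, Finset.sum_add_distrib]
      ring
    rw [e]
    exact add_mem hp hq
  | mul_X p j hp =>
    have h1 : α p - σ p ∈ H := by
      have := add_mem (Ideal.mul_le_right hp)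
        (H.sum_mem (t := Finset.univ) fun J _ => H.mul_mem_right (α (pderiv J p)) (h J))
      rwa [sub_add_cancel] at this
    have h2 : ∑ J, (α (X J) - σ (X J)) * α (pderiv J (p * X j)) =
        α (X j) * ∑ J, (α (X J) - σ (X J)) * α (pderiv J p) + (α (X j) - σ (X j)) * α p := by
      have h3 : ∀ J, (α (X J) - σ (X J)) * α (pderiv J (p * X j)) =
          α (X j) * ((α (X J) - σ (X J)) * α (pderiv J p)) +
            if J = j then (α (X j) - σ (X j)) * α p else 0 := fun J => by
        rw [pderiv_mul]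
        split_ifs with e
        · subst e
          simp only [pderiv_X_self, map_add, map_mul, map_one]
          ring
        · simp only [pderiv_X_of_ne (Ne.symm e), map_add, map_mul, map_zero]
          ring
      simp only [h3, Finset.sum_add_distrib, ← Finset.mul_sum, Finset.sum_ite_eq', Finset.mem_univ,
        if_true]
    have e : α (p * X j) - σ (p * X j) - ∑ J, (α (X J) - σ (X J)) * α (pderiv J (p * X j)) =
        α (X j) * (α p - σ p - ∑ J, (α (X J) - σ (X J)) * α (pderiv J p)) -
          (α (X j) - σ (X j)) * (α p - σ p) := by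
      rw [h2, map_mul, map_mul]
      ring
    rw [e]
    exact sub_mem (Ideal.mul_mem_left _ _ hp) (Ideal.mul_mem_mul (h j) h1)

end taylor

variable {r : ℕ} {B : Type}

theorem mem_map_of_pderiv [Fintype B] [DecidableEq B] {k L : Type} [CommRing k] [CommRing L]
    [Algebra k L] (α : MvPolynomial (Fin r → B) k →ₐ[k] L) (J₀ : Fin r → B) {s : L}
    (hs : s * α (X J₀) = 1) {m : Ideal (MvPolynomial (Fin r → B) k)} (hm : IPl k r B ≤ m)
    {a : MvPolynomial (Fin r → B) k} (ha : a ∈ IPl k r B) (hd : ∀ J, pderiv J a ∈ m) :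
    α a ∈ (m * IPl k r B).map α := by
  let σ := (back (k := k) (fun J => α (X J)) J₀ s).comp (gr k J₀)
  obtain ⟨H, hH⟩ : ∃ H : Ideal L, H = (IPl k r B).map α := ⟨_, rfl⟩
  let π : L →ₐ[k] L ⧸ H := Ideal.Quotient.mkₐ k H
  have h1 : Rel fun J => π (α (X J)) := (le_ker_iff (π.comp α).toRingHom).1 fun f hf =>
    Ideal.Quotient.eq_zero_iff_mem.2 (hH ▸ Ideal.mem_map_of_mem _ hf)
  have h2 : π.comp (back (fun J => α (X J)) J₀ s) = back (fun J => π (α (X J))) J₀ (π s) := by
    ext1 o
    cases o <;> simp [back, vc]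
  have h3 : ∀ J, α (X J) - σ (X J) ∈ H := fun J => by
    refine Ideal.Quotient.eq.1 ?_
    have := back_gr (k := k) h1 (J := J₀) (s := π s) (by rw [← map_mul, hs, map_one]) (X J)
    rw [← h2, aeval_X] at this
    exact this.symm
  have h4 := taylor α σ H h3 a
  have h5 : σ a = 0 := (congrArg (back (k := k) (fun J => α (X J)) J₀ s) (gr_IPl J₀ a ha)).trans
    (map_zero _)
  have h6 : H ≤ m.map α := hH ▸ Ideal.map_mono hm
  have h7 : ∀ J, (α (X J) - σ (X J)) * α (pderiv J a) ∈ m.map α * H := fun J =>
    Ideal.mul_mem_mul_rev (Ideal.mem_map_of_mem α (hd J)) (h3 J)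
  have h8 := add_mem (Ideal.mul_mono_left h6 h4)
    (Ideal.sum_mem (m.map α * H) (t := Finset.univ) fun J _ => h7 J)
  rwa [sub_add_cancel, h5, sub_zero, hH, ← Ideal.map_mul] at h8

theorem mem_mul_of_pderiv [Fintype B] [DecidableEq B] {k : Type} [CommRing k] (J₀ : Fin r → B)
    {m : Ideal (MvPolynomial (Fin r → B) k)} (hm : IPl k r B ≤ m) {a : MvPolynomial (Fin r → B) k}
    (ha : a ∈ IPl k r B) (hd : ∀ J, pderiv J a ∈ m) : ∃ n : ℕ, X J₀ ^ n * a ∈ m * IPl k r B := by
  let P := MvPolynomial (Fin r → B) k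
  let L := Localization.Away (X J₀ : P)
  have h := mem_map_of_pderiv (IsScalarTower.toAlgHom k P L) J₀
    ((mul_comm _ _).trans (IsLocalization.Away.mul_invSelf (X J₀ : P))) hm ha hd
  obtain ⟨_, ⟨n, rfl⟩, hn⟩ := (IsLocalization.algebraMap_mem_map_algebraMap_iff
    (Submonoid.powers (X J₀ : P)) L _ a).1 h
  exact ⟨n, hn⟩

theorem det_eq_zero_of_fac {A : Type} [CommRing A] (N : Fin (r + 1) → Fin r → A)
    (V : Fin r → Fin (r + 1) → A) : (Matrix.of fun u t => ∑ a, N u a * V a t).det = 0 := by
  have e : (Matrix.of fun u t => ∑ a, N u a * V a t) =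
      (Matrix.of fun u a => Fin.cases (0 : A) (N u) a : Matrix (Fin (r + 1)) (Fin (r + 1)) A) *
      (Matrix.of fun a t => Fin.cases (0 : A) (fun a => V a t) a :
        Matrix (Fin (r + 1)) (Fin (r + 1)) A) := by
    ext u t
    simp [Matrix.mul_apply, Fin.sum_univ_succ]
  rw [e, det_mul, det_eq_zero_of_column_eq_zero (j := 0) fun _ => rfl, zero_mul]

theorem minor_mem {k : Type} [CommRing k] (J₀ : Fin r → B)
    (s : Fin (r + 1) → (Fin r → B) × Fin r) (i : Fin (r + 1) → B) : ∃ n : ℕ, X J₀ ^ n *
      (Matrix.of fun u t => vc X (s u).1 (s u).2 (i t)).det ∈ IPl k r B := by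
  refine pow_mul_mem ?_
  rw [AlgHom.map_det, ← det_eq_zero_of_fac
    (fun u a => ((X none : MvPolynomial (Co J₀) k) • (cols (uJ k J₀) (s u).1).adjugate) (s u).2 a)
    fun a t => uJ k J₀ a (i t)]
  congr 1
  ext1 u t
  exact (gr_X J₀ _).trans (vc_plk _ _ _ _ _)

section dual

variable {k : Type} [CommRing k]

/-- the dual number `a + b ε` -/
def dn (a b : k) : DualNumber k := ⟨a, b⟩

@[simp] theorem fst_dn (a b : k) : fst (dn a b) = a := rfl

@[simp] theorem snd_dn (a b : k) : snd (dn a b) = b := rfl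

theorem snd_prod {ι : Type} [DecidableEq ι] (s : Finset ι) (x : ι → DualNumber k) :
    snd (∏ i ∈ s, x i) = ∑ c ∈ s, snd (x c) * ∏ j ∈ s.erase c, fst (x j) := by
  induction s using Finset.induction_on with
  | empty => simp
  | insert a t ha ih =>
    rw [Finset.prod_insert ha, Finset.sum_insert ha, DualNumber.snd_mul, ih, Finset.erase_insert ha,
      Finset.mul_sum, add_comm]
    congr 1
    · exact congrArg _ (map_prod (fstHom k k k) x t)
    · refine Finset.sum_congr rfl fun c hc => ?_
      rw [Finset.erase_insert_of_ne fun e : a = c => ha (e ▸ hc),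
        Finset.prod_insert fun h => ha (Finset.mem_of_mem_erase h), mul_left_comm]

theorem snd_det (M : Matrix (Fin r) (Fin r) (DualNumber k)) :
    snd M.det = ∑ c, ((M.map fst).updateCol c fun a => snd (M a c)).det := by
  simp only [det_apply', snd_sum]
  rw [Finset.sum_comm]
  refine Finset.sum_congr rfl fun σ _ => ?_
  rw [DualNumber.snd_mul, snd_prod, ← Finset.mul_sum]
  simp only [snd_intCast, zero_mul, add_zero, fst_intCast]
  refine congrArg _ (Finset.sum_congr rfl fun c _ => ?_)
  rw [← Finset.mul_prod_erase _ _ (Finset.mem_univ c), updateCol_self]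
  exact congrArg _ (Finset.prod_congr rfl fun j hj => by
    rw [updateCol_ne (Finset.ne_of_mem_erase hj), map_apply])

theorem fst_plk (U : Fin r → B → DualNumber k) (J : Fin r → B) :
    fst (plk U J) = plk (fun a i => fst (U a i)) J := plk_map (fstHom k k k).toRingHom U J

theorem snd_plk (U : Fin r → B → DualNumber k) (J : Fin r → B) :
    snd (plk U J) =
      ∑ c, ∑ a, (cols (fun a i => fst (U a i)) J).adjugate c a * snd (U a (J c)) := by
  rw [plk, snd_det]
  refine Finset.sum_congr rfl fun c _ => ?_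
  rw [← cramer_apply, cramer_eq_adjugate_mulVec]
  rfl

/-- the derivative of the coordinates -/
theorem snd_mul_plk (c₀ t : k) (u : Fin r → B → k) (φ : (B → k) →ₗ[k] (B → k)) (J : Fin r → B) :
    snd (dn c₀ (t * c₀) * plk (fun a i => dn (u a i) (φ (u a) i)) J) =
      t * (c₀ * plk u J) + ∑ c, φ (vc (fun J => c₀ * plk u J) J c) (J c) := by
  rw [DualNumber.snd_mul, fst_plk, snd_plk, add_comm, Finset.mul_sum]
  refine congrArg₂ (· + ·) (mul_assoc _ _ _) (Finset.sum_congr rfl fun c _ => ?_)
  have h : vc (fun J => c₀ * plk u J) J c = ∑ a, (c₀ • (cols u J).adjugate) c a • u a :=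
    funext fun i => by rw [vc_plk, Finset.sum_apply]; rfl
  rw [h, map_sum, Finset.sum_apply, Finset.mul_sum]
  refine Finset.sum_congr rfl fun a _ => ?_
  rw [map_smul]
  exact (mul_assoc _ _ _).symm

theorem vc_dual (T : DualNumber k) (u : Fin r → B → k) (φ : (B → k) →ₗ[k] (B → k))
    (J : Fin r → B) (c : Fin r) : ∃ n : Fin r → k,
    vc (fun J => snd (T * plk (fun a i => dn (u a i) (φ (u a) i)) J)) J c -
      φ (vc (fun J => fst T * plk u J) J c) = ∑ a, n a • u a := by
  let U : Fin r → B → DualNumber k := fun a i => dn (u a i) (φ (u a) i)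
  let N : Fin r → DualNumber k := fun a => (T • (cols U J).adjugate) c a
  have h1 : ∀ i, vc (fun J => T * plk U J) J c i = ∑ a, N a * U a i := vc_plk T U J c
  have h2 : vc (fun J => fst T * plk u J) J c = ∑ a, fst (N a) • u a := funext fun i => by
    have := congrArg fst (h1 i)
    rw [fst_sum] at this
    rw [Finset.sum_apply]
    exact ((fst_mul _ _).trans (congrArg _ (fst_plk U _))).symm.trans this
  refine ⟨fun a => snd (N a), funext fun i => ?_⟩
  have h3 := congrArg snd (h1 i)
  rw [snd_sum] at h3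
  rw [h2, map_sum, Pi.sub_apply, Finset.sum_apply, Finset.sum_apply, sub_eq_iff_eq_add,
    ← Finset.sum_add_distrib]
  refine h3.trans (Finset.sum_congr rfl fun a _ => ?_)
  rw [DualNumber.snd_mul, map_smul, add_comm]
  rfl

theorem aeval_dual {ι : Type} [Fintype ι] [DecidableEq ι] (q τ : ι → k) (a : MvPolynomial ι k) :
    aeval (fun J => dn (q J) (τ J)) a =
      dn (eval q a) (∑ J, τ J * eval q (pderiv J a)) := by
  induction a using MvPolynomial.induction_on with
  | C c => exact (aeval_C _ c).trans (TrivSqZeroExt.ext (by simp [algebraMap_eq_inl])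
      (by simp [algebraMap_eq_inl]))
  | add p q hp hq =>
    rw [map_add, hp, hq]
    exact TrivSqZeroExt.ext (by simp) (by simp [mul_add, Finset.sum_add_distrib])
  | mul_X p j hp =>
    rw [map_mul, hp, aeval_X]
    refine TrivSqZeroExt.ext (by simp) ?_
    rw [DualNumber.snd_mul]
    have h3 : ∀ J, τ J * eval q (pderiv J (p * X j)) = τ J * eval q (pderiv J p) * q j +
        if J = j then eval q p * τ j else 0 := fun J => by
      rw [pderiv_mul]
      split_ifs with e
      · subst e
        simp only [pderiv_X_self, map_add, map_mul, map_one, eval_X]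
        ring
      · simp only [pderiv_X_of_ne (Ne.symm e), map_add, map_mul, map_zero, eval_X]
        ring
    simp only [snd_dn, fst_dn, h3, Finset.sum_add_distrib, Finset.sum_ite_eq', Finset.mem_univ,
      if_true, Finset.sum_mul]
    ring

theorem rel_dual_iff [Fintype B] [DecidableEq B] {q : (Fin r → B) → k} (h : Rel q)
    (τ : (Fin r → B) → k) : (∀ a ∈ IPl k r B, ∑ J, τ J * eval q (pderiv J a) = 0) ↔
      Rel fun J => dn (q J) (τ J) := by
  have h1 : ∀ a ∈ IPl k r B, eval q a = 0 := (le_ker_iff (eval q)).2 (by simpa using h)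
  have h2 := le_ker_iff (k := k)
    (aeval fun J => dn (q J) (τ J) : _ →ₐ[k] DualNumber k).toRingHom
  simp only [AlgHom.toRingHom_eq_coe, RingHom.coe_coe, aeval_X] at h2
  rw [← h2]
  refine forall₂_congr fun a ha => ?_
  rw [aeval_dual, h1 a ha]
  exact ⟨fun e => TrivSqZeroExt.ext rfl e, fun e => congrArg snd e⟩

end dual

end Vale.Agent.P297Z.Plk
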