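import Vale.Agent.P297Z.Quot.Sk
import Vale.Agent.P297Z.Quot.Grt1

/-!
# P297: the infinitesimal structure of the cone over the Grassmannian
-/

set_option linter.all false

noncomputable section

namespace Vale.Agent.P297Z.Plk

open Matrix MvPolynomial TrivSqZeroExt

variable {r : ℕ} {B : Type} {q τ : (Fin r → B) → ℂ} {J₀ : Fin r → B}

theorem fst_mul_plk (T : DualNumber ℂ) (U : Fin r → B → DualNumber ℂ) (J : Fin r → B) :
    fst (T * plk U J) = fst T * plk (fun a i => fst (U a i)) J := by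
  rw [fst_mul, fst_plk]

theorem dual_chart (h : Rel fun J => dn (q J) (τ J)) (hJ : q J₀ ≠ 0) :
    ∃ u u₁ : Fin r → B → ℂ, cols u J₀ = 1 ∧ cols u₁ J₀ = 0 ∧ (∀ J, q J = q J₀ * plk u J) ∧
      (∀ J, τ J = snd (dn (q J₀) (τ J₀) * plk (fun a i => dn (u a i) (u₁ a i)) J)) ∧
      ∀ c, u₁ c = (q J₀)⁻¹ • vc τ J₀ c - ((q J₀)⁻¹ ^ 2 * τ J₀) • vc q J₀ c := by
  let s : DualNumber ℂ := dn (q J₀)⁻¹ (-((q J₀)⁻¹ ^ 2 * τ J₀))
  have hs : s * dn (q J₀) (τ J₀) = 1 := TrivSqZeroExt.ext (inv_mul_cancel₀ hJ) (by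
    rw [DualNumber.snd_mul]
    simp only [s, fst_dn, snd_dn, snd_one]
    field_simp
    ring)
  have h1 := h.cols_eq hs
  have h2 := h.eq_plk hs
  refine ⟨fun c i => fst (s * vc (fun J => dn (q J) (τ J)) J₀ c i),
    fun c i => snd (s * vc (fun J => dn (q J) (τ J)) J₀ c i), ?_, ?_, fun J => ?_,
    fun J => congrArg snd (h2 J), fun c => funext fun i => ?_⟩
  · ext a b
    refine (congrArg fst (congrFun (congrFun h1 a) b)).trans ?_
    rw [one_apply, one_apply]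
    split_ifs <;> rfl
  · ext a b
    refine (congrArg snd (congrFun (congrFun h1 a) b)).trans ?_
    rw [one_apply]
    split_ifs <;> rfl
  · exact (congrArg fst (h2 J)).trans (fst_mul_plk _ _ J)
  · refine (DualNumber.snd_mul _ _).trans ?_
    simp only [s, vc, fst_dn, snd_dn, Pi.sub_apply, Pi.smul_apply, smul_eq_mul]
    ring

theorem snd_of_zero (c t : ℂ) (u : Fin r → B → ℂ) (J : Fin r → B) :
    snd (dn c t * plk (fun a i => dn (u a i) 0) J) = t * plk u J := by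
  rw [DualNumber.snd_mul, snd_plk, fst_plk]
  simp

theorem sub_of_cols {u : Fin r → B → ℂ} (hu : cols u J₀ = 1) (hJ : q J₀ ≠ 0)
    (h : ∀ J, q J = q J₀ * plk u J) : sub q = Submodule.span ℂ (Set.range u) := by
  rw [funext h]
  exact sub_plk hJ (linInd_of_plk (J := J₀) (by rw [plk, hu, det_one]; exact one_ne_zero))

theorem eq_zero_of_mem {u : Fin r → B → ℂ} (hu : cols u J₀ = 1) {v : B → ℂ}
    (hv : v ∈ Submodule.span ℂ (Set.range u)) (h : ∀ b, v (J₀ b) = 0) : v = 0 := by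
  obtain ⟨n, rfl⟩ := (Submodule.mem_span_range_iff_exists_fun ℂ).1 hv
  refine Finset.sum_eq_zero fun b _ => ?_
  have h1 := h b
  have h2 : ∀ a, u a (J₀ b) = (1 : Matrix (Fin r) (Fin r) ℂ) a b := fun a =>
    congrFun (congrFun hu a) b
  simp only [Finset.sum_apply, Pi.smul_apply, h2, one_apply, smul_eq_mul, mul_ite, mul_one,
    mul_zero, Finset.sum_ite_eq', Finset.mem_univ, if_true] at h1
  rw [h1, zero_smul]

theorem vc_mem_sub (q : (Fin r → B) → ℂ) (J : Fin r → B) (c : Fin r) : vc q J c ∈ sub q :=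
  Submodule.subset_span ⟨J, c, rfl⟩

theorem tan_two (h : Rel q) (hJ : q J₀ ≠ 0) (t : ℂ) (φ : (B → ℂ) →ₗ[ℂ] (B → ℂ))
    (e : ∀ J, τ J = t * q J + ∑ c, φ (vc q J c) (J c)) :
    (Rel fun J => dn (q J) (τ J)) ∧ ∀ J c, vc τ J c - φ (vc q J c) ∈ sub q := by
  obtain ⟨u, -, h2, h3⟩ := h.exists_plk hJ
  have h4 := sub_of_cols h2 hJ h3
  obtain ⟨c₀, hc⟩ : ∃ c₀, c₀ = q J₀ := ⟨_, rfl⟩
  rw [← hc] at h3
  obtain rfl : q = fun J => c₀ * plk u J := funext h3
  obtain rfl : τ = fun J => snd (dn c₀ (t * c₀) *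
      plk (fun a i => dn (u a i) (φ (u a) i)) J) := funext fun J => by rw [snd_mul_plk, e]
  refine ⟨?_, fun J c => ?_⟩
  · have : (fun J => dn (c₀ * plk u J) (snd (dn c₀ (t * c₀) *
        plk (fun a i => dn (u a i) (φ (u a) i)) J))) = fun J => dn c₀ (t * c₀) *
        plk (fun a i => dn (u a i) (φ (u a) i)) J := funext fun J =>
      TrivSqZeroExt.ext
        (fst_mul_plk (dn c₀ (t * c₀)) (fun a i => dn (u a i) (φ (u a) i)) J).symm rfl
    rw [this]
    exact rel_plk _ _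
  · obtain ⟨n, hn⟩ := vc_dual (dn c₀ (t * c₀)) u φ J c
    rw [h4]
    exact hn ▸ Submodule.sum_mem _ fun a _ =>
      Submodule.smul_mem _ _ (Submodule.subset_span ⟨a, rfl⟩)

theorem tan_one (h : Rel fun J => dn (q J) (τ J)) (hJ : q J₀ ≠ 0) :
    ∃ (t : ℂ) (φ : (B → ℂ) →ₗ[ℂ] (B → ℂ)), ∀ J, τ J = t * q J + ∑ c, φ (vc q J c) (J c) := by
  obtain ⟨u, u₁, h1, -, h3, h4, -⟩ := dual_chart h hJ
  let φ : (B → ℂ) →ₗ[ℂ] (B → ℂ) := Fintype.linearCombination ℂ u₁ ∘ₗ LinearMap.funLeft ℂ ℂ J₀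
  have h5 : ∀ a, φ (u a) = u₁ a := fun a => by
    have : LinearMap.funLeft ℂ ℂ J₀ (u a) = Pi.single a 1 := funext fun b =>
      (congrFun (congrFun h1 a) b).trans (by rw [one_apply, Pi.single_apply]; simp only [eq_comm])
    show Fintype.linearCombination ℂ u₁ _ = _
    rw [this, Fintype.linearCombination_apply_single, one_smul]
  refine ⟨τ J₀ * (q J₀)⁻¹, φ, fun J => ?_⟩
  have h6 := snd_mul_plk (q J₀) (τ J₀ * (q J₀)⁻¹) u φ J
  rw [← funext h3, ← h3, inv_mul_cancel_right₀ hJ] at h6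
  simp only [h5] at h6
  rw [← h6, ← h4]

theorem tan_rad (h : Rel fun J => dn (q J) (τ J)) (hJ : q J₀ ≠ 0) (hv : ∀ c, vc τ J₀ c ∈ sub q) :
    ∀ J, τ J = τ J₀ * (q J₀)⁻¹ * q J := by
  obtain ⟨u, u₁, h1, h2, h3, h4, h5⟩ := dual_chart h hJ
  obtain rfl : u₁ = 0 := funext fun c => eq_zero_of_mem h1 (by
    rw [← sub_of_cols h1 hJ h3, h5]
    exact sub_mem (Submodule.smul_mem _ _ (hv c)) (Submodule.smul_mem _ _ (vc_mem_sub _ _ _)))
    fun b => congrFun (congrFun h2 c) b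
  intro J
  rw [h4 J, h3 J, mul_assoc, inv_mul_cancel_left₀ hJ]
  exact snd_of_zero _ _ u J

/-- the free coordinates of a chart -/
def chart (J₀ : Fin r → B) : ((Fin r → B) → ℂ) →ₗ[ℂ] (Co J₀ → ℂ) :=
  LinearMap.funLeft ℂ ℂ fun o : Co J₀ => o.elim J₀ fun p => Function.update J₀ p.1 p.2.1

theorem chart_inj (h : Rel fun J => dn (q J) (τ J)) (hJ : q J₀ ≠ 0) (h0 : chart J₀ τ = 0) :
    τ = 0 := by
  have h1 : τ J₀ = 0 := congrFun h0 none
  have hu : IsUnit (dn (q J₀) (τ J₀)) := isUnit_iff_isUnit_fst.2 hJ.isUnit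
  have h2 : ∀ c, vc τ J₀ c = 0 := fun c => funext fun i => by
    by_cases hi : i ∈ Set.range J₀
    · obtain ⟨b, rfl⟩ := hi
      by_cases hb : c = b
      · rw [← hb, vc_self, h1]
        rfl
      · exact congrArg snd (h.vc_ne hu hb)
    · exact congrFun h0 (some (c, ⟨i, hi⟩))
  refine funext fun J => ?_
  rw [tan_rad h hJ (fun c => h2 c ▸ zero_mem _) J, h1, zero_mul, zero_mul]
  rfl

theorem chart_surj (h : Rel q) (hJ : q J₀ ≠ 0) (w : Co J₀ → ℂ) :
    ∃ τ : (Fin r → B) → ℂ, (Rel fun J => dn (q J) (τ J)) ∧ chart J₀ τ = w := by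
  classical
  obtain ⟨u, -, h2, h3⟩ := h.exists_plk hJ
  let u₁ : Fin r → B → ℂ := fun c i => if hi : i ∈ Set.range J₀ then 0 else
    (q J₀)⁻¹ * (w (some (c, ⟨i, hi⟩)) - w none * u c i)
  let U : Fin r → B → DualNumber ℂ := fun a i => dn (u a i) (u₁ a i)
  have h4 : cols U J₀ = 1 := by
    ext1 a b
    refine TrivSqZeroExt.ext ((congrFun (congrFun h2 a) b).trans ?_)
      ((dif_pos (Set.mem_range_self b)).trans ?_)
    · rw [one_apply, one_apply]
      split_ifs <;> rfl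
    · rw [one_apply]
      split_ifs <;> rfl
  refine ⟨fun J => snd (dn (q J₀) (w none) * plk U J), ?_, funext fun o => ?_⟩
  · have : (fun J => dn (q J) (snd (dn (q J₀) (w none) * plk U J))) =
        fun J => dn (q J₀) (w none) * plk U J := _root_.funext fun J =>
      TrivSqZeroExt.ext ((h3 J).trans (fst_mul_plk (dn (q J₀) (w none)) U J).symm) rfl
    rw [this]
    exact rel_plk _ _
  · rcases o with _ | ⟨c, i, hi⟩
    · show snd (dn (q J₀) (w none) * plk U J₀) = w none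
      rw [plk, h4, det_one, mul_one, snd_dn]
    · refine (congrArg snd (vc_of_cols h4 (dn (q J₀) (w none)) c i)).trans ?_
      rw [DualNumber.snd_mul]
      simp only [U, u₁, fst_dn, snd_dn, dif_neg hi]
      field_simp
      ring

theorem card_Co [Fintype B] [DecidableEq B] (hJ : Function.Injective J₀) :
    Fintype.card (Co J₀) + r * r = r * Fintype.card B + 1 := by
  have h1 : Fintype.card {i : B // i ∈ Set.range J₀} = r :=
    (Set.card_range_of_injective hJ).trans (Fintype.card_fin r)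
  have h2 : r ≤ Fintype.card B := h1 ▸ Fintype.card_subtype_le _
  rw [Fintype.card_option, Fintype.card_prod, Fintype.card_fin, Fintype.card_subtype_compl, h1,
    add_right_comm, ← mul_add, Nat.sub_add_cancel h2]

end Vale.Agent.P297Z.Plk

namespace Vale.Agent.P297Z.Qt

open Plk

theorem grt : GRT := by
  rintro r β _ _ q h ⟨J₀, hJ⟩
  have hT : ∀ τ, τ ∈ Tq (IPl ℂ r β) q ↔ Rel fun J => dn (q J) (τ J) := rel_dual_iff h
  have hX : ∀ n : ℕ, MvPolynomial.eval q (MvPolynomial.X J₀ ^ n) ≠ 0 := fun n => by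
    rw [map_pow, MvPolynomial.eval_X]
    exact pow_ne_zero n hJ
  refine ⟨fun a ha hd => ?_, fun τ hτ => ?_, fun t φ τ e => ?_, fun τ hτ hv => ?_, fun V hV => ?_,
    fun s i => ?_⟩
  · obtain ⟨n, hn⟩ := mem_mul_of_pderiv J₀ (m := RingHom.ker (MvPolynomial.eval q))
      ((le_ker_iff (MvPolynomial.eval q)).2 (by simpa using h)) ha hd
    exact ⟨_, hX n, hn⟩
  · obtain ⟨t, φ, e⟩ := tan_one ((hT τ).1 hτ) hJ
    exact ⟨t, φ, e, fun s => (tan_two h hJ t φ e).2 s.1 s.2⟩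
  · exact ⟨(hT τ).2 (tan_two h hJ t φ e).1, fun s => (tan_two h hJ t φ e).2 s.1 s.2⟩
  · exact ⟨_, tan_rad ((hT τ).1 hτ) hJ fun c => hv (J₀, c)⟩
  · have hm : ∀ τ, τ ∈ V ↔ Rel fun J => dn (q J) (τ J) := fun τ => by
      rw [← hT, ← hV]
      rfl
    rw [(LinearEquiv.ofBijective (chart J₀ ∘ₗ V.subtype) ⟨(injective_iff_map_eq_zero _).2
      fun τ h0 => Subtype.ext (chart_inj ((hm _).1 τ.2) hJ h0), fun w =>
      (chart_surj h hJ w).elim fun τ e => ⟨⟨τ, (hm τ).2 e.1⟩, e.2⟩⟩).finrank_eq,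
      Module.finrank_fintype_fun_eq_card]
    exact card_Co (h.inj hJ.isUnit)
  · obtain ⟨n, hn⟩ := minor_mem (k := ℂ) J₀ s i
    exact ⟨_, hX n, hn⟩

end Vale.Agent.P297Z.Qt
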