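import Vale.Agent.P297Z.Quot.Sk

/-!
# P297: the maps that kill the relations of degree `m`
-/

set_option linter.all false

open scoped TensorProduct

noncomputable section

namespace Vale.Agent.P297Z.Qt

open GMod

namespace HpA

/-- functionals on the homomorphisms between two free modules -/
theorem dual_hom {R : Type} [CommRing R] [Algebra ℂ R] {z : R →ₐ[ℂ] ℂ} {P Q : Type}
    [AddCommGroup P] [Module R P] [AddCommGroup Q] [Module R Q] {k l : ℕ} (hP : FreeAt z P k)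
    (hQ : FreeAt z Q l) (μ : Module.Dual R (P →ₗ[R] Q)) : ∃ (r : R) (b : Fin k → P)
      (g : Fin k → Module.Dual R Q), z r ≠ 0 ∧ ∀ ξ, r * μ ξ = ∑ i, g i (ξ (b i)) := by
  obtain ⟨e, r, e', hr, -, h1⟩ := hP
  obtain ⟨u, s, u', hs, -, h2⟩ := hQ
  let T : Fin k → Fin l → P →ₗ[R] Q := fun i j =>
    (LinearMap.proj i ∘ₗ e').smulRight (u (Pi.single j 1))
  refine ⟨r * s, fun i => e (Pi.single i 1), fun i => ∑ j, μ (T i j) • LinearMap.proj j ∘ₗ u',
    ev_mul hr hs, fun ξ => ?_⟩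
  have h3 : ∀ {n : ℕ} {N : Type} [AddCommGroup N] [Module R N] (f : (Fin n → R) →ₗ[R] N)
      (w : Fin n → R), f w = ∑ i, w i • f (Pi.single i 1) := fun f w => by
    rw [LinearMap.pi_apply_eq_sum_univ]
    refine Finset.sum_congr rfl fun i _ => congrArg (fun t => w i • f t) (funext fun j => ?_)
    rw [Pi.single_apply]
    exact if_congr eq_comm rfl rfl
  have h4 : (r * s) • ξ = ∑ i, ∑ j, u' (ξ (e (Pi.single i 1))) j • T i j := by
    refine LinearMap.ext fun p => ?_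
    rw [LinearMap.smul_apply, mul_smul, smul_comm, ← map_smul, ← h1, h3 (ξ ∘ₗ e) (e' p) |> fun h =>
      (show ξ (e (e' p)) = _ from h), Finset.smul_sum, LinearMap.sum_apply]
    refine Finset.sum_congr rfl fun i _ => ?_
    rw [smul_comm, LinearMap.comp_apply, ← h2, h3 u, Finset.smul_sum, LinearMap.sum_apply]
    exact Finset.sum_congr rfl fun j _ => smul_comm _ _ _
  rw [← smul_eq_mul, ← map_smul, h4, map_sum]
  refine Finset.sum_congr rfl fun i _ => ?_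
  rw [map_sum, LinearMap.sum_apply]
  exact Finset.sum_congr rfl fun j _ => by rw [map_smul, smul_eq_mul, mul_comm]; rfl

variable {W Y : Spc}

theorem exists_left {A B C : GMod W} {f : A.M →ₗ[W.R] B.M} {g : B.M →ₗ[W.R] C.M} {b c : ℕ}
    (h : SES A B C f g) (hB : B.IsBun b) (hC : C.IsBun c) (z : W.Pt) :
    ∃ a, b = a + c ∧ A.IsBun a := by
  have h1 := fdim_le_of_surj (h.fib_surj z)
  rw [hB.fdim, hC.fdim] at h1
  obtain ⟨a, rfl⟩ := Nat.exists_eq_add_of_le' h1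
  exact ⟨a, rfl, h.isBun_left hB hC⟩

theorem abs' {A H X : GMod W} {ρ : A.M →ₗ[W.R] H.M} {α : H.M →ₗ[W.R] X.M} (hρ : A.IsHom H ρ)
    (hα : H.IsHom X α) {a n x : ℕ} (bA : A.IsBun (a + x)) (bH : H.IsBun n) (bX : X.IsBun x)
    (hs : ∀ z : W.Pt, SurjAt z.1 (α ∘ₗ ρ)) (z₀ : W.Pt) {NA : Submodule W.R A.M} (hNA : A.Stab NA)
    (eA : NA = LinearMap.ker (α ∘ₗ ρ)) {NH : Submodule W.R H.M} (hNH : H.Stab NH)
    (eH : NH = LinearMap.ker α) : (A.sub NA hNA).IsBun a ∧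
      (∃ n', (H.sub NH hNH).IsBun n' ∧ n' + (a + x) = n + a ∧
        kc (H.sub NH hNH) n' - kc (A.sub NA hNA) a = kc H n - kc A (a + x)) ∧
      (∀ (z : W.Pt) (lam : Module.Dual W.R NH), ∃ (r : W.R) (lam' : Module.Dual W.R H.M),
        z.1 r ≠ 0 ∧ ∀ φ, lam' φ.1 = r * lam φ) ∧
      ∀ (z : W.Pt) (lam : Module.Dual W.R H.M), (∀ φ : NH, lam φ.1 = 0) →
        ∃ (r : W.R) (μ : Module.Dual W.R X.M), z.1 r ≠ 0 ∧ ∀ φ, r * lam φ = μ (α φ) := by
  subst eA eH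
  have s1 := (hα.comp hρ).ses_ker hs
  have s2 := hα.ses_ker fun z => (hs z).of_comp
  have b1 := s1.isBun_left bA bX
  obtain ⟨n', rfl, b2⟩ := exists_left s2 bH bX z₀
  have sp := fun z : W.Pt => exists_split (A := LinearMap.ker α) (bX z) s2.2.2.1 (s2.2.2.2 z).1 (s2.2.2.2 z).2.1
    (s2.2.2.2 z).2.2
  refine ⟨b1, ⟨n', b2, by ring, ?_⟩, fun z lam => ?_, fun z lam h0 => ?_⟩
  · rw [kc_ses s1 b1 bX, kc_ses s2 b2 bX]
    ring
  · obtain ⟨r, s, t, hr, -, h1, -⟩ := sp z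
    exact ⟨r, lam ∘ₗ t, hr, fun φ => (congrArg lam (h1 φ)).trans (map_smul lam r φ)⟩
  · obtain ⟨r, s, t, hr, -, -, -, h1⟩ := sp z
    refine ⟨r, lam ∘ₗ s, hr, fun φ => ?_⟩
    rw [← smul_eq_mul, ← map_smul, ← h1, map_add]
    exact (congrArg (· + _) (h0 (t φ))).trans (zero_add _)

variable (S : Sur Y)

/-- the evaluation on the parts -/
def al (B G : GMod (W.prod Y)) (j k : ℤ) :
    (S.pc (B.hom G) k).M →ₗ[W.R] ((S.pc B j).hom (S.pc G (j + k))).M :=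
  ap.symm.toLinearMap ∘ₗ S.apc B G j k

theorem ap_al (B G : GMod (W.prod Y)) (j k : ℤ) (φ : (S.pc (B.hom G) k).M) :
    ap (al S B G j k φ) = S.apc B G j k φ := rfl

theorem al_hom (B G : GMod (W.prod Y)) (j k : ℤ) :
    (S.pc (B.hom G) k).IsHom ((S.pc B j).hom (S.pc G (j + k))) (al S B G j k) := fun g φ =>
  ap.injective (LinearMap.ext fun b => S.val_inj (by
    rw [act_ap, ap_al, ap_al, S.val_act, S.val_apc, S.val_apc, S.val_act, S.val_act, act_ap,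
      tor_inv]))

theorem al_zero {B G : GMod (W.prod Y)} {j k : ℤ} {φ : (S.pc (B.hom G) k).M} :
    al S B G j k φ = 0 ↔ ∀ b, ap (S.val _ k φ) (S.val B j b) = 0 :=
  ⟨fun h b => by rw [← S.val_apc, ← ap_al, h, map_zero, LinearMap.zero_apply, map_zero],
    fun h => ap.injective (LinearMap.ext fun b => S.val_inj (by
      rw [ap_al, S.val_apc, h, map_zero, LinearMap.zero_apply, map_zero]))⟩

variable {ι : Type} [Fintype ι] {δ : ι → (W.prod Y).J → ℤ} {m : ℤ}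
  (hδ : ∀ i, (S.prj W).π (δ i) = fun _ => m)

theorem act_fst (h : (S.prj W).E → ℂˣ) (r : W.R) :
    (W.prod Y).act (tor (S.prj W).π h) ((Mor.fst W Y).φ r) = (Mor.fst W Y).φ r := by
  have h1 := (S.prj W).smul_mem_wtE (M := one _) r
    ((S.prj W).mem_wtE (M := one _) (W.prod Y).one_mem) h
  rw [map_zero, chr_zero, one_smul] at h1
  have h2 : (Mor.fst W Y).φ r • (1 : (W.prod Y).R) = (Mor.fst W Y).φ r := mul_one _
  exact (congrArg _ h2.symm).trans (h1.trans h2)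

/-- the constant vectors -/
def cst : (ι → W.R) →ₗ[W.R] (S.pc (Fr δ) m).M where
  toFun := fun w => S.el (fun i => (Mor.fst W Y).φ (w i)) fun h => funext fun i => by
    change chr (- -δ i) (tor (S.prj W).π h) • (W.prod Y).act (tor (S.prj W).π h)
      ((Mor.fst W Y).φ (w i)) = chr (fun _ => m) h • (Mor.fst W Y).φ (w i)
    rw [act_fst, neg_neg, chr_tor, hδ]
  map_add' := fun v w => S.val_inj (funext fun i => map_add (Mor.fst W Y).φ (v i) (w i))
  map_smul' := fun r w => S.val_inj (funext fun i => map_mul (Mor.fst W Y).φ r (w i))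

theorem exists_hom (G : GMod (W.prod Y)) (ψ : (ι → W.R) →ₗ[W.R] (S.pc G (m + 0)).M) :
    ∃ φ : (S.pc ((Fr δ).hom G) 0).M, ∀ w, S.apc _ G m 0 φ (cst S hδ w) = ψ w := by
  classical
  let v : ι → G.M := fun i => S.val G (m + 0) (ψ (Pi.single i 1))
  let L : (Fr δ).M →ₗ[(W.prod Y).R] G.M := Fintype.linearCombination (W.prod Y).R v
  refine ⟨S.el (ap.symm L) fun h => ap.injective (LinearMap.ext fun a => ?_), fun w =>
    S.val_inj ?_⟩
  · obtain ⟨a, rfl⟩ : ∃ a' : ι → (W.prod Y).R, a' = a := ⟨a, rfl⟩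
    change G.act (tor (S.prj W).π h) (∑ i, (chr (- -δ i) (tor (S.prj W).π h)⁻¹ •
      (W.prod Y).act (tor (S.prj W).π h)⁻¹ (a i)) • v i) =
        chr (0 : (S.prj W).E → ℤ) h • ∑ i, a i • v i
    rw [chr_zero, one_smul, map_sum]
    refine Finset.sum_congr rfl fun i _ => ?_
    have h1 : G.act (tor (S.prj W).π h) (v i) = chr (fun _ => m + 0) h • v i := S.val_mem _ h
    rw [G.act_smul, map_smul, Spc.act_act_inv, h1, neg_neg, chr_inv, chr_tor, hδ, add_zero,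
      smul_assoc, smul_comm (a i), smul_smul,
      inv_mul_cancel₀ (chr_ne _ _), one_smul]
  · rw [LinearMap.pi_apply_eq_sum_univ ψ, map_sum]
    refine Finset.sum_congr rfl fun i _ => ?_
    rw [S.val_smul]
    refine congrArg (fun t => (Mor.fst W Y).φ (w i) • S.val G (m + 0) (ψ t)) (funext fun j => ?_)
    rw [Pi.single_apply]
    exact if_congr eq_comm rfl rfl

theorem cst_fib {z : W.Pt} {M₀ : GMod Y} {ε : (Fr δ).M →+ (Fr fun _ : ι => dg Y m).M}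
    (hε : ∀ a i, ε a i = evR Y z (a i)) (h : S.FibK z (Fr δ) (Fr fun _ : ι => dg Y m) ε m)
    (hw : ∀ a, ε (S.val _ m a) ∈ (Fr fun _ : ι => dg Y m).wt (dg Y m))
    (h0 : ∀ a ∈ RingHom.ker z.1 • (⊤ : Submodule W.R (S.pc (Fr δ) m).M), ε (S.val _ m a) = 0) :
    Function.Bijective (fibMap z.1 (cst S hδ)) := by
  have h1 : ∀ w i, ε (S.val _ m (cst S hδ w)) i = algebraMap ℂ Y.R (z.1 (w i)) := fun w i =>
    (hε _ i).trans (evR_fst z (w i))
  refine ⟨(injective_iff_map_eq_zero _).2 fun x hx => ?_, fun x => ?_⟩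
  · obtain ⟨w, rfl⟩ := fib_surj x
    obtain ⟨y, -⟩ := S.two 0 (zero_mem _) 0 (zero_mem _)
    refine mk_pi_eq_zero.2 fun i => ?_
    have h2 := congrArg y.1 ((h1 w i).symm.trans
      (congrFun (h0 _ ((Submodule.Quotient.mk_eq_zero _).1 hx)) i))
    exact (y.1.commutes _).symm.trans (h2.trans (map_zero y.1))
  · obtain ⟨a, rfl⟩ := fib_surj x
    have h2 : ∀ i, ∃ t : ℂ, ε (S.val _ m a) i = algebraMap ℂ Y.R t := fun i =>
      S.cst _ (wt_eq (show _ ∈ Y.wt (dg Y m + -dg Y m) from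
        mem_shift_wt.1 fun g => congrFun (hw a g) i) (add_neg_cancel _))
    choose t ht using h2
    refine ⟨Submodule.Quotient.mk fun i => algebraMap ℂ W.R (t i),
      (Submodule.Quotient.eq _).2 (h.ker _ ?_)⟩
    rw [map_sub, map_sub, sub_eq_zero]
    funext i
    rw [h1, ht, z.1.commutes]
    rfl

end HpA

open HpA in
theorem hp : HP := by
  intro hF hL hFam hH hB hK hE h1 hP hX W Y S D c n hOk ⟨z₀⟩ hpt hn
  have fb := fun z => hF hB W Y S z
  have fm := hFam hF hL hB W Y S D c fun z => (hP hB Y S D hOk).reg _ (hpt z)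
  have kx := fun z => hX hB hK hE h1 hP Y S D hOk _ (hpt z)
  have bA : (S.pc (c.Φ.hom c.F) 0).IsBun (Fintype.card D.Sx * (D.p D.m).toNat) := fun z => by
    obtain ⟨ε, -, -, h2⟩ := hH hF hB W Y S z _ _ _ _ _ _ (fm.fΦ z) (fm.fF z)
    have h3 := (kx z).dimA
    have h4 : Module.finrank ℂ ((D.Φ0.hom (D.F0 (c.cz z))).wt (dg Y 0)) =
        Fintype.card D.Sx * (D.p D.m).toNat := by
      rcases le_total 0 (D.p D.m) with h | h
      · rw [← Int.toNat_of_nonneg h] at h3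
        exact_mod_cast h3
      · have := mul_nonpos_of_nonneg_of_nonpos (Int.natCast_nonneg (Fintype.card D.Sx)) h
        rw [Int.toNat_eq_zero.2 h]
        omega
    exact h4 ▸ (h2 0 ((kx z).extA 0)).2
  have bH : (S.pc (c.K1.hom c.F) 0).IsBun n := fun z => by
    obtain ⟨ε, -, -, h2⟩ := hH hF hB W Y S z _ _ _ _ _ _ (fm.fK z) (fm.fF z)
    exact hn z ▸ (h2 0 ((kx z).extH 0 le_rfl)).2
  have bQ : (S.pc c.F (D.m + 0)).IsBun (D.p D.m).toNat :=
    congrArg (fun k => (D.p k).toNat) (add_zero D.m) ▸ fm.bF (D.m + 0) (by omega)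
  have bE : (S.pc c.E D.m).IsBun D.r := by
    have h2 := fm.bE D.m le_rfl
    rwa [← hOk.span, finrank_span_eq_card hOk.ind, ← hOk.card, add_sub_cancel_right,
      Int.toNat_natCast] at h2
  have hδ : ∀ s, (S.prj W).π (c.ds s) = fun _ => D.m := fun _ => rfl
  have hc : ∀ z : W.Pt, Function.Bijective (fibMap z.1 (cst S hδ)) := fun z => by
    have h2 := fm.fΦ z
    have h3 := (fb z).fibK _ _ _ h2.toIsFib D.m
    obtain ⟨e, he⟩ := (fb z).fib _ _ _ _ h2.toIsEv h3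
    exact cst_fib S hδ (M₀ := D.Φ0) (ε := c.εΦ z) (fun _ _ => rfl) h3
      ((fb z).val_wt _ _ _ h2.toIsEv D.m) fun a ha => (he a).symm.trans (congrArg Subtype.val
        ((congrArg e ((Submodule.Quotient.mk_eq_zero _).2 ha)).trans (map_zero e)))
  have bΦ : (S.pc c.Φ D.m).IsBun (Fintype.card D.Sx) :=
    isBun_of_rank fun z => (fdim_eq_of_bij (hc z)).symm.trans (fdim_fun _)
  have s0 : SES (S.pc c.K1 D.m) (S.pc c.Φ D.m) (S.pc c.E D.m) (S.pm D.m c.iK c.iK_hom)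
      (S.pm D.m c.μ.rangeRestrict c.μ_hom.rangeRestrict) :=
    ses_of_exact (S.pm_hom _ _ _) (S.pm_hom _ _ _)
      ((S.prj W).partMap_injective _ _ (Submodule.injective_subtype _))
      ((S.prj W).partMap_exact _ _ _ fun a => ⟨fun h => ⟨⟨a, congrArg Subtype.val h⟩, rfl⟩, by
        rintro ⟨b, rfl⟩
        exact Subtype.ext b.2⟩) ((S.prj W).partMap_surjective _ _ c.μ.surjective_rangeRestrict)
  obtain ⟨k, hk, bP⟩ := exists_left s0 bΦ bE z₀
  have e1 : Fintype.card D.Sx * (D.p D.m).toNat = D.r * (D.p D.m).toNat + k * (D.p D.m).toNat := by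
    rw [hk]
    ring
  have hs : ∀ z : W.Pt, SurjAt z.1 (al S c.K1 c.F D.m 0 ∘ₗ
      S.pm 0 (rs c.iK c.F) (rs_hom c.iK_hom c.F)) := fun z ξ => by
    obtain ⟨r, s, t, hr, -, h2, -⟩ := exists_split (bE z) s0.2.2.1 (s0.2.2.2 z).1 (s0.2.2.2 z).2.1
      (s0.2.2.2 z).2.2
    obtain ⟨r', hr', h3⟩ := (surjAt_iff_fib.2 (hc z).2).unif
    obtain ⟨φ, hφ⟩ : ∃ φ : (S.pc (c.Φ.hom c.F) 0).M, ∀ w, S.apc c.Φ c.F D.m 0 φ (cst S hδ w) =
      ap ξ (t (cst S hδ w)) := exists_hom S hδ c.F (ap ξ ∘ₗ t ∘ₗ cst S hδ)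
    refine ⟨r' * r, r' • φ, ev_mul hr' hr, ap.injective (LinearMap.ext fun b => ?_)⟩
    obtain ⟨w, hw⟩ := h3 (S.pm D.m c.iK c.iK_hom b)
    have h4 : ap ((al S c.K1 c.F D.m 0 ∘ₗ S.pm 0 (rs c.iK c.F) (rs_hom c.iK_hom c.F)) φ) b =
        S.apc c.Φ c.F D.m 0 φ (S.pm D.m c.iK c.iK_hom b) := S.val_inj rfl
    have h5 : S.apc c.Φ c.F D.m 0 φ (r' • S.pm D.m c.iK c.iK_hom b) =
        ap ξ (t (r' • S.pm D.m c.iK c.iK_hom b)) := hw ▸ hφ w
    rw [map_smul, map_smul, map_smul, LinearMap.smul_apply, LinearMap.smul_apply, h4, ← map_smul,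
      h5, map_smul, h2, smul_smul, map_smul]
  obtain ⟨a1, ⟨n', a2, a3, a4⟩, a5, a6⟩ := abs' (S.pm_hom 0 _ (rs_hom c.iK_hom c.F))
    (al_hom S c.K1 c.F D.m 0) (e1 ▸ bA) bH (bP.hom bQ) hs z₀ (S.kil_stab c.iK_hom c.F D.m)
    (Submodule.ext fun φ => (al_zero S (φ := S.pm 0 (rs c.iK c.F) (rs_hom c.iK_hom c.F) φ)).symm)
    (S.kil_stab (IsHom.id c.K1) c.F D.m)
    (Submodule.ext fun φ => (al_zero S).symm)
  refine ⟨a1, ⟨n', a2, e1 ▸ a3, e1 ▸ a4⟩, a5, fun z lam h0 => ?_⟩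
  obtain ⟨r, μ, hr, h2⟩ := a6 z lam h0
  obtain ⟨r', b, g, hr', h3⟩ := dual_hom (bP z) (bQ z) (μ ∘ₗ ap.symm.toLinearMap)
  refine ⟨r' * r, k, b, g, ev_mul hr' hr, LinearMap.ext fun φ => ?_⟩
  rw [LinearMap.smul_apply, smul_eq_mul, mul_assoc, h2, LinearMap.sum_apply]
  exact h3 (S.apc c.K1 c.F D.m 0 φ)

end Vale.Agent.P297Z.Qt
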