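import Vale.Agent.P297Z.Quot.Rst

/-!
# P297: the minors of the multiplication maps
-/

set_option linter.all false

open scoped TensorProduct

noncomputable section

namespace Vale.Agent.P297Z.Qt

open GMod

variable {W Y : Spc}

/-- the elements that lie in an ideal at a point -/
def locI {P : Type} [CommRing P] [Algebra ℂ P] (z : P →ₐ[ℂ] ℂ) (I : Ideal P) : Ideal P where
  carrier := {f | ∃ r, z r ≠ 0 ∧ r * f ∈ I}
  zero_mem' := ⟨1, ev_one, by rw [mul_zero]; exact zero_mem _⟩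
  add_mem' := by
    rintro a b ⟨r, h1, h2⟩ ⟨s, h3, h4⟩
    refine ⟨r * s, ev_mul h1 h3, ?_⟩
    rw [mul_add, mul_comm r, mul_assoc, mul_comm s r, mul_assoc]
    exact add_mem (I.mul_mem_left _ h2) (I.mul_mem_left _ h4)
  smul_mem' := by
    rintro c a ⟨r, h1, h2⟩
    exact ⟨r, h1, by rw [smul_eq_mul, mul_left_comm]; exact I.mul_mem_left _ h2⟩

theorem Lf.span_dl {S : Sur Y} {M : GMod (W.prod Y)} {M₀ : GMod Y} {p : M₀.M →+ M.M}
    (h : Lf S M M₀ p) (k : ℤ) {ι : Type} [Fintype ι] (b : Module.Basis ι ℂ (M₀.wt (dg Y k))) :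
    ∃ φ : ι → M₀.M →ₗ[ℂ] ℂ, (∀ i (v : M₀.wt (dg Y k)), φ i v = b.coord i v) ∧
      Submodule.span W.R (Set.range fun i => h.dl k (φ i)) = ⊤ := by
  obtain ⟨B, φ, -, h1, h2⟩ := h.exists_basis k b
  refine ⟨φ, h1, eq_top_iff.2 fun g _ => ?_⟩
  rw [← B.sum_dual_apply_smul_coord g]
  exact Submodule.sum_mem _ fun i _ =>
    Submodule.smul_mem _ _ (Submodule.subset_span ⟨i, (h2 i).symm⟩)

namespace Dat

variable (D : Dat Y)

/-- a multiple of a basis vector of the free module -/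
def e0 (s : D.Sx) (ρ : Y.R) : D.Φ0.M :=
  sgl (fun _ : D.Sx => (GMod.one Y).shift (-dg Y D.m)) s (sh (GMod.one Y) _ ρ)

variable {D}

theorem e0_wt (s : D.Sx) {k : ℤ} {ρ : Y.R} (h : ρ ∈ Y.wt (dg Y (k - D.m))) :
    D.e0 s ρ ∈ D.Φ0.wt (dg Y k) :=
  sgl_wt (sh_wt (M := GMod.one Y) (wt_eq h (funext fun _ => sub_eq_add_neg _ _)))

theorem e0_smul (s : D.Sx) (t : ℂ) (ρ : Y.R) : D.e0 s (t • ρ) = t • D.e0 s ρ :=
  Pi.single_smul' s t ρ

theorem span_e0 (D : Dat Y) (k : ℤ) : Submodule.span ℂ {v : D.Φ0.wt (dg Y k) |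
    ∃ s, ∃ ρ ∈ Y.wt (dg Y (k - D.m)), v.1 = D.e0 s ρ} = ⊤ := by
  refine eq_top_iff.2 fun v _ => ?_
  have h1 : ∀ s, (show Y.R from v.1 s) ∈ Y.wt (dg Y (k - D.m)) := fun s =>
    wt_eq ((mem_shift_wt (M := GMod.one Y)).1 fun g => congrFun (v.2 g) s)
      (funext fun _ => (sub_eq_add_neg _ _).symm)
  have e : v = ∑ s, ⟨D.e0 s (v.1 s), e0_wt s (h1 s)⟩ :=
    Subtype.ext (by
      rw [Submodule.coe_sum]
      exact (Finset.univ_sum_single v.1).symm)
  rw [e]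
  exact Submodule.sum_mem _ fun s _ => Submodule.subset_span ⟨s, _, h1 s, rfl⟩

namespace Crd

variable (c : D.Crd W) (S : Sur Y)

theorem μ_e0 (s : D.Sx) (ρ : Y.R) : c.μ (c.pΦ (D.e0 s ρ)) = (Mor.snd W Y).φ ρ • c.vv s :=
  (congrArg c.μ (piMap_sgl _ s _)).trans
    (Fintype.linearCombination_apply_single (W.prod Y).R c.vv s ((Mor.snd W Y).φ ρ))

theorem dl_μ {k : ℤ} (φ : D.V.M →ₗ[ℂ] ℂ) (s : D.Sx) {ρ : Y.R} (h : ρ ∈ Y.wt (dg Y (k - D.m))) :
    (c.lfV S).dl k φ (S.pm k c.μ c.μ_hom ((c.lfΦ S).el k ⟨_, e0_wt s h⟩)) =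
      ∑ i, φ (ρ • D.eV i) • vec c.y s i := by
  have h1 : ∀ i, ρ • D.eV i ∈ D.V.wt (dg Y k) := fun i =>
    mwt_eq (smul_mem_wt h (D.eV_wt i)) (funext fun _ => sub_add_cancel _ _)
  have e : S.pm k c.μ c.μ_hom ((c.lfΦ S).el k ⟨_, e0_wt s h⟩) =
      ∑ i, vec c.y s i • (c.lfV S).el k ⟨_, h1 i⟩ := S.val_inj (by
    rw [S.val_pm, Lf.val_el, μ_e0, vv, Finset.smul_sum, map_sum]
    refine Finset.sum_congr rfl fun i _ => ?_
    rw [S.val_smul, Lf.val_el, (c.lfV S).smul, pV_eV, smul_comm])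
  rw [e, map_sum]
  refine Finset.sum_congr rfl fun i _ => ?_
  rw [map_smul, Lf.dl_el, smul_eq_mul, mul_comm, Algebra.smul_def]

theorem frk_μ (hB : Bas S) {z : W.Pt} (h : Fbk S z) (k : ℤ) :
    (frk z.1 (S.pm k c.μ c.μ_hom) : ℤ) =
      Module.finrank ℂ (D.V.wt (dg Y k)) - hq D.V (D.gen (c.cz z)) k := by
  have h1 : Function.Exact (S.pm k c.μ c.μ_hom) (S.pm k c.πF c.πF_hom) :=
    (S.prj W).partMap_exact _ _ _ (LinearMap.exact_map_mkQ_range c.μ)
  have h2 : SurjAt z.1 (S.pm k c.πF c.πF_hom) :=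
    SurjAt.of_surj ((S.prj W).partMap_surjective _ _ (Submodule.mkQ_surjective _))
  have h3 := frk_add_of_exact
    (fib_exact h1.apply_apply_eq_zero (ExAt.of_ker fun b hb => (h1 b).1 hb) h2)
  rw [frk_of_surj h2.fib, h.fdim _ _ _ k (c.fV h).toIsEv (h.fibK _ _ _ (c.fV h).toIsFib k)] at h3
  rw [← c.fdimF hB h k, ← h3]
  push_cast
  ring

/-- the pairing of the free module with the dual of the ambient module -/
def pr (k : ℤ) : (S.pc c.Φ k).M →ₗ[W.R] Module.Dual W.R (S.pc c.VV k).M →ₗ[W.R] W.R :=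
  Module.Dual.eval W.R _ ∘ₗ S.pm k c.μ c.μ_hom

end Crd

theorem ev_co (z : D.Pol.Pt) (f : MvPolynomial D.Ix ℂ) : z.1 f = MvPolynomial.eval (D.co z) f :=
  RingHom.congr_fun (f := (show MvPolynomial D.Ix ℂ →ₐ[ℂ] ℂ from z.1).toRingHom)
    (MvPolynomial.ringHom_ext (fun t => by
      rw [MvPolynomial.eval_C]
      exact z.1.commutes t) fun J => by
      rw [MvPolynomial.eval_X]
      rfl) f

theorem co_ne (z : D.Pol.Pt) : ∃ J, D.co z J ≠ 0 := ((Spc.adj_pt _ _ _ z.1).1 z.2).2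

end Dat

theorem min : MIN := by
  intro hF hB hG Y S D hD
  refine ⟨fun k => ?_, fun z k => D.crd.frk_μ S (hB Y S) (hF hB _ Y S z) k,
    fun k hk n hn a g => ?_, ?_, fun z hz a g => ?_⟩
  · have := S.fin_wt D.V k
    obtain ⟨B, -⟩ := (D.crd.lfV S).exists_basis k (Module.finBasis ℂ _)
    exact Module.Free.of_basis B
  · have := S.fin_wt D.V k
    obtain ⟨φ, -, h1⟩ := (D.crd.lfV S).span_dl k (Module.finBasis ℂ _)
    refine det_mem (D.crd.pr S k) _ ((D.crd.lfΦ S).span_of k (D.span_e0 k)) h1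
      (fun a g ha hg => Ideal.subset_span ?_) a g
    choose v hv hv' using ha
    choose s ρ h2 h3 using hv
    choose i hi using hg
    refine ⟨k, n, s, ρ, fun t => φ (i t), hk, hn, h2, congrArg Matrix.det ?_⟩
    ext u t
    rw [Matrix.of_apply, Matrix.of_apply, ← hv', ← hi, show v u = ⟨_, Dat.e0_wt (s u) (h2 u)⟩ from
      Subtype.ext (h3 u)]
    exact D.crd.dl_μ S _ _ (h2 u)
  · rintro _ ⟨k, n, s, ρ, φ, hk, hn, h1, rfl⟩
    refine ⟨k, n, fun u => (D.crd.lfΦ S).el k ⟨_, Dat.e0_wt (s u) (h1 u)⟩,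
      fun t => (D.crd.lfV S).dl k (φ t), hk, hn, congrArg Matrix.det ?_⟩
    ext u t
    exact (D.crd.dl_μ S _ _ (h1 u)).symm
  · let b : Module.Basis D.β ℂ (D.V.wt (dg Y D.m)) :=
      (Module.Basis.span hD.ind).map (LinearEquiv.ofEq _ _ hD.span)
    have hb : ∀ i, b i = ⟨_, D.eV_wt i⟩ := fun i =>
      Subtype.ext (congrArg Subtype.val (Module.Basis.span_apply hD.ind i) :)
    obtain ⟨φ, h0, h1⟩ := (D.crd.lfV S).span_dl D.m b
    refine det_mem (D.crd.pr S D.m) (locI z.1 D.IP) ((D.crd.lfΦ S).span_of D.m (D.span_e0 D.m)) h1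
      (fun a g ha hg => ?_) a g
    choose v hv hv' using ha
    choose s ρ h2 h3 using hv
    choose i hi using hg
    choose t ht using fun u => S.cst (ρ u) (wt_eq (h2 u) (congrArg (dg Y) (sub_self _)))
    obtain ⟨r, h4, h5⟩ := (hG D.r D.β _ hz (Dat.co_ne z)).minor s i
    have e : (Matrix.of fun u j => D.crd.pr S D.m (a u) (g j)) =
        Matrix.of fun u j => algebraMap ℂ D.Pol.R (t u) *
          (Matrix.of fun u j => vec D.X (s u) (i j)) u j := by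
      ext u j
      rw [Matrix.of_apply, Matrix.of_apply, Matrix.of_apply, ← hv', ← hi,
        show v u = ⟨_, Dat.e0_wt (s u) (h2 u)⟩ from Subtype.ext (h3 u)]
      refine (D.crd.dl_μ S _ _ (h2 u)).trans ?_
      rw [Finset.sum_eq_single (i j), ht, algebraMap_smul, map_smul, h0 _ ⟨_, D.eV_wt _⟩, ← hb,
        Module.Basis.coord_apply, b.repr_self, Finsupp.single_eq_same, smul_eq_mul, mul_one,
        Algebra.smul_def]
      · rfl
      · intro l _ hl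
        rw [ht, algebraMap_smul, map_smul, h0 _ ⟨_, D.eV_wt _⟩, ← hb, Module.Basis.coord_apply,
          b.repr_self, Finsupp.single_eq_of_ne hl.symm, smul_zero, zero_smul]
      · exact fun h => absurd (Finset.mem_univ _) h
    rw [e, Matrix.det_mul_column]
    exact Ideal.mul_mem_left _ _ ⟨r, (Dat.ev_co z r).symm ▸ h4, h5⟩

end Vale.Agent.P297Z.Qt
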