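import Vale.Agent.P297Z.Quot.Lf
import Vale.Agent.P297Z.Quot.Big

/-!
# P297: the restriction of the constant families to a closed subspace
-/

set_option linter.all false

open scoped TensorProduct

noncomputable section

namespace Vale.Agent.P297Z.Qt

open GMod

variable {W W' Y : Spc} {S : Sur Y} {g : Mor W' W} {M : GMod (W.prod Y)} {M' : GMod (W'.prod Y)}
  {M₀ : GMod Y} {p : M₀.M →+ M.M} {p' : M₀.M →+ M'.M} {u : M.M →+ M'.M}

theorem Over.fst (h : Over g M M' u) (a : W.R) (m : M.M) :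
    u ((Mor.fst W Y).φ a • m) = (Mor.fst W' Y).φ (g.φ a) • u m := by rw [h.smul, map_fst]

theorem Lf.surj (h : Lf S M M₀ p) (h' : Lf S M' M₀ p') (o : Over g M M' u)
    (e : ∀ v, u (p v) = p' v) (hg : Function.Surjective g.φ) (k : ℤ) (a' : (S.pc M' k).M) :
    ∃ a : (S.pc M k).M, u (S.val _ k a) = S.val _ k a' := by
  have h1 : a' ∈ Submodule.span W'.R (Set.range (h'.el k)) := h'.span_el k ▸ Submodule.mem_top
  induction h1 using Submodule.span_induction with
  | mem x hx =>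
    obtain ⟨v, rfl⟩ := hx
    exact ⟨h.el k v, e v⟩
  | zero => exact ⟨0, by rw [map_zero, map_zero, map_zero]⟩
  | add x y _ _ hx hy =>
    obtain ⟨a, ha⟩ := hx
    obtain ⟨b, hb⟩ := hy
    exact ⟨a + b, by rw [map_add, map_add, map_add, ha, hb]⟩
  | smul c x _ hx =>
    obtain ⟨a, ha⟩ := hx
    obtain ⟨c, rfl⟩ := hg c
    exact ⟨c • a, by rw [S.val_smul, S.val_smul, o.fst, ha]⟩

theorem Lf.ker (h : Lf S M M₀ p) (h' : Lf S M' M₀ p') (o : Over g M M' u)
    (e : ∀ v, u (p v) = p' v) (k : ℤ) (a : (S.pc M k).M) :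
    u (S.val _ k a) = 0 ↔ a ∈ RingHom.ker g.φ • (⊤ : Submodule W.R (S.pc M k).M) := by
  constructor
  · intro h0
    have := S.fin_wt M₀ k
    let b := Module.finBasis ℂ (M₀.wt (dg Y k))
    obtain ⟨B, -, h1, -⟩ := h.exists_basis k b
    obtain ⟨B', -, h2, -⟩ := h'.exists_basis k b
    have h3 : ∑ i, g.φ (B.repr a i) • B' i = 0 := S.val_inj (by
      rw [map_zero, ← h0, map_sum]
      conv_rhs => rw [← B.sum_repr a, map_sum, map_sum]
      refine Finset.sum_congr rfl fun i _ => ?_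
      rw [S.val_smul, S.val_smul, o.fst, h1, h2, Lf.val_el, Lf.val_el, e])
    rw [← B.sum_repr a]
    exact Submodule.sum_mem _ fun i _ => Submodule.smul_mem_smul
      (Fintype.linearIndependent_iff.1 B'.linearIndependent _ h3 i) Submodule.mem_top
  · intro ha
    refine Submodule.smul_induction_on ha (fun r hr m _ => ?_) fun x y hx hy => ?_
    · rw [S.val_smul, o.fst, RingHom.mem_ker.1 hr, map_zero, zero_smul]
    · rw [map_add, map_add, hx, hy, add_zero]

theorem rst : RST := by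
  intro W Y S D c Z hZ
  have e : RingHom.ker (Mor.incl W Z hZ).φ = W.van Z := Ideal.Quotient.mkₐ_ker ℂ (W.van Z)
  have s : Function.Surjective (Mor.incl W Z hZ).φ := Ideal.Quotient.mk_surjective
  exact ⟨(c.lfΦ S).surj ((c.pull _).lfΦ S) (c.oΦ _) (c.uΦ_p _) s,
    fun k a => e ▸ (c.lfΦ S).ker ((c.pull _).lfΦ S) (c.oΦ _) (c.uΦ_p _) k a,
    (c.lfV S).surj ((c.pull _).lfV S) (c.oV _) (c.uV_p _) s,
    fun k a => e ▸ (c.lfV S).ker ((c.pull _).lfV S) (c.oV _) (c.uV_p _) k a⟩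

end Vale.Agent.P297Z.Qt
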