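import Vale.Agent.P297Z.Quot.Sk

/-!
# P297: tangent vectors of the Quot scheme
-/

open TrivSqZeroExt

noncomputable section

namespace Vale.Agent.P297Z.Qt

namespace TanA

theorem det_lt {R : Type} [CommRing R] {n d : ℕ} (h : d < n) (P : Fin n → Fin d → R)
    (Q : Fin d → Fin n → R) : (Matrix.of fun u t => ∑ i, P u i * Q i t).det = 0 := by
  obtain ⟨k, rfl⟩ := Nat.exists_eq_add_of_lt h
  have e : (Matrix.of fun u t => ∑ i, P u i * Q i t) =
      Matrix.of (fun u => Fin.append (P u) (0 : Fin (k + 1) → R)) *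
      Matrix.of (Fin.append Q (0 : Fin (k + 1) → Fin (d + k + 1) → R)) := by
    ext u t
    rw [Matrix.mul_apply]
    refine Eq.symm ((Fin.sum_univ_add (a := d) (b := k + 1) _).trans ?_)
    simp
  rw [e]
  refine (Matrix.det_mul (n := Fin (d + (k + 1))) _ _).trans (mul_eq_zero_of_left ?_ _)
  exact Matrix.det_eq_zero_of_column_eq_zero (Fin.natAdd d 0) fun u => by simp

variable {U V : Type} [AddCommGroup U] [Module ℂ U] [AddCommGroup V] [Module ℂ V]
  (f g : U →ₗ[ℂ] V)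

/-- a row of the matrix over the dual numbers -/
def row {n : ℕ} (φ : Fin n → V →ₗ[ℂ] ℂ) : U →ₗ[ℂ] Fin n → DualNumber ℂ :=
  LinearMap.pi fun t => (inlAlgHom ℂ ℂ ℂ).toLinearMap ∘ₗ φ t ∘ₗ f + inrHom ℂ ℂ ∘ₗ φ t ∘ₗ g

theorem row_apply {n : ℕ} (φ : Fin n → V →ₗ[ℂ] ℂ) (a : U) (t : Fin n) :
    row f g φ a t = inl (φ t (f a)) + inr (φ t (g a)) := rfl

/-- the derivative of a minor -/
def dm {n : ℕ} (φ : Fin n → V →ₗ[ℂ] ℂ) : MultilinearMap ℂ (fun _ : Fin n => U) ℂ :=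
  (sndHom ℂ ℂ).compMultilinearMap
    (((Matrix.detRowAlternating (n := Fin n) (R := DualNumber ℂ)).toMultilinearMap.restrictScalars
      ℂ).compLinearMap fun _ => row f g φ)

theorem dm_apply {n : ℕ} (φ : Fin n → V →ₗ[ℂ] ℂ) (a : Fin n → U) :
    dm f g φ a = snd (Matrix.of fun u => row f g φ (a u)).det := rfl

variable {f g} {N : Submodule ℂ U}

theorem exists_bas [Module.Finite ℂ (N.map f)] :
    ∃ (c : Fin (Module.finrank ℂ (N.map f)) → U) (φ : Fin (Module.finrank ℂ (N.map f)) → V →ₗ[ℂ] ℂ),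
      (∀ i, c i ∈ N) ∧ (∀ i j, φ j (f (c i)) = if i = j then 1 else 0) ∧
      ∀ v ∈ N.map f, v = ∑ i, φ i v • f (c i) := by
  let b := Module.finBasis ℂ (N.map f)
  choose c h1 h2 using fun i => (b i).2
  choose φ hφ using fun i => LinearMap.exists_extend (b.coord i)
  have h3 : ∀ i (v : N.map f), φ i v = b.repr v i := fun i v => LinearMap.congr_fun (hφ i) v
  refine ⟨c, φ, h1, fun i j => ?_, fun v hv => ?_⟩
  · rw [h2, h3, b.repr_self, Finsupp.single_apply]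
  · simpa [h2, ← h3] using congrArg Subtype.val (b.sum_repr ⟨v, hv⟩).symm

theorem dm_zero [Module.Finite ℂ (N.map f)] (h : ∀ a ∈ N, f a = 0 → g a ∈ N.map f) {n : ℕ}
    (hn : Module.finrank ℂ (N.map f) < n) (φ : Fin n → V →ₗ[ℂ] ℂ) {a : Fin n → U}
    (ha : ∀ u, a u ∈ N) : dm f g φ a = 0 := by
  obtain ⟨c, ψ, h1, -, h3⟩ := exists_bas (f := f) (N := N)
  have h4 := fun u => h3 _ ⟨a u, ha u, rfl⟩
  have h5 := fun u => h3 _ (h (a u - ∑ i, ψ i (f (a u)) • c i)
    (sub_mem (ha u) (N.sum_mem fun i _ => N.smul_mem _ (h1 i)))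
    (by rw [map_sub, map_sum, sub_eq_zero]; simpa using h4 u))
  rw [dm_apply, ← snd_zero (R := ℂ) (M := ℂ), ← det_lt hn
    (fun u i => inl (ψ i (f (a u))) + inr (ψ i (g (a u - ∑ i, ψ i (f (a u)) • c i))))
    fun i => row f g φ (c i)]
  congr 2
  ext u t
  · simpa [row_apply, fst_sum] using congrArg (φ t) (h4 u)
  · have h6 := congrArg (φ t) (h5 u)
    rw [map_sub, map_sub, sub_eq_iff_eq_add', map_sum g, map_sum, map_sum,
      ← Finset.sum_add_distrib] at h6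
    simpa [row_apply, snd_sum, mul_comm, add_comm] using h6

theorem ml_span {n : ℕ} (F : MultilinearMap ℂ (fun _ : Fin n => U) ℂ) {T : Set U}
    (h : ∀ a : Fin n → U, (∀ u, a u ∈ T) → F a = 0) {a : Fin n → U}
    (ha : ∀ u, a u ∈ Submodule.span ℂ T) : F a = 0 := by
  choose k c t e using fun u => Submodule.mem_span_set'.1 (ha u)
  rw [← funext e, F.map_sum]
  exact Finset.sum_eq_zero fun r _ => by rw [F.map_smul_univ, h _ fun u => (t u _).2, smul_zero]

theorem of_dm [Module.Finite ℂ (N.map f)]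
    (h : ∀ (φ : Fin (Module.finrank ℂ (N.map f) + 1) → V →ₗ[ℂ] ℂ) a, (∀ u, a u ∈ N) →
      dm f g φ a = 0) {a : U} (ha : a ∈ N) (h0 : f a = 0) : g a ∈ N.map f := by
  by_contra hn
  obtain ⟨ψ, h1, h2⟩ := Submodule.exists_dual_map_eq_bot_of_notMem hn inferInstance
  obtain ⟨c, φ, h3, h4, -⟩ := exists_bas (f := f) (N := N)
  have h5 : ∀ i, ψ (f (c i)) = 0 := fun i =>
    (Submodule.mem_bot ℂ).1 (h2 ▸ Submodule.mem_map_of_mem ⟨c i, h3 i, rfl⟩)
  have h6 := h (Fin.cons ψ φ) (Fin.cons a c) (Fin.cases ha h3)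
  rw [dm_apply, Matrix.det_succ_row_zero, snd_sum, Fin.sum_univ_succ,
    Finset.sum_eq_zero fun t _ => ?_] at h6
  · have h7 : ∀ M : Matrix _ _ (DualNumber ℂ), M.map fst = 1 → fst M.det = 1 := fun M e =>
      ((fstHom ℂ ℂ ℂ).map_det M).trans (e ▸ Matrix.det_one (n := Fin (Module.finrank ℂ (N.map f))))
    refine h1 ?_
    simp only [Matrix.of_apply, row_apply, Fin.cons_zero, h0, map_zero] at h6
    rw [DualNumber.snd_mul, h7 _ (by
      ext i j
      simp [row_apply, h4, Matrix.one_apply])] at h6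
    simpa using h6
  · have h7 : ∀ M : Matrix (Fin (Module.finrank ℂ (N.map f))) _ (DualNumber ℂ), ∀ j,
        (∀ i, fst (M i j) = 0) → fst M.det = 0 := fun M j e =>
      ((fstHom ℂ ℂ ℂ).map_det M).trans (Matrix.det_eq_zero_of_column_eq_zero j e)
    rw [DualNumber.snd_mul, h7 _ ⟨0, t.pos⟩ fun i => ?_]
    · simp [row_apply, h0]
    · have e : t.succ.succAbove ⟨0, t.pos⟩ = 0 :=
        (Fin.succAbove_of_castSucc_lt _ _ t.succ_pos).trans rfl
      simp [row_apply, e, h5]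

/-- the point over the dual numbers -/
def ψ {ι : Type} (q τ : ι → ℂ) : MvPolynomial ι ℂ →ₐ[ℂ] DualNumber ℂ :=
  MvPolynomial.aeval fun J => inl (q J) + inr (τ J)

theorem ψ_eq {ι : Type} [Fintype ι] (q τ : ι → ℂ) (a : MvPolynomial ι ℂ) :
    fst (ψ q τ a) = MvPolynomial.eval q a ∧ snd (ψ q τ a) = dd q τ a := by
  classical
  induction a using MvPolynomial.induction_on with
  | C c => simp [ψ, dd, algebraMap_eq_inl]
  | add a b ha hb => simp [dd, ha.1, ha.2, hb.1, hb.2, mul_add, Finset.sum_add_distrib]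
  | mul_X a J ha =>
    rw [map_mul, fst_mul, DualNumber.snd_mul, ha.1, ha.2]
    simp [ψ, dd, MvPolynomial.pderiv_X, Pi.single_apply, mul_add, Finset.sum_add_distrib,
      Finset.mul_sum, apply_ite, mul_comm, mul_left_comm]

variable {Y : Spc} (D : Dat Y)

/-- the multiplication map -/
def mu (q : D.Ix → ℂ) : (D.Sx → Y.R) →ₗ[ℂ] D.V.M :=
  (Fintype.linearCombination Y.R (D.v0 q)).restrictScalars ℂ

/-- the generators in degree `k` -/
def T (k : ℤ) : Set (D.Sx → Y.R) := {a | ∃ s, ∃ ρ ∈ Y.wt (dg Y (k - D.m)), a = Pi.single s ρ}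

variable {D}

theorem mu_single (q : D.Ix → ℂ) (s : D.Sx) (ρ : Y.R) :
    mu D q (Pi.single s ρ) = ρ • D.v0 q s := Fintype.linearCombination_apply_single _ _ s ρ

theorem mu_wt (q : D.Ix → ℂ) (k : ℤ) :
    (Submodule.span ℂ (T D k)).map (mu D q) ≤ D.V.wt (dg Y k) := by
  rw [Submodule.map_span, Submodule.span_le]
  rintro _ ⟨_, ⟨s, ρ, h, rfl⟩, rfl⟩
  rw [mu_single]
  exact mwt_eq (GMod.smul_mem_wt h (D.v0_wt q s)) (funext fun _ => sub_add_cancel _ _)

theorem comp_wt {k : ℤ} {a : D.Sx → Y.R} (h : a ∈ D.Φ0.wt (dg Y k)) (s : D.Sx) :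
    a s ∈ Y.wt (dg Y (k - D.m)) := fun g => by
  have h1 : chr (- -dg Y D.m) g • Y.act g (a s) = chr (dg Y k) g • a s := congrFun (h g) s
  have h2 := congrArg (chr (-dg Y D.m) g • ·) h1
  simp only [neg_neg, smul_smul, chr_neg_mul, one_smul] at h2
  rw [← chr_add, neg_add_eq_sub] at h2
  exact h2

theorem mem_span {k : ℤ} {a : D.Sx → Y.R} (h : a ∈ D.Φ0.wt (dg Y k)) :
    a ∈ Submodule.span ℂ (T D k) :=
  Finset.univ_sum_single a ▸
    Submodule.sum_mem _ fun s _ => Submodule.subset_span ⟨s, _, comp_wt h s, rfl⟩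

theorem map_mu (q : D.Ix → ℂ) (k : ℤ) : (Submodule.span ℂ (T D k)).map (mu D q) =
    D.V.wt (dg Y k) ⊓ (D.gen q).restrictScalars ℂ := by
  refine le_antisymm (le_inf (mu_wt q k) ?_) ?_
  · rintro _ ⟨a, -, rfl⟩
    exact ⟨a, rfl⟩
  · rintro _ ⟨h, a, rfl⟩
    obtain ⟨b, h1, h2⟩ := exists_wt_preimage D.Φ0.span ((D.μ0 q).restrictScalars ℂ) (D.μ0_hom q) h
    exact ⟨b, mem_span h1, h2⟩

theorem dd_det (q τ : D.Ix → ℂ) {n : ℕ} (s : Fin n → D.Sx) (ρ : Fin n → Y.R)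
    (φ : Fin n → D.V.M →ₗ[ℂ] ℂ) :
    dd q τ (Matrix.of fun u t => ∑ i, φ t (ρ u • D.eV i) • vec MvPolynomial.X (s u) i).det =
      dm (mu D q) (mu D τ) φ fun u => Pi.single (s u) (ρ u) := by
  rw [← (ψ_eq q τ _).2, dm_apply, AlgHom.map_det]
  congr 2
  ext u t <;>
    simp [row_apply, mu_single, ψ, vec, Dat.v0, fst_sum, snd_sum, Finset.smul_sum, smul_comm (ρ u),
      mul_comm]

end TanA

open TanA in
theorem tan : TAN := fun hB Y S D q τ hq => by
  have hf : ∀ k, Module.Finite ℂ ((Submodule.span ℂ (T D k)).map (mu D q)) := fun k =>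
    have := (hB Y S).fin D.V k
    Submodule.finiteDimensional_of_le (mu_wt q k)
  have hr : ∀ k, D.m ≤ k → ∀ n : ℕ, (Module.finrank ℂ (D.V.wt (dg Y k)) : ℤ) < n + D.p k ↔
      Module.finrank ℂ ((Submodule.span ℂ (T D k)).map (mu D q)) < n := fun k hk n => by
    rw [map_mu, ← hq k hk, Qt.hq]
    omega
  refine ⟨fun h ρ hρ => ?_, ?_⟩
  · refine wt_induction_sub D.Φ0.span ((LinearMap.ker (D.μ0 q)).restrictScalars ℂ)
      (D.μ0_hom q).stab_ker (P := fun ρ => D.μ0 τ ρ ∈ D.gen q) ?_ (fun γ a h1 h2 => ?_)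
      (fun a b ha hb => ?_) ρ hρ
    · rw [map_zero]
      exact zero_mem _
    · obtain ⟨k, rfl⟩ : ∃ k, γ = dg Y k := ⟨γ S.uniq.default, funext fun j => by
        rw [S.uniq.uniq j]; rfl⟩
      rcases lt_or_ge k D.m with hk | hk
      · obtain rfl : a = 0 := funext fun s =>
          (Submodule.mem_bot ℂ).1 (S.neg _ (sub_neg.2 hk) ▸ comp_wt h2 s)
        rw [map_zero]
        exact zero_mem _
      · have := hf k
        refine ((map_mu q k).le (of_dm (g := mu D τ) (fun φ a ha => ml_span _ (fun a ha => ?_) ha)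
          (mem_span h2) h1)).2
        choose s ρ h3 h4 using ha
        rw [funext h4, ← dd_det]
        exact h _ ⟨k, _, s, ρ, φ, hk, (hr k hk _).2 (Nat.lt_succ_self _), h3, rfl⟩
    · rw [map_add]
      exact add_mem ha hb
  · rintro h _ ⟨k, n, s, ρ, φ, hk, h1, h2, rfl⟩
    have := hf k
    refine (dd_det q τ s ρ φ).trans (dm_zero (N := Submodule.span ℂ (T D k)) (fun a ha h0 => ?_)
      ((hr k hk n).1 h1) φ fun u => Submodule.subset_span ⟨_, _, h2 u, rfl⟩)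
    exact (map_mu q k).ge ⟨mu_wt τ k ⟨a, ha, rfl⟩, h a h0⟩

end Vale.Agent.P297Z.Qt
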