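import Vale.Agent.P297Z.Quot.ObsD
import Vale.Agent.P297Z.Quot.Bas
import Vale.Agent.P297Z.Quot.Kosp
import Vale.Agent.P297Z.Quot.RegB
import Vale.Agent.P297Z.Quot.Exk
import Vale.Agent.P297Z.Quot.H1
import Vale.Agent.P297Z.Quot.Grt
import Vale.Agent.P297Z.Quot.Pts
import Vale.Agent.P297Z.Quot.Kx
import Vale.Agent.P297Z.Quot.Tan
import Vale.Agent.P297Z.Quot.Fbk
import Vale.Agent.P297Z.Quot.Flb
import Vale.Agent.P297Z.Quot.Hbq
import Vale.Agent.P297Z.Quot.Hbd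
import Vale.Agent.P297Z.Quot.Cls
import Vale.Agent.P297Z.Quot.Bch
import Vale.Agent.P297Z.Quot.Fam
import Vale.Agent.P297Z.Quot.NatQ
import Vale.Agent.P297Z.Quot.Hcl
import Vale.Agent.P297Z.Quot.Cut
import Vale.Agent.P297Z.Quot.Blk
import Vale.Agent.P297Z.Quot.Min
import Vale.Agent.P297Z.Quot.Rst
import Vale.Agent.P297Z.Quot.Hp
import Vale.Agent.P297Z.Quot.SurS

/-!
# P297: the Quot space, the statements without hypotheses
-/

set_option linter.all false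

noncomputable section

namespace Vale.Agent.P297Z.Qt

variable {W W' Y : Spc} {S : Sur Y} {D : Dat Y}

theorem Sur.fbk' (S : Sur Y) (z : W.Pt) : Fbk S z := fbk bas W Y S z

theorem Dat.Ok.pts' (h : D.Ok S) : Pts S D := pts bas Y S D h

theorem Dat.Ok.kx' (h : D.Ok S) {q : D.Ix → ℂ} (hq : D.Pt q) : Kx S D q :=
  kx bas kosp exk h1 pts Y S D h q hq

theorem Dat.Ok.fm' (h : D.Ok S) (c : D.Crd W) (hc : ∀ z, D.Pt (c.cz z)) : Fm S c :=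
  fam fbk flb bas W Y S D c fun z => h.pts'.reg _ (hc z)

theorem Dat.Crd.nat' (c : D.Crd W) (g : Mor W' W) : Nat' c g := nat fbk flb fam bas W W' Y D c g

theorem Dat.Ok.hcl' (h : D.Ok S) (c : D.Crd W) (hc : ∀ z, D.Pt (c.cz z)) : Hcl S c :=
  hcl fbk flb fam hb cls' resh bas kosp exk h1 pts kx W Y S D c h hc

theorem Dat.Ok.const' (h : D.Ok S) (c : D.Crd W) (hW : IsDomain W.R) (hc : ∀ z, D.Pt (c.cz z))
    (z z' : W.Pt) : D.hd (c.cz z) = D.hd (c.cz z') ∧ ∀ b, D.tau b (c.cz z) = D.tau b (c.cz z') :=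
  (cut fbk flb fam hb bas kosp exk h1 pts kx Y S D h).1 W c hW hc z z'

theorem Dat.Ok.num' (h : D.Ok S) {Z : Set D.Pol.Pt} (hZ : Num D Z) : D.Pol.Stab Z ∧ D.Pol.Clo Z ∧
    ∀ z, z ∉ Z → ∃ a, z.1 a ≠ 0 ∧ ∀ z' ∈ Z, ∃ r, z'.1 r ≠ 0 ∧ r * a ∈ D.I :=
  (cut fbk flb fam hb bas kosp exk h1 pts kx Y S D h).2 Z hZ

theorem Dat.tan' (S : Sur Y) (D : Dat Y) (q τ : D.Ix → ℂ)
    (h : ∀ k, D.m ≤ k → hq D.V (D.gen q) k = D.p k) :
    (∀ a ∈ D.minors, dd q τ a = 0) ↔ ∀ ρ : D.Φ0.M, D.μ0 q ρ = 0 → D.μ0 τ ρ ∈ D.gen q :=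
  tan bas Y S D q τ h

theorem obs_con (h : CON) : OBS :=
  obs_of bas kosp exk h1 grt pts kx fbk flb hb hbd cls' resh bch fam nat hcl cut blk min rst hp h

end Vale.Agent.P297Z.Qt
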