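import Vale.Agent.P297Z.Quot.Hbq1
import Vale.Agent.P297Z.Quot.Fam
import Vale.Agent.P297Z.Loc.Obk

/-!
# P297: the class of a conormal bundle from the Euler sequence
-/

set_option linter.all false

noncomputable section

namespace Vale.Agent.P297Z.Qt.Cn

open GMod
open Submodule.Quotient (mk)

variable {ι : Type} [Fintype ι]

section alg

variable {R N : Type} [CommRing R] [Algebra ℂ R] [AddCommGroup N] [Module R N] [Module ℂ N]
  [IsScalarTower ℂ R N] [Module.Finite R N] {z : R →ₐ[ℂ] ℂ}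

theorem fib_inj {δ : ι → N →ₗ[R] R} (h : ∀ n, (∀ J, z (δ J n) = 0) → (mk n : Fib z N) = 0) :
    Function.Injective (fibMap z (LinearMap.pi δ)) :=
  (injective_iff_map_eq_zero _).2 fun x hx => by
    obtain ⟨n, rfl⟩ := fib_surj x
    exact h n (mk_pi_eq_zero.1 hx)

theorem exists_ann {δ : ι → N →ₗ[R] R} (h : ∀ n, (∀ J, z (δ J n) = 0) → (mk n : Fib z N) = 0) :
    ∃ V : Submodule ℂ (ι → ℂ), (∀ τ, τ ∈ V ↔ ∀ n, ∑ J, τ J * z (δ J n) = 0) ∧
      fdim z N + Module.finrank ℂ V = Fintype.card ι := by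
  classical
  let D : Fib z N →ₗ[ℂ] (ι → ℂ) := (fibPi z ι).symm.toLinearMap ∘ₗ fibC z (LinearMap.pi δ)
  have hD : ∀ n, D (mk n) = fun J => z (δ J n) := fun n => Obk.fibPi_symm z _
  have hi : Function.Injective D := (injective_iff_map_eq_zero _).2 fun x hx => by
    obtain ⟨n, rfl⟩ := fib_surj x
    exact h n (congrFun ((hD n).symm.trans hx))
  let E := D.dualMap ∘ₗ (dotProductEquiv ℂ ι).toLinearMap
  have hE : ∀ τ n, E τ (mk n) = ∑ J, τ J * z (δ J n) := fun τ n =>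
    congrArg (dotProduct τ) (hD n)
  have hs : LinearMap.range E = ⊤ := LinearMap.range_eq_top.2
    ((LinearMap.dualMap_surjective_of_injective hi).comp (dotProductEquiv ℂ ι).surjective)
  refine ⟨LinearMap.ker E, fun τ => ⟨fun h n => by rw [← hE, h, LinearMap.zero_apply], fun h =>
    LinearMap.ext fun x => ?_⟩, ?_⟩
  · obtain ⟨n, rfl⟩ := fib_surj x
    exact (hE τ n).trans (h n)
  · have := E.finrank_range_add_finrank_ker
    rwa [hs, finrank_top, Subspace.dual_finrank_eq, Module.finrank_fintype_fun_eq_card] at this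

theorem surj_dual [IsNoetherianRing R] {ν : ℕ} (hN : FreeAt z N ν) {δ : ι → N →ₗ[R] R}
    (h : ∀ n, (∀ J, z (δ J n) = 0) → (mk n : Fib z N) = 0) (l : N →ₗ[R] R) :
    ∃ (r : R) (τ : ι → R), z r ≠ 0 ∧ ∑ J, τ J • δ J = r • l := by
  classical
  obtain ⟨r, t, hr, ht⟩ := exists_left_inv hN (freeAt_fun ι) (fib_inj h)
  refine ⟨r, fun J => l (t (Pi.single J 1)), hr, LinearMap.ext fun n => ?_⟩
  rw [LinearMap.smul_apply, ← map_smul, ← ht, LinearMap.sum_apply,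
    LinearMap.pi_apply_eq_sum_univ t, map_sum]
  refine Finset.sum_congr rfl fun J _ => ?_
  rw [map_smul, LinearMap.smul_apply, smul_eq_mul, smul_eq_mul, mul_comm]
  exact congrArg (fun v => δ J n * l (t v))
    (funext fun j => (Pi.single_apply J (1 : R) j).trans (if_congr eq_comm rfl rfl))

theorem kill {n : ℕ} {P : Set (R →ₐ[ℂ] ℂ)} (hP : ∀ r, (∀ y ∈ P, y r = 0) → r = 0)
    (hN : FreeAt z N n) : ∃ r, z r ≠ 0 ∧ ∀ x : N, (∀ y ∈ P, (mk x : Fib y N) = 0) → r • x = 0 := by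
  obtain ⟨r, v, l, hr, h, -⟩ := AK.free_basis hN
  refine ⟨r, hr, fun x hx => (h x).symm.trans (Finset.sum_eq_zero fun i _ => ?_)⟩
  rw [hP (l i x) fun y hy => ?_, zero_smul]
  refine Submodule.smul_induction_on (p := fun x => y (l i x) = 0)
    ((Submodule.Quotient.mk_eq_zero _).1 (hx y hy)) (fun a ha m _ => ?_) fun a b ha hb => ?_
  · rw [map_smul, smul_eq_mul, map_mul, RingHom.mem_ker.1 ha, zero_mul]
  · rw [map_add, map_add, ha, hb, add_zero]

end alg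

variable {X : Spc}

/-- the coordinates of an element of a sum of twists -/
def co (e : ι → X.J → ℤ) : (Fr e).M ≃ₗ[X.R] (ι → X.R) := LinearEquiv.refl X.R (ι → X.R)

/-- a functional as an element of the dual -/
def du (N : GMod X) : (N.M →ₗ[X.R] X.R) ≃ₗ[X.R] N.dual.M := LinearEquiv.refl X.R _

theorem lc_eq {B : GMod X} (e : ι → X.J → ℤ) (b : ι → B.M) (τ : (Fr e).M) :
    Hb.lc e b τ = ∑ J, co e τ J • b J := rfl

theorem du_wt {N : GMod X} {γ : X.J → ℤ} {l : N.M →ₗ[X.R] X.R}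
    (h : N.IsHom ((one X).shift γ) l) : du N l ∈ N.dual.wt γ := fun g =>
  LinearMap.ext fun n => by
    have e : l (N.act g⁻¹ n) = chr (-γ) g⁻¹ • X.act g⁻¹ (l n) := h g⁻¹ n
    change X.act g (l (N.act g⁻¹ n)) = chr γ g • l n
    rw [e, map_smul, X.act_act_inv, chr_inv, chr_neg, inv_inv]

theorem co_wt {e : ι → X.J → ℤ} {x : ι → X.R} (hx : ∀ J, x J ∈ X.wt (-e J)) :
    (co e).symm x ∈ (Fr e).wt 0 := fun g => funext fun J => by
  change chr (- -e J) g • X.act g (x J) = chr 0 g • x J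
  rw [Spc.mem_wt.1 (hx J), smul_smul, chr_neg_mul, chr_zero]

/-- the map from the structure module given by an element -/
def sec (M : GMod X) (m : M.M) : (one X).M →ₗ[X.R] M.M := LinearMap.toSpanSingleton X.R M.M m

theorem sec_ap (M : GMod X) (m : M.M) (r : X.R) : sec M m r = r • m := rfl

theorem sec_hom {M : GMod X} {m : M.M} (h : m ∈ M.wt 0) : (one X).IsHom M (sec M m) :=
  fun g (r : X.R) => by
    change X.act g r • m = M.act g (r • m)
    rw [M.act_smul, h g, chr_zero, one_smul]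

theorem fib_co (e : ι → X.J → ℤ) (z : X.Pt) (τ : (Fr e).M) :
    (mk τ : Fib z.1 (Fr e).M) = 0 ↔ ∀ J, z.1 (co e τ J) = 0 :=
  mk_pi_eq_zero (z := z.1) (v := co e τ)

theorem fib_one (z : X.Pt) (r : X.R) : (mk r : Fib z.1 (one X).M) = 0 ↔ z.1 r = 0 := by
  refine (Submodule.Quotient.mk_eq_zero (RingHom.ker z.1 • (⊤ : Submodule X.R X.R))).trans ?_
  rw [smul_eq_mul, Ideal.mul_top, RingHom.mem_ker]

/-- the Euler sequence -/
theorem euler {T C : GMod X} {e : ι → X.J → ℤ} {a : ℕ} (hT : T.IsBun (1 + a)) (hC : C.IsBun a)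
    {j : T.M →ₗ[X.R] (Fr e).M} (hj : ∀ z : X.Pt, Function.Injective (fibMap z.1 j))
    {β : T.M →ₗ[X.R] C.M} (hβ : T.IsHom C β) {x : T.M} (hx : x ∈ T.wt 0) (h0 : β x = 0)
    (h5 : ∀ z : X.Pt, ∃ J, z.1 (co e (j x) J) ≠ 0)
    (h7 : ∀ (z : X.Pt) (τ : T.M), (mk (β τ) : Fib z.1 C.M) = 0 →
      ∃ t : ℂ, ∀ J, z.1 (co e (j τ) J) = t * z.1 (co e (j x) J)) :
    kc T (1 + a) = 1 + kc C a := by
  have k0 : ∀ r, β (sec T x r) = 0 := fun (r : X.R) => by rw [sec_ap, map_smul, h0, smul_zero]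
  have k1 : ∀ z : X.Pt, Function.Injective (fibMap z.1 (sec T x)) := fun z =>
    (injective_iff_map_eq_zero _).2 fun y hy => by
      obtain ⟨r, rfl⟩ := fib_surj y
      obtain ⟨J, hJ⟩ := h5 z
      have h := congrArg (fibMap z.1 j) hy
      rw [map_zero, fibMap_mk, fibMap_mk, fib_co] at h
      have h' := h J
      revert r
      intro (r : X.R) _ _ h'
      rw [sec_ap, map_smul, map_smul, Pi.smul_apply, smul_eq_mul, map_mul] at h'
      exact (fib_one z r).2 ((mul_eq_zero.1 h').resolve_right hJ)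
  have k2 : ∀ z : X.Pt, ∀ y, fibMap z.1 β y = 0 → ∃ u, fibMap z.1 (sec T x) u = y :=
    fun z y hy => by
      obtain ⟨τ, rfl⟩ := fib_surj y
      obtain ⟨t, ht⟩ := h7 z τ hy
      refine ⟨mk (algebraMap ℂ X.R t), hj z ?_⟩
      change (mk (j (sec T x (algebraMap ℂ X.R t))) : Fib z.1 (Fr e).M) = mk (j τ)
      rw [← sub_eq_zero, ← Submodule.Quotient.mk_sub, fib_co]
      intro J
      rw [map_sub, Pi.sub_apply, map_sub, ht, sec_ap, map_smul, map_smul, Pi.smul_apply,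
        smul_eq_mul, map_mul, AlgHom.commutes, sub_eq_zero]
      rfl
  have k3 : ∀ z : X.Pt, Function.Surjective (fibMap z.1 β) := fun z => by
    have h := frk_add_of_exact (z := z.1) (f := sec T x) (g := β) fun y =>
      ⟨k2 z y, by rintro ⟨u, rfl⟩; exact fibMap_comp_zero k0 u⟩
    rw [frk_of_inj (k1 z), (isBun_one X).fdim, hT.fdim, add_right_inj, ← hC.fdim z] at h
    exact (LinearMap.range_eq_top (f := fibC z.1 β)).1 (Submodule.eq_top_of_finrank_eq h)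
  rw [kc_ses (ses_of_fib (sec_hom hx) hβ k0 hT hC k1 k2 k3) (isBun_one X) hC, kc_one]

theorem core [hX : Nonempty X.Pt] {N A : GMod X} {K : Submodule X.R A.M} (hK : A.Stab K) {a : ℕ}
    (hA : (A.sub K hK).IsBun a) (e : ι → X.J → ℤ) (δ : ι → N.M →ₗ[X.R] X.R)
    (hδ : ∀ J, N.IsHom ((one X).shift (e J)) (δ J)) (b : ι → A.M) (hb : ∀ J, b J ∈ A.wt (e J))
    (x : ι → X.R) (hx : ∀ J, x J ∈ X.wt (-e J))
    (h1 : ∀ (z : X.Pt) n, (∀ J, z.1 (δ J n) = 0) → (mk n : Fib z.1 N.M) = 0)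
    (h2 : ∀ (z : X.Pt) (V : Submodule ℂ (ι → ℂ)),
      (∀ τ, τ ∈ V ↔ ∀ n, ∑ J, τ J * z.1 (δ J n) = 0) → Module.finrank ℂ V = 1 + a)
    (h3 : ∀ n, ∑ J, x J * δ J n = 0) (h4 : ∑ J, x J • b J = 0)
    (h5 : ∀ z : X.Pt, ∃ J, z.1 (x J) ≠ 0)
    (h6 : ∀ τ : ι → X.R, (∀ n, ∑ J, τ J * δ J n = 0) →
      ∀ z : X.Pt, ∃ r, z.1 r ≠ 0 ∧ r • ∑ J, τ J • b J ∈ K)
    (h7 : ∀ (z : X.Pt) (τ : ι → X.R), (∀ n, ∑ J, τ J * δ J n = 0) →
      (mk (∑ J, τ J • b J) : Fib z.1 A.M) = 0 → ∃ t : ℂ, ∀ J, z.1 (τ J) = t * z.1 (x J)) :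
    ∃ ν, N.IsBun ν ∧ dualK X (kc N ν) = ∑ J, line X (-e J) - 1 - kc (A.sub K hK) a := by
  have k1 : ∀ z : X.Pt, 1 + a + fdim z.1 N.M = Fintype.card ι := fun z => by
    obtain ⟨V, hV, h⟩ := exists_ann (h1 z)
    rw [← h, h2 z V hV, add_comm]
  obtain ⟨ν, hν⟩ : ∃ ν, 1 + a + ν = Fintype.card ι := ⟨_, k1 hX.some⟩
  have hN : N.IsBun ν := isBun_of_rank fun z => add_left_cancel ((k1 z).trans hν.symm)
  have hψ : (Fr e).IsHom N.dual (Hb.lc e fun J => du N (δ J)) := lc_hom _ _ fun J => du_wt (hδ J)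
  have hβ : (Fr e).IsHom A (Hb.lc e b) := lc_hom _ _ hb
  have eψ : ∀ τ, Hb.lc e (fun J => du N (δ J)) τ = du N (∑ J, co e τ J • δ J) := fun τ => by
    rw [lc_eq, map_sum]
    exact Finset.sum_congr rfl fun J _ => (map_smul _ _ _).symm
  have mψ : ∀ τ, τ ∈ LinearMap.ker (Hb.lc e fun J => du N (δ J)) ↔
      ∀ n, ∑ J, co e τ J * δ J n = 0 := fun τ => by
    rw [LinearMap.mem_ker, eψ, LinearEquiv.map_eq_zero_iff, LinearMap.ext_iff]
    exact forall_congr' fun n => by rw [LinearMap.sum_apply]; rfl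
  have hs := hψ.ses_ker fun z l => by
    obtain ⟨r, τ, hr, h⟩ := surj_dual (hN z) (h1 z) ((du N).symm l)
    exact ⟨r, (co e).symm τ, hr, by
      rw [eψ, LinearEquiv.apply_symm_apply, h, map_smul, LinearEquiv.apply_symm_apply]⟩
  have hT : (Fr e).IsBun (1 + a + ν) := hν ▸ bun_fr e
  have hK0 := hs.isBun_left hT hN.dual
  have hβ' := hβ.comp hs.1
  have hS := hβ'.stab_comap hK
  have hq : Qis (hψ.kerM.sub _ hS) hψ.kerM (Submodule.subtype _) :=
    qis_of_bij (isHom_subtype _ _ _) fun z => ⟨.of_inj Subtype.val_injective, fun τ => by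
      obtain ⟨r, hr, h⟩ := h6 (co e τ.1) ((mψ τ.1).1 τ.2) z
      exact ⟨r, ⟨r • τ, Submodule.mem_comap.2 (by rw [map_smul]; exact h)⟩, hr, rfl⟩⟩
  have x1 : (co e).symm x ∈ LinearMap.ker (Hb.lc e fun J => du N (δ J)) := (mψ _).2 h3
  have x2 : (⟨_, x1⟩ : hψ.kerM.M) ∈ K.comap (Hb.lc e b ∘ₗ (LinearMap.ker _).subtype) :=
    Submodule.mem_comap.2 ((congrArg (· ∈ K) h4).mpr K.zero_mem)
  have k2 := euler (hq.isBun_iff.2 hK0) hA
    (j := (LinearMap.ker _).subtype ∘ₗ Submodule.subtype _)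
    (fun z u v h => (hq.2 z).fib.1 (hs.fib_inj hN.dual z
      ((fibMap_comp _ _ u).symm.trans (h.trans (fibMap_comp _ _ v)))))
    ((hβ'.domRestrict hS).codRestrict hK fun τ => τ.2) (x := ⟨_, x2⟩)
    (fun g => Subtype.ext (Subtype.ext (co_wt hx g))) (Subtype.ext h4) h5
    fun z τ h => h7 z _ ((mψ τ.1.1).1 τ.1.2)
      ((congrArg (fibMap z.1 K.subtype) h).trans (map_zero _))
  refine ⟨ν, hN, ?_⟩
  rw [dualK_kc hN, ← kc_fr, ← hν, kc_ses hs hK0 hN.dual, ← kc_qis hq, k2]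
  ring

end Vale.Agent.P297Z.Qt.Cn
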