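import Vale.Agent.P297Z.Quot.Con1

/-!
# P297: tangent vectors of the Pluecker space as maps to the universal quotient
-/

set_option linter.all false

noncomputable section

namespace Vale.Agent.P297Z.Qt.Cn

open GMod
open Submodule.Quotient (mk)

variable {W Y : Spc} {D : Dat Y} {S : Sur Y}

theorem co_mem {ι : Type} [Fintype ι] {e : ι → Y.J → ℤ} {γ : Y.J → ℤ} {τ : (Fr e).M}
    (h : τ ∈ (Fr e).wt γ) (J : ι) : co e τ J ∈ Y.wt (γ + -e J) :=
  (mem_shift_wt (M := one Y) (γ := -e J) (δ := γ) (m := co e τ J)).1 fun g => congrFun (h g) J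

theorem ev_ap {z : W.Pt} {B G : GMod (W.prod Y)} {G₀ : GMod Y} {ε : G.M →+ G₀.M}
    (h : IsEv z G G₀ ε) {k : ℤ} {φ : (S.pc (B.hom G) k).M}
    (hφ : (mk φ : Fib z.1 (S.pc (B.hom G) k).M) = 0) (b : B.M) : ε (ap (S.val _ k φ) b) = 0 := by
  refine Submodule.smul_induction_on (p := fun φ => ε (ap (S.val _ k φ) b) = 0)
    ((Submodule.Quotient.mk_eq_zero _).1 hφ) (fun a ha m _ => ?_) fun a b ha hb => ?_
  · rw [S.val_smul, map_smul, LinearMap.smul_apply, h.smul, evR_fst, RingHom.mem_ker.1 ha,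
      map_zero, zero_smul]
  · rw [map_add, map_add, LinearMap.add_apply, map_add, ha, hb, add_zero]

theorem kill' {M : GMod W} {n : ℕ} (h : M.IsBun n) (z : W.Pt) : ∃ r, z.1 r ≠ 0 ∧
    ∀ x : M.M, (∀ y : W.Pt, x ∈ RingHom.ker y.1 • (⊤ : Submodule W.R M.M)) → r • x = 0 :=
  (kill (P := {y | ∃ f ∈ W.b, y f ≠ 0}) W.sep (h z)).imp fun r h => ⟨h.1, fun x hx =>
    h.2 x fun y hy => (Submodule.Quotient.mk_eq_zero _).2 (hx ⟨y, hy⟩)⟩

/-! ### One point -/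

theorem μ0_cst (q : D.Ix → ℂ) {ρ : D.Φ0.M} {t : D.Sx → ℂ}
    (h : ∀ s, co (fun _ => dg Y D.m) ρ s = algebraMap ℂ Y.R (t s)) :
    D.μ0 q ρ = Fintype.linearCombination ℂ D.eV (∑ s, t s • vec q s) := by
  rw [map_sum]
  refine (lc_eq (fun _ => dg Y D.m) (D.v0 q) ρ).trans (Finset.sum_congr rfl fun s _ => ?_)
  rw [h, algebraMap_smul, map_smul]
  rfl

theorem tan_mem (hO : D.Ok S) (hP : Pts S D) {q τ : D.Ix → ℂ} (hq : Plk.Rel q)
    (hG : Grt D.r D.β q) (hτ : τ ∈ Tq (Plk.IPl ℂ D.r D.β) q) {ρ : D.Φ0.M}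
    (hρ : ρ ∈ D.Φ0.wt (dg Y D.m)) (h0 : D.μ0 q ρ = 0) : D.μ0 τ ρ ∈ D.gen q := by
  choose t ht using fun s => S.cst _ (wt_eq (co_mem (e := fun _ => dg Y D.m) hρ s)
    (funext fun j => add_neg_cancel D.m))
  obtain ⟨_, φ, -, hφ⟩ := hG.tan1 τ hτ
  have h1 : ∑ s, t s • vec q s = 0 := hO.ind.fintypeLinearCombination_injective
    ((μ0_cst q ht).symm.trans (h0.trans (map_zero _).symm))
  refine (hP.deg_m q hq _ ((D.μ0_hom τ).map_wt hρ)).2 ⟨_, ?_, (μ0_cst τ ht).symm⟩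
  have h2 : ∑ s, t s • vec τ s = ∑ s, t s • (vec τ s - φ (vec q s)) + φ (∑ s, t s • vec q s) := by
    rw [map_sum, ← Finset.sum_add_distrib]
    exact Finset.sum_congr rfl fun s _ => by rw [map_smul, ← smul_add, sub_add_cancel]
  rw [h2, h1, map_zero, add_zero]
  exact Submodule.sum_mem _ fun s _ => Submodule.smul_mem _ _ (hφ s)

theorem rad_mem (hO : D.Ok S) (hP : Pts S D) {q τ : D.Ix → ℂ} (hq : Plk.Rel q) {s : D.Sx}
    (h : D.v0 τ s ∈ D.gen q) : vec τ s ∈ Plk.sub q := by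
  obtain ⟨u, hu, e⟩ := (hP.deg_m q hq _ (D.v0_wt τ s)).1 h
  exact (hO.ind.fintypeLinearCombination_injective (a₂ := vec τ s) e) ▸ hu

theorem card_eq (hO : D.Ok S) {q : D.Ix → ℂ} (hq : D.Pt q) :
    Fintype.card D.β = D.r + (D.p D.m).toNat := by
  obtain ⟨J, hJ⟩ := hq.ne
  have h1 := Fintype.card_le_of_injective _ (hq.rel.inj (Ne.isUnit hJ))
  have h2 := hO.card
  rw [Fintype.card_fin] at h1
  omega

/-! ### The family -/

variable (c : D.Crd W)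

/-- the degrees of the coordinates -/
def dJ (J : D.Ix) : W.J → ℤ := c.e + ∑ b, c.τ (D.a (J b))

/-- a degree of the first factor -/
def dz (Y : Spc) (γ : W.J → ℤ) : (W.prod Y).J → ℤ := Sum.elim γ (dg Y 0)

/-- the basis of the free module -/
def eb (s : D.Sx) : c.Φ.M := Hb.bs c.ds s

/-- the vectors of a tangent vector -/
def vt (τ : D.Ix → W.R) (s : D.Sx) : c.VV.M := ∑ i, (Mor.fst W Y).φ (vec τ s i) • c.eVV i

/-- the map to the ambient module given by a tangent vector -/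
def μt (τ : D.Ix → W.R) : c.Φ.M →ₗ[(W.prod Y).R] c.VV.M := Hb.lc c.ds (vt c τ)

/-- the map to the quotient given by a tangent vector -/
def hm (τ : D.Ix → W.R) : (c.Φ.hom c.F).M := ap.symm (c.πF ∘ₗ μt c τ)

theorem ap_hm (τ : D.Ix → W.R) (a : c.Φ.M) : ap (hm c τ) a = c.πF (μt c τ a) := rfl

theorem hm_bs (τ : D.Ix → W.R) (s : D.Sx) : ap (hm c τ) (eb c s) = c.πF (vt c τ s) :=
  congrArg c.πF (Hb.lc_bs c.ds (vt c τ) s)

theorem εV_vt (z : W.Pt) (τ : D.Ix → W.R) (s : D.Sx) :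
    c.εV z (vt c τ s) = D.v0 (fun J => z.1 (τ J)) s := by
  rw [vt, map_sum, Dat.v0]
  refine Finset.sum_congr rfl fun i _ => ?_
  rw [c.εV_smul, c.εV_eVV, evR_fst, algebraMap_smul]
  rfl

theorem εV_μt (z : W.Pt) (τ : D.Ix → W.R) (a : c.Φ.M) :
    c.εV z (μt c τ a) = D.μ0 (fun J => z.1 (τ J)) (c.εΦ z a) := by
  change c.εV z (∑ s, (show (W.prod Y).R from a s) • vt c τ s) =
    ∑ s, evR Y z (a s) • D.v0 (fun J => z.1 (τ J)) s
  rw [map_sum]
  exact Finset.sum_congr rfl fun s _ => by rw [c.εV_smul, εV_vt]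

theorem εF_πF (z : W.Pt) (v : c.VV.M) : c.εF z (c.πF v) = 0 ↔ c.εV z v ∈ D.gen (c.cz z) :=
  Submodule.Quotient.mk_eq_zero (D.gen (c.cz z))

theorem vt_wt {τ : D.Ix → W.R} {γ : W.J → ℤ} (h : ∀ J, τ J ∈ W.wt (γ + dJ c J)) (s : D.Sx) :
    vt c τ s ∈ c.VV.wt (c.ds s + dz Y γ) := by
  refine Submodule.sum_mem _ fun i _ => ?_
  refine mwt_eq (GMod.smul_mem_wt ((Mor.fst W Y).wt_map _ _ (h _)) (c.eVV_wt i))
    (funext fun j => ?_)
  cases j with
  | inr j => exact (zero_add _).trans (add_zero _).symm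
  | inl j =>
    change (γ + (c.e + ∑ b, c.τ (D.a (Function.update s.1 s.2 i b)))) j + -c.τ (D.a i) j =
      (c.e + ∑ b ∈ Finset.univ.erase s.2, c.τ (D.a (s.1 b))) j + γ j
    rw [← Finset.add_sum_erase _ _ (Finset.mem_univ s.2), Function.update_self,
      Finset.sum_congr rfl fun b hb => by rw [Function.update_of_ne (Finset.ne_of_mem_erase hb)]]
    simp only [Pi.add_apply]
    ring

theorem hm_wt {τ : D.Ix → W.R} {γ : W.J → ℤ} (h : ∀ J, τ J ∈ W.wt (γ + dJ c J)) :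
    hm c τ ∈ (c.Φ.hom c.F).wt (dz Y γ) := fun g =>
  Hb.act_lc (δ := c.ds) (G := c.F) (φ := hm c τ) fun s => by
    change c.F.act g (ap (hm c τ) (eb c s)) =
      (chr (c.ds s) g * chr (dz Y γ) g) • ap (hm c τ) (eb c s)
    rw [← chr_add, hm_bs]
    exact c.πF_hom.map_wt (vt_wt c h s) g

theorem single_wt (J J' : D.Ix) :
    (Pi.single J (1 : W.R) : D.Ix → W.R) J' ∈ W.wt (-dJ c J + dJ c J') := by
  by_cases h : J' = J
  · rw [h, Pi.single_eq_same, neg_add_cancel]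
    exact W.one_mem
  · rw [Pi.single_eq_of_ne h]
    exact zero_mem _

variable (S)

/-- the maps given by the coordinate vectors -/
def bb (J : D.Ix) : (S.pc (c.Φ.hom c.F) 0).M :=
  S.el (hm c (Pi.single J 1)) (Hb.mem_wtE S (hm_wt c (single_wt c J)))

theorem bb_wt (J : D.Ix) : bb S c J ∈ (S.pc (c.Φ.hom c.F) 0).wt (-dJ c J) :=
  (S.prj W).mem_part_wt'.2 (mwt_eq (hm_wt c (single_wt c J)) (funext fun j => by
    cases j with
    | inl j => exact (add_zero _).symm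
    | inr j => exact (add_zero _).symm))

theorem val_bb (τ : D.Ix → W.R) : S.val _ 0 (∑ J, τ J • bb S c J) = hm c τ := by
  rw [map_sum]
  refine ap.injective (Hb.fr_ext (δ := c.ds) fun s => ?_)
  refine Eq.trans ?_ (hm_bs c τ s).symm
  have e : ∀ J, ap (S.val _ 0 (τ J • bb S c J)) (eb c s) =
      c.πF ((Mor.fst W Y).φ (τ J) • vt c (Pi.single J 1) s) := fun J => by
    rw [c.πF.map_smul, ← hm_bs]
    rfl
  refine (congrArg (fun φ : c.Φ.M →ₗ[(W.prod Y).R] c.F.M => φ (eb c s))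
    (map_sum ap _ _)).trans ((LinearMap.sum_apply _ _ _).trans ?_)
  rw [Finset.sum_congr rfl fun J _ => e J, ← map_sum]
  congr 1
  simp only [vt, Finset.smul_sum, smul_smul, ← map_mul]
  rw [Finset.sum_comm]
  refine Finset.sum_congr rfl fun i _ => ?_
  rw [← Finset.sum_smul, ← map_sum]
  congr 2
  simp [vec, Pi.single_apply]

theorem sum_y : ∑ J, c.y J • bb S c J = 0 := S.val_inj (by
  rw [val_bb, map_zero]
  exact Hb.hom_ext fun a => (Submodule.Quotient.mk_eq_zero _).2 ⟨a, rfl⟩)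

variable {S c}

theorem mem_kil (hO : D.Ok S) (hP : Pts S D) (hF : ∀ z : W.Pt, Fbk S z) (hM : Fm S c)
    (hq : ∀ z, Plk.Rel (c.cz z)) (hG : ∀ z, Grt D.r D.β (c.cz z)) {τ : D.Ix → W.R}
    (hτ : ∀ z : W.Pt, (fun J => z.1 (τ J)) ∈ Tq (Plk.IPl ℂ D.r D.β) (c.cz z)) (z : W.Pt) :
    ∃ r, z.1 r ≠ 0 ∧ r • ∑ J, τ J • bb S c J ∈ S.kil c.iK c.F D.m := by
  obtain ⟨r, hr, h⟩ := kill' (hM.bF (D.m + 0) (add_zero D.m).ge) z
  refine ⟨r, hr, fun a => ?_⟩
  have h1 := h (S.apc c.Φ c.F D.m 0 (∑ J, τ J • bb S c J) (S.pm D.m c.iK c.iK_hom a))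
    fun y => ((hF y).fibK _ _ _ (hM.fF y).toIsFib _).ker _ (by
      rw [S.val_apc, val_bb, ap_hm, εF_πF, εV_μt, S.val_pm]
      have h2 := (hF y).val_wt _ _ _ (hM.fK y).toIsEv D.m a
      exact tan_mem hO hP (hq y) (hG y) (hτ y) ((isHom_subtype _ _ _).map_wt h2)
        (c.εK y (S.val _ _ a)).2)
  have h3 := congrArg (S.val _ _) h1
  rw [S.val_smul, S.val_apc, S.val_pm, map_zero] at h3
  rw [S.val_smul, map_smul, LinearMap.smul_apply, h3]

theorem rad (hO : D.Ok S) (hP : Pts S D) (hM : Fm S c) {z : W.Pt} (hq : Plk.Rel (c.cz z))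
    (hG : Grt D.r D.β (c.cz z)) {τ : D.Ix → W.R}
    (hτ : (fun J => z.1 (τ J)) ∈ Tq (Plk.IPl ℂ D.r D.β) (c.cz z))
    (h : (mk (∑ J, τ J • bb S c J) : Fib z.1 (S.pc (c.Φ.hom c.F) 0).M) = 0) :
    ∃ t : ℂ, ∀ J, z.1 (τ J) = t * z.1 (c.y J) :=
  hG.rad _ hτ fun s => rad_mem hO hP hq (by
    have h1 := ev_ap (hM.fF z).toIsEv h (eb c s)
    rwa [val_bb, hm_bs, εF_πF, εV_vt] at h1)

end Vale.Agent.P297Z.Qt.Cn
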