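import Vale.Agent.P297Z.Quot.Plk

/-!
# P297: the Pluecker ideal and its charts
-/

set_option linter.all false

open Matrix MvPolynomial

noncomputable section

namespace Vale.Agent.P297Z.Plk

variable (k : Type) [CommRing k] (r : ℕ) (B : Type) {A : Type} [CommRing A]

/-- the ideal of the relations -/
def IPl : Ideal (MvPolynomial (Fin r → B) k) :=
  Ideal.span {f | ∃ J J₁ : Fin r → B, f = X J ^ r * X J₁ - X J * plk (vc X J) J₁}

variable {k r B}

theorem le_ker_iff (φ : MvPolynomial (Fin r → B) k →+* A) :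
    (∀ f ∈ IPl k r B, φ f = 0) ↔ Rel fun J => φ (X J) := by
  have key : ∀ J J₁ : Fin r → B, φ (X J ^ r * X J₁ - X J * plk (vc X J) J₁) =
      φ (X J) ^ r * φ (X J₁) - φ (X J) * plk (vc (fun J => φ (X J)) J) J₁ := fun J J₁ => by
    rw [map_sub, map_mul, map_mul, map_pow, plk_map]
    rfl
  refine ⟨fun h J J₁ => sub_eq_zero.1 ((key J J₁).symm.trans
    (h _ (Ideal.subset_span ⟨J, J₁, rfl⟩))), fun h => ?_⟩
  refine (Ideal.span_le (I := RingHom.ker φ)).2 ?_
  rintro _ ⟨J, J₁, rfl⟩
  exact (key J J₁).trans (sub_eq_zero.2 (h J J₁))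

theorem rel_quot : Rel fun J => Ideal.Quotient.mk (IPl k r B) (X J) :=
  (le_ker_iff _).1 fun _ hf => Ideal.Quotient.eq_zero_iff_mem.2 hf

/-- the free coordinates of a chart -/
abbrev Co (J : Fin r → B) : Type := Option (Fin r × {i : B // i ∉ Set.range J})

open Classical in
/-- the universal normalised matrix of a chart -/
def uJ (k : Type) [CommRing k] (J : Fin r → B) (c : Fin r) (i : B) : MvPolynomial (Co J) k :=
  if h : i ∈ Set.range J then (if i = J c then 1 else 0) else X (some (c, ⟨i, h⟩))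

theorem cols_uJ {J : Fin r → B} (hJ : Function.Injective J) : cols (uJ k J) J = 1 := by
  ext1 c b
  simp [cols, uJ, hJ.eq_iff, one_apply, eq_comm]

/-- the parametrisation of a chart -/
def gr (k : Type) [CommRing k] (J : Fin r → B) :
    MvPolynomial (Fin r → B) k →ₐ[k] MvPolynomial (Co J) k :=
  aeval fun J₁ => X none * plk (uJ k J) J₁

theorem gr_X (J J₁ : Fin r → B) : gr k J (X J₁) = X none * plk (uJ k J) J₁ := aeval_X _ _

theorem gr_self {J : Fin r → B} (hJ : Function.Injective J) : gr k J (X J) = X none := by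
  rw [gr_X, plk, cols_uJ hJ, det_one, mul_one]

theorem gr_vc {J : Fin r → B} (hJ : Function.Injective J) (c : Fin r) (i : B) :
    gr k J (X (Function.update J c i)) = X none * uJ k J c i := by
  rw [gr_X]
  exact vc_of_cols (cols_uJ hJ) _ c i

theorem gr_IPl (J : Fin r → B) : ∀ f ∈ IPl k r B, gr k J f = 0 :=
  (le_ker_iff (gr k J).toRingHom).2 (by
    have : (fun J₁ => (gr k J).toRingHom (X J₁)) = fun J₁ => X none * plk (uJ k J) J₁ :=
      funext (gr_X J)
    rw [this]
    exact rel_plk _ _)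

/-- the inverse parametrisation -/
def back [Algebra k A] (z : (Fin r → B) → A) (J : Fin r → B) (s : A) :
    MvPolynomial (Co J) k →ₐ[k] A :=
  aeval fun o => o.elim (z J) fun p => s * vc z J p.1 p.2.1

theorem back_uJ [Algebra k A] {z : (Fin r → B) → A} (h : Rel z) {J : Fin r → B} {s : A}
    (hs : s * z J = 1) (c : Fin r) (i : B) : back (k := k) z J s (uJ k J c i) = s * vc z J c i := by
  unfold uJ
  split_ifs with h1 h2
  · rw [map_one, h2, vc_self, hs]
  · obtain ⟨b, rfl⟩ := h1
    rw [map_zero, h.vc_ne (IsUnit.of_mul_eq_one_right s hs) fun e => h2 (by rw [e]), mul_zero]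
  · exact aeval_X _ _

/-- a point with values in a ring which lies in a chart factors through the parametrisation -/
theorem back_gr [Algebra k A] {z : (Fin r → B) → A} (h : Rel z) {J : Fin r → B} {s : A}
    (hs : s * z J = 1) (f : MvPolynomial (Fin r → B) k) :
    back (k := k) z J s (gr k J f) = aeval z f := by
  have : (back (k := k) z J s).comp (gr k J) = aeval z := by
    ext1 J₁
    rw [AlgHom.comp_apply, gr_X, map_mul, aeval_X, h.eq_plk hs J₁]
    congr 1
    · exact aeval_X _ _
    · refine (plk_map (back (k := k) z J s).toRingHom _ _).trans ?_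
      congr 1
      funext c i
      exact back_uJ h hs c i
  exact DFunLike.congr_fun this f

/-- on a chart the ideal is the kernel of the parametrisation -/
theorem pow_mul_mem {J : Fin r → B} {f : MvPolynomial (Fin r → B) k} (h : gr k J f = 0) :
    ∃ n : ℕ, X J ^ n * f ∈ IPl k r B := by
  let Q := MvPolynomial (Fin r → B) k ⧸ IPl k r B
  let x : Q := Ideal.Quotient.mk (IPl k r B) (X J)
  let L := Localization.Away x
  have h1 : Rel fun J₁ => algebraMap Q L (Ideal.Quotient.mk (IPl k r B) (X J₁)) :=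
    rel_quot.map _
  obtain ⟨s, hs⟩ := (IsLocalization.Away.algebraMap_isUnit (S := L) x).exists_left_inv
  have h2 := back_gr (k := k) h1 hs f
  rw [h, map_zero] at h2
  have h3 : (aeval fun J₁ => algebraMap Q L (Ideal.Quotient.mk (IPl k r B) (X J₁))) =
      (IsScalarTower.toAlgHom k Q L).comp (Ideal.Quotient.mkₐ k (IPl k r B)) := by
    ext1 J₁
    rw [aeval_X]
    rfl
  rw [h3] at h2
  obtain ⟨⟨_, n, rfl⟩, hn⟩ := (IsLocalization.map_eq_zero_iff (Submonoid.powers x) L _).1 h2.symm
  refine ⟨n, Ideal.Quotient.eq_zero_iff_mem.1 ?_⟩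
  rw [map_mul, map_pow]
  exact hn

theorem gr_eq_zero_iff [IsDomain k] {J : Fin r → B} (hJ : Function.Injective J)
    (f : MvPolynomial (Fin r → B) k) : gr k J f = 0 ↔ ∃ n : ℕ, X J ^ n * f ∈ IPl k r B := by
  refine ⟨pow_mul_mem, fun ⟨n, hn⟩ => ?_⟩
  have := gr_IPl J _ hn
  rw [map_mul, map_pow, gr_self hJ] at this
  exact (mul_eq_zero.1 this).resolve_left (pow_ne_zero _ (X_ne_zero _))

theorem pow_mem_of_not_inj {J : Fin r → B} (hJ : ¬ Function.Injective J) :
    X J ^ (r + 1) ∈ IPl k r B := by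
  have h : (X J ^ r * X J - X J * plk (vc X J) J : MvPolynomial (Fin r → B) k) ∈ IPl k r B :=
    Ideal.subset_span ⟨J, J, rfl⟩
  rwa [plk_eq_zero _ hJ, mul_zero, sub_zero, ← pow_succ] at h

end Vale.Agent.P297Z.Plk
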