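import Vale.Agent.P297Z.Top.Loc
import Vale.Agent.P297Z.Quot.Plk2

/-!
# P297: the Quot space inside the Pluecker space, the universal families
-/

set_option linter.all false

open scoped TensorProduct
open Filter

noncomputable section

namespace Vale.Agent.P297Z.Qt

/-- the degree `k` -/
def dg (Y : Spc) (k : ℤ) : Y.J → ℤ := fun _ => k

/-- what is used of the surface -/
structure Sur (Y : Spc) where
  uniq : Unique Y.J
  x : Fin 3 → Y.R
  x_wt : ∀ i, x i ∈ Y.wt (dg Y 1)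
  fin : Module.Finite (Algebra.adjoin ℂ (Set.range x)) Y.R
  pts : ∀ z : Y.R →ₐ[ℂ] ℂ, (∃ f ∈ Y.b, z f ≠ 0) ↔ ∃ i, z (x i) ≠ 0
  neg : ∀ k : ℤ, k < 0 → Y.wt (dg Y k) = ⊥
  cst : ∀ r ∈ Y.wt (dg Y 0), ∃ c : ℂ, r = algebraMap ℂ Y.R c
  two : ∀ h₀ ∈ Submodule.span ℂ (Set.range x), ∀ h₁ ∈ Submodule.span ℂ (Set.range x),
    ∃ z : Y.Pt, z.1 h₀ = 0 ∧ z.1 h₁ = 0
  syz : ∀ (A B : Bun Y) (f : A.M.M →ₗ[Y.R] B.M.M) (h : A.M.IsHom B.M f),
    ∃ r, (A.M.sub _ h.stab_ker).IsBun r
  tf : ∀ (B : Bun Y) (N : Submodule Y.R B.M.M), B.M.Stab N →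
    ∃ s : Finset Y.Pt, ∀ z : Y.Pt, (∀ y ∈ s, ¬ Y.Orb y z) → ∃ r, FreeAt z.1 N r

section Kos

variable {R : Type} [CommRing R] (x : Fin 3 → R) (M : Type) [AddCommGroup M] [Module R M]

/-- the first map of the Koszul complex -/
def k1 : M →ₗ[R] (Fin 3 → M) := LinearMap.pi fun i => x i • LinearMap.id

/-- the second map of the Koszul complex -/
def k2 : (Fin 3 → M) →ₗ[R] (Fin 3 → M) :=
  LinearMap.pi fun i => x (i + 1) • LinearMap.proj (i + 2) - x (i + 2) • LinearMap.proj (i + 1)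

/-- the third map of the Koszul complex -/
def k3 : (Fin 3 → M) →ₗ[R] M := ∑ i, x i • LinearMap.proj i

end Kos

variable {W Y : Spc}

/-- `h₀, h₁` is a regular pair of parameters on `M` in the degrees `≥ m` -/
structure Pair (M : GMod Y) (m : ℤ) (h₀ h₁ : Y.R) : Prop where
  inj : ∀ k, m ≤ k → ∀ v ∈ M.wt (dg Y k), h₀ • v = 0 → v = 0
  reg : ∀ k, m ≤ k → ∀ v ∈ M.wt (dg Y (k + 1)), ∀ u ∈ M.wt (dg Y (k + 1)), h₁ • v = h₀ • u →
    ∃ u' ∈ M.wt (dg Y k), v = h₀ • u'
  surj : ∀ k, m ≤ k → ∀ v ∈ M.wt (dg Y (k + 2)), ∃ u ∈ M.wt (dg Y (k + 1)),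
    ∃ u' ∈ M.wt (dg Y (k + 1)), v = h₀ • u + h₁ • u'

/-- the Koszul complex of `y`, of degree `d`, that starts in degree `j` is exact on the left -/
structure Dep (y : Fin 3 → Y.R) (d : ℤ) (M : GMod Y) (j : ℤ) : Prop where
  e0 : ∀ v ∈ M.wt (dg Y j), k1 y M.M v = 0 → v = 0
  e1 : ∀ w : Fin 3 → M.M, (∀ i, w i ∈ M.wt (dg Y (j + d))) → k2 y M.M w = 0 →
    ∃ v ∈ M.wt (dg Y j), k1 y M.M v = w

/-- the Koszul complex of `y`, of degree `d`, that starts in degree `j` is exact -/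
structure KosEx (y : Fin 3 → Y.R) (d : ℤ) (M : GMod Y) (j : ℤ) : Prop extends Dep y d M j where
  e2 : ∀ w : Fin 3 → M.M, (∀ i, w i ∈ M.wt (dg Y (j + 2 * d))) → k3 y M.M w = 0 →
    ∃ w' : Fin 3 → M.M, (∀ i, w' i ∈ M.wt (dg Y (j + d))) ∧ k2 y M.M w' = w
  e3 : ∀ v ∈ M.wt (dg Y (j + 3 * d)), ∃ w : Fin 3 → M.M,
    (∀ i, w i ∈ M.wt (dg Y (j + 2 * d))) ∧ k3 y M.M w = v

/-- the part of degree `k` of the first Ext module vanishes -/
def Ext1 (B G : GMod Y) (k : ℤ) : Prop :=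
  ∀ (A : GMod Y) (π : A.M →ₗ[Y.R] B.M) (h : A.IsHom B π), Function.Surjective π →
    ∀ φ ∈ ((A.sub _ h.stab_ker).hom G).wt (dg Y k), ∃ ψ ∈ (A.hom G).wt (dg Y k),
      ∀ a : LinearMap.ker π, (show A.M →ₗ[Y.R] G.M from ψ) a =
        (show LinearMap.ker π →ₗ[Y.R] G.M from φ) a

/-- the module vanishes below the degree `j` -/
def Low (M : GMod Y) (j : ℤ) : Prop := ∀ k < j, M.wt (dg Y k) = ⊥

/-- the Hilbert function of `V / E` -/
def hq (V : GMod Y) (E : Submodule Y.R V.M) (k : ℤ) : ℤ :=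
  (Module.finrank ℂ (V.wt (dg Y k)) : ℤ) -
    Module.finrank ℂ ↥(V.wt (dg Y k) ⊓ E.restrictScalars ℂ)

/-- the evaluation at a point of the first factor -/
def evR (Y : Spc) (z : W.Pt) : (W.prod Y).R →ₐ[ℂ] Y.R :=
  Algebra.TensorProduct.lift ((Algebra.ofId ℂ Y.R).comp z.1) (AlgHom.id ℂ Y.R)
    fun _ _ => Commute.all _ _

theorem evR_tmul (z : W.Pt) (a : W.R) (b : Y.R) : evR Y z (a ⊗ₜ b) = z.1 a • b := by
  change Algebra.TensorProduct.lift _ _ _ (a ⊗ₜ b) = _
  rw [Algebra.TensorProduct.lift_tmul, Algebra.smul_def]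
  rfl

theorem evR_fst (z : W.Pt) (a : W.R) :
    evR Y z ((Mor.fst W Y).φ a) = algebraMap ℂ Y.R (z.1 a) :=
  (evR_tmul z a 1).trans (Algebra.algebraMap_eq_smul_one _).symm

theorem evR_snd (z : W.Pt) (b : Y.R) : evR Y z ((Mor.snd W Y).φ b) = b :=
  (evR_tmul z 1 b).trans (by rw [map_one, one_smul])

theorem exists_evL (z : W.Pt) (L : GMod Y) : ∃ e : ((Mor.snd W Y).pull L).M →+ L.M,
    ∀ (a : (W.prod Y).R) (l : L.M), e ((show (Mor.snd W Y).Src from a) ⊗ₜ[Y.R] l) = evR Y z a • l := by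
  refine ⟨TensorProduct.liftAddHom (R := Y.R) (M := (Mor.snd W Y).Src) (N := L.M)
    ((smulAddHom Y.R L.M).comp (evR Y z : (W.prod Y).R →+* Y.R).toAddMonoidHom) ?_, fun a l => rfl⟩
  intro c a l
  have h : evR Y z ((Mor.snd W Y).φ c) = c := (evR_tmul z 1 c).trans (by rw [map_one, one_smul])
  have h' : evR Y z ((Mor.snd W Y).φ c * (show (W.prod Y).R from a)) = c * evR Y z a := by
    rw [map_mul, h]
  exact (congrArg (· • l) h').trans (by rw [mul_comm, mul_smul]; rfl)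

/-- the evaluation of a module that is pulled back from the second factor -/
def evL (z : W.Pt) (L : GMod Y) : ((Mor.snd W Y).pull L).M →+ L.M := (exists_evL z L).choose

theorem evL_tmul (z : W.Pt) (L : GMod Y) (a : (W.prod Y).R) (l : L.M) :
    evL z L ((show (Mor.snd W Y).Src from a) ⊗ₜ[Y.R] l) = evR Y z a • l :=
  (exists_evL z L).choose_spec a l

/-- the canonical map to the pull-back -/
def pl {X : Spc} (f : Mor X Y) (M : GMod Y) (v : M.M) : (f.pull M).M := (1 : f.Src) ⊗ₜ[Y.R] v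

theorem pull_ind {X : Spc} (f : Mor X Y) (M : GMod Y) {P : (f.pull M).M → Prop} (h0 : P 0)
    (h1 : ∀ (a : X.R) (v : M.M), P (a • pl f M v)) (ha : ∀ u v, P u → P v → P (u + v))
    (u : (f.pull M).M) : P u := by
  induction u using TensorProduct.induction_on with
  | zero => exact h0
  | add u v hu hv => exact ha u v hu hv
  | tmul b l =>
    have e : (show X.R from b) • pl f M l = b ⊗ₜ[Y.R] l :=
      congrArg (· ⊗ₜ[Y.R] l) (mul_one b)
    exact e ▸ h1 b l

theorem evL_pl (z : W.Pt) (L : GMod Y) (a : (W.prod Y).R) (l : L.M) :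
    evL z L (a • pl _ L l) = evR Y z a • l :=
  (evL_tmul z L (a * (1 : (W.prod Y).R)) l).trans (congrArg (fun t => evR Y z t • l) (mul_one a))

theorem evL_smul (z : W.Pt) (L : GMod Y) (a : (W.prod Y).R) (v : ((Mor.snd W Y).pull L).M) :
    evL z L (a • v) = evR Y z a • evL z L v := by
  induction v using pull_ind with
  | h0 => rw [smul_zero, map_zero, smul_zero]
  | ha u v hu hv => rw [smul_add, map_add, map_add, hu, hv, smul_add]
  | h1 b l => rw [smul_smul, evL_pl, evL_pl, map_mul, mul_smul]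

theorem wt_eq {γ δ : Y.J → ℤ} {r : Y.R} (h : r ∈ Y.wt γ) (e : γ = δ) : r ∈ Y.wt δ := e ▸ h

theorem mwt_eq {M : GMod Y} {γ δ : Y.J → ℤ} {v : M.M} (h : v ∈ M.wt γ) (e : γ = δ) :
    v ∈ M.wt δ := e ▸ h

/-- the identity map to a twisted module -/
def sh (M : GMod Y) (γ : Y.J → ℤ) : M.M →ₗ[Y.R] (M.shift γ).M := LinearMap.id

/-- the identity map from a twisted module -/
def unsh (M : GMod Y) (γ : Y.J → ℤ) : (M.shift γ).M →ₗ[Y.R] M.M := LinearMap.id

theorem unsh_sh (M : GMod Y) (γ : Y.J → ℤ) (v : M.M) : unsh M γ (sh M γ v) = v := rfl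

theorem sh_unsh (M : GMod Y) (γ : Y.J → ℤ) (v : (M.shift γ).M) : sh M γ (unsh M γ v) = v := rfl

theorem sh_wt {M : GMod Y} {γ δ : Y.J → ℤ} {v : M.M} (h : v ∈ M.wt (δ + γ)) :
    sh M γ v ∈ (M.shift γ).wt δ := fun g => by
  change chr (-γ) g • M.act g v = chr δ g • v
  rw [h g, smul_smul, ← chr_add, add_comm δ, neg_add_cancel_left]

/-- the evaluation of a twisted pull-back -/
def evS (z : W.Pt) (L : GMod Y) (γ : (W.prod Y).J → ℤ) :
    (((Mor.snd W Y).pull L).shift γ).M →+ L.M := (evL z L).comp (unsh _ γ).toAddMonoidHom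

theorem evS_eq (z : W.Pt) (L : GMod Y) (γ : (W.prod Y).J → ℤ)
    (m : (((Mor.snd W Y).pull L).shift γ).M) : evS z L γ m = evL z L (unsh _ γ m) := rfl

theorem evS_smul (z : W.Pt) (L : GMod Y) (γ : (W.prod Y).J → ℤ) (a : (W.prod Y).R)
    (m : (((Mor.snd W Y).pull L).shift γ).M) : evS z L γ (a • m) = evR Y z a • evS z L γ m := by
  rw [evS_eq, evS_eq, map_smul, evL_smul]

theorem evS_pl (z : W.Pt) (L : GMod Y) (γ : (W.prod Y).J → ℤ) (l : L.M) :
    evS z L γ (sh _ γ (pl _ L l)) = l := by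
  rw [evS_eq, unsh_sh, ← one_smul (W.prod Y).R (pl _ L l), evL_pl, map_one, one_smul]

theorem pl_wt {X : Spc} (f : Mor X Y) {M : GMod Y} {γ : Y.J → ℤ} {v : M.M}
    (h : v ∈ M.wt γ) : pl f M v ∈ (f.pull M).wt (f.ρ γ) := by
  have := tmul_mem_wt (R := Y.R) (V := f.Src) (a := fun g => (X.act g).toLinearMap)
    (b := fun g => M.act (tor f.ρ g)) (c := (f.pull M).act) (fun _ _ _ => rfl) X.one_mem
    (mem_wt_tor f.ρ h)
  rwa [zero_add] at this

/-- an element of one summand -/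
def sgl {ι : Type} [Fintype ι] [DecidableEq ι] (M : ι → GMod Y) (i : ι) (v : (M i).M) :
    (GMod.pi M).M := Pi.single (M := fun i => (M i).M) i v

theorem sgl_wt {ι : Type} [Fintype ι] [DecidableEq ι] {M : ι → GMod Y} {i : ι} {γ : Y.J → ℤ}
    {v : (M i).M} (h : v ∈ (M i).wt γ) : sgl M i v ∈ (GMod.pi M).wt γ := fun g => funext fun j => by
  change (M j).act g (Pi.single (M := fun i => (M i).M) i v j) =
    chr γ g • Pi.single (M := fun i => (M i).M) i v j
  by_cases e : j = i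
  · subst e
    rw [Pi.single_eq_same]
    exact h g
  · rw [Pi.single_eq_of_ne e, map_zero, smul_zero]

theorem lc_hom {ι : Type} [Fintype ι] {M : GMod Y} (δ : ι → Y.J → ℤ) (v : ι → M.M)
    (h : ∀ i, v i ∈ M.wt (δ i)) :
    (GMod.pi fun i => (GMod.one Y).shift (-δ i)).IsHom M (Fintype.linearCombination Y.R v) := by
  intro g a
  change ∑ i, (chr (- -δ i) g • Y.act g (a i)) • v i = M.act g (∑ i, (show Y.R from a i) • v i)
  rw [map_sum]
  refine Finset.sum_congr rfl fun i _ => ?_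
  rw [M.act_smul, h i g, neg_neg, smul_assoc, smul_comm]

/-- a family of additive maps as a map of the direct sums -/
def piMap {ι : Type} [Fintype ι] {M : ι → GMod W} {N : ι → GMod Y}
    (e : ∀ i, (M i).M →+ (N i).M) : (GMod.pi M).M →+ (GMod.pi N).M where
  toFun := fun v i => e i (v i)
  map_zero' := funext fun i => map_zero (e i)
  map_add' := fun u v => funext fun i => map_add (e i) (u i) (v i)

theorem piMap_sgl {ι : Type} [Fintype ι] [DecidableEq ι] {M : ι → GMod W} {N : ι → GMod Y}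
    (e : ∀ i, (M i).M →+ (N i).M) (i : ι) (v : (M i).M) :
    piMap e (sgl M i v) = sgl N i (e i v) := funext fun j => by
  change e j (Pi.single (M := fun i => (M i).M) i v j) = Pi.single (M := fun i => (N i).M) i _ j
  by_cases h : j = i
  · subst h
    rw [Pi.single_eq_same, Pi.single_eq_same]
  · rw [Pi.single_eq_of_ne h, Pi.single_eq_of_ne h, map_zero]

theorem piMap_smul {ι : Type} [Fintype ι] {M : ι → GMod W} {N : ι → GMod Y}
    (e : ∀ i, (M i).M →+ (N i).M) (a : W.R) (b : Y.R) (h : ∀ i m, e i (a • m) = b • e i m)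
    (v : (GMod.pi M).M) : piMap e (a • v) = b • piMap e v := funext fun i => h i (v i)

/-- the restriction of an additive map to submodules -/
def subE {M : GMod W} {M₀ : GMod Y} (ε : M.M →+ M₀.M) {N : Submodule W.R M.M} (hN : M.Stab N)
    {N₀ : Submodule Y.R M₀.M} (hN₀ : M₀.Stab N₀) (h : ∀ m ∈ N, ε m ∈ N₀) :
    (M.sub N hN).M →+ (M₀.sub N₀ hN₀).M where
  toFun := fun m => ⟨ε m.1, h m.1 m.2⟩
  map_zero' := Subtype.ext (map_zero ε)
  map_add' := fun a b => Subtype.ext (map_add ε a.1 b.1)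

/-- the map induced by an additive map on the quotients -/
def quoE {M : GMod W} {M₀ : GMod Y} (ε : M.M →+ M₀.M) {N : Submodule W.R M.M} (hN : M.Stab N)
    {N₀ : Submodule Y.R M₀.M} (hN₀ : M₀.Stab N₀) (h : ∀ m ∈ N, ε m ∈ N₀) :
    (M.quo N hN).M →+ (M₀.quo N₀ hN₀).M :=
  QuotientAddGroup.map N.toAddSubgroup N₀.toAddSubgroup ε h

/-- `ε` is an evaluation at the point `z` of the first factor -/
structure IsEv (z : W.Pt) (M : GMod (W.prod Y)) (M₀ : GMod Y) (ε : M.M →+ M₀.M) : Prop where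
  smul : ∀ a m, ε (a • m) = evR Y z a • ε m
  wt : ∀ γ, ∀ m ∈ M.wt γ, ε m ∈ M₀.wt fun j => γ (.inr j)

/-- `ε` identifies `M₀` with the fibre of `M` over the point `z` of the first factor -/
structure IsFib (z : W.Pt) (M : GMod (W.prod Y)) (M₀ : GMod Y) (ε : M.M →+ M₀.M) : Prop
    extends IsEv z M M₀ ε where
  surj : Function.Surjective ε
  ker : ∀ m, ε m = 0 →
    m ∈ ((RingHom.ker z.1).map (Mor.fst W Y).φ) • (⊤ : Submodule (W.prod Y).R M.M)

namespace Sur

variable (S : Sur Y)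

/-- the powers of the coordinates -/
def xp (d : ℕ) : Fin 3 → Y.R := fun i => S.x i ^ d

/-- the saturation -/
def sat (V : GMod Y) (E : Submodule Y.R V.M) : Submodule Y.R V.M where
  carrier := {v | ∃ n : ℕ, ∀ i, S.x i ^ n • v ∈ E}
  zero_mem' := ⟨0, fun _ => by rw [smul_zero]; exact E.zero_mem⟩
  add_mem' := by
    rintro a b ⟨n, ha⟩ ⟨k, hb⟩
    refine ⟨n + k, fun i => ?_⟩
    rw [smul_add]
    refine E.add_mem ?_ ?_
    · rw [add_comm, pow_add, mul_smul]
      exact E.smul_mem _ (ha i)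
    · rw [pow_add, mul_smul]
      exact E.smul_mem _ (hb i)
  smul_mem' := by
    rintro c a ⟨n, ha⟩
    refine ⟨n, fun i => ?_⟩
    rw [smul_comm]
    exact E.smul_mem _ (ha i)

/-- a saturated graded submodule -/
def Sat (V : GMod Y) (E : Submodule Y.R V.M) : Prop :=
  V.Stab E ∧ ∀ v, (∀ i, S.x i • v ∈ E) → v ∈ E

/-- a saturated graded submodule whose quotient has the Hilbert polynomial `l k + c` -/
def Good (V : GMod Y) (l : ℕ) (c : ℤ) (E : Submodule Y.R V.M) : Prop :=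
  S.Sat V E ∧ ∀ᶠ k in atTop, hq V E k = l * k + c

/-- the degree `m` is large -/
def Big (V : GMod Y) (l : ℕ) (c : ℤ) (m : ℤ) : Prop :=
  ∀ (E : Submodule Y.R V.M) (hE : S.Sat V E),
    (hq V E m ≤ l * m + c ∨ ∀ᶠ k in atTop, hq V E k ≤ l * k + c) →
    (∀ᶠ k in atTop, l * k + c ≤ hq V E k) →
    (∀ k, m ≤ k → hq V E k = l * k + c) ∧
    (∀ k, m ≤ k → ∀ v ∈ V.wt (dg Y (k + 1)), v ∈ E →
      ∃ w : Fin 3 → V.M, (∀ i, w i ∈ V.wt (dg Y k) ∧ w i ∈ E) ∧ k3 S.x V.M w = v) ∧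
    ∀ s : Finset Y.Pt, ∃ h₀ ∈ Submodule.span ℂ (Set.range S.x),
      ∃ h₁ ∈ Submodule.span ℂ (Set.range S.x), (∀ y ∈ s, y.1 h₀ ≠ 0) ∧
        Pair (V.quo E hE.1) m h₀ h₁

theorem fin_aux (W : Spc) (t : Set (W.prod Y).R)
    (h : ∀ i, ((1 : W.R) ⊗ₜ[ℂ] S.x i : W.R ⊗[ℂ] Y.R) ∈ Set.range (Mor.fst W Y).φ ∪ t) :
    Module.Finite (Algebra.adjoin ℂ (Set.range (Mor.fst W Y).φ ∪ t)) (W.prod Y).R := by
  classical
  set A := Algebra.adjoin ℂ (Set.range (Mor.fst W Y).φ ∪ t)
  obtain ⟨T, hT⟩ := S.fin.fg_top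
  have h1 : ∀ a ∈ Algebra.adjoin ℂ (Set.range S.x), (Mor.snd W Y).φ a ∈ A := by
    intro a ha
    refine (Algebra.adjoin_le (S := A.comap (Mor.snd W Y).φ) ?_) ha
    rintro _ ⟨i, rfl⟩
    exact Algebra.subset_adjoin (h i)
  have h2 : ∀ b : Y.R, (Mor.snd W Y).φ b ∈
      Submodule.span A ((T.image (Mor.snd W Y).φ : Finset _) : Set (W.prod Y).R) := by
    intro b
    have hb : b ∈ Submodule.span (Algebra.adjoin ℂ (Set.range S.x)) (T : Set Y.R) :=
      hT ▸ Submodule.mem_top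
    induction hb using Submodule.span_induction with
    | mem t ht => exact Submodule.subset_span (Finset.mem_coe.2 (Finset.mem_image_of_mem _ ht))
    | zero => rw [map_zero]; exact Submodule.zero_mem _
    | add a b _ _ ha hb => rw [map_add]; exact Submodule.add_mem _ ha hb
    | smul a b _ hb =>
      have : (Mor.snd W Y).φ (a • b) = (⟨_, h1 a.1 a.2⟩ : A) • (Mor.snd W Y).φ b :=
        map_mul (Mor.snd W Y).φ a.1 b
      rw [this]
      exact Submodule.smul_mem _ _ hb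
  refine ⟨T.image (Mor.snd W Y).φ, eq_top_iff.2 fun u _ => ?_⟩
  induction u using TensorProduct.induction_on with
  | zero => exact Submodule.zero_mem _
  | add a b ha hb => exact Submodule.add_mem _ (ha trivial) (hb trivial)
  | tmul a b =>
    have e : (a ⊗ₜ[ℂ] b : W.R ⊗[ℂ] Y.R) = (a ⊗ₜ[ℂ] 1) * (1 ⊗ₜ[ℂ] b) := by
      rw [Algebra.TensorProduct.tmul_mul_tmul, mul_one, one_mul]
    rw [e]
    exact Submodule.smul_mem _ (⟨(Mor.fst W Y).φ a,
      Algebra.subset_adjoin (Or.inl ⟨a, rfl⟩)⟩ : A) (h2 b)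

/-- the projective structure on the first projection -/
def prj (W : Spc) : Prj (Mor.fst W Y) where
  E := Unit
  π := { toFun := fun δ _ => δ (.inr S.uniq.default), map_zero' := rfl, map_add' := fun _ _ => rfl }
  σ := { toFun := fun k => Sum.elim 0 fun _ => k ()
         map_zero' := by funext j; cases j <;> rfl
         map_add' := fun a b => by
           funext j
           cases j with
           | inl j => exact (add_zero (0 : ℤ)).symm
           | inr j => rfl }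
  ret := { toFun := fun δ j => δ (.inl j), map_zero' := rfl, map_add' := fun _ _ => rfl }
  ret_ρ := fun _ => rfl
  ret_σ := fun _ => rfl
  π_ρ := fun _ => rfl
  π_σ := fun _ => rfl
  tot := fun δ => by
    funext j
    cases j with
    | inl j => exact add_zero _
    | inr j =>
      rw [S.uniq.uniq j]
      exact zero_add _
  y := fun _ => by
    classical exact Finset.univ.image fun i => ((1 : W.R) ⊗ₜ[ℂ] S.x i : W.R ⊗[ℂ] Y.R)
  y_wt := by
    classical
    intro e a ha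
    obtain ⟨i, -, rfl⟩ := Finset.mem_image.1 ha
    refine ⟨0, ?_⟩
    refine wt_eq (Spc.tmul_mem W.one_mem (S.x_wt i)) (funext fun j => ?_)
    cases j with
    | inl j => exact (add_zero _).symm
    | inr j => exact (zero_add _).symm
  fin := S.fin_aux W _ fun i => by
    classical
    exact Or.inr (Set.mem_iUnion.2 ⟨(), Finset.mem_coe.2 (Finset.mem_image.2
      ⟨i, Finset.mem_univ _, rfl⟩)⟩)
  pts := fun z => by
    classical
    refine (Spc.prod_pt W Y z).trans (and_congr Iff.rfl ?_)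
    refine (S.pts (z.comp Algebra.TensorProduct.includeRight)).trans ⟨?_, ?_⟩
    · rintro ⟨i, hi⟩ e
      exact ⟨_, Finset.mem_image.2 ⟨i, Finset.mem_univ _, rfl⟩, hi⟩
    · intro h
      obtain ⟨a, ha, h1⟩ := h ()
      obtain ⟨i, -, rfl⟩ := Finset.mem_image.1 ha
      exact ⟨i, h1⟩

/-- the part of degree `k` of a family -/
def pc (M : GMod (W.prod Y)) (k : ℤ) : GMod W := (S.prj W).part (fun _ => k) M

/-- the element of the family given by an element of a part -/
def val (M : GMod (W.prod Y)) (k : ℤ) : (S.pc M k).M →+ M.M where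
  toFun := fun m => m.1
  map_zero' := rfl
  map_add' := fun _ _ => rfl

/-- `ε` identifies the part of degree `k` of `M₀` with the fibre at `z` of the part of `M` -/
structure FibK (z : W.Pt) (M : GMod (W.prod Y)) (M₀ : GMod Y) (ε : M.M →+ M₀.M) (k : ℤ) :
    Prop where
  surj : ∀ v ∈ M₀.wt (dg Y k), ∃ m, ε (S.val M k m) = v
  ker : ∀ m, ε (S.val M k m) = 0 → m ∈ RingHom.ker z.1 • (⊤ : Submodule W.R (S.pc M k).M)

/-- a family with the fibre `M₀` over `z` whose parts are free at `z` -/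
structure Fam (z : W.Pt) (M : GMod (W.prod Y)) (M₀ : GMod Y) (ε : M.M →+ M₀.M) : Prop
    extends IsFib z M M₀ ε where
  free : ∀ k, ∃ r, FreeAt z.1 (S.pc M k).M r

end Sur

/-! ### The Pluecker space -/

/-- the tautological vectors -/
def vec {r : ℕ} {β A : Type} (p : (Fin r → β) → A) (s : (Fin r → β) × Fin r) (i : β) : A :=
  p (Function.update s.1 s.2 i)

/-- the derivative at `q` in the direction `τ` -/
def dd {ι : Type} [Fintype ι] (q τ : ι → ℂ) (a : MvPolynomial ι ℂ) : ℂ :=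
  ∑ J, τ J * MvPolynomial.eval q (MvPolynomial.pderiv J a)

/-- the data of a Quot space -/
structure Dat (Y : Spc) where
  ι : Type
  [fι : Fintype ι]
  [dι : DecidableEq ι]
  L : ι → Bun Y
  w : ι → ℤ
  l : ℕ
  c : ℤ
  m : ℤ
  β : Type
  [fβ : Fintype β]
  [dβ : DecidableEq β]
  [nβ : Nonempty β]
  a : β → ι
  e : ∀ i, (L (a i)).M.M
  e_wt : ∀ i, e i ∈ (L (a i)).M.wt (dg Y m)
  r : ℕ

attribute [instance] Dat.fι Dat.dι Dat.fβ Dat.dβ Dat.nβ

namespace Dat

variable (D : Dat Y)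

/-- the indices of the coordinates -/
abbrev Ix : Type := Fin D.r → D.β

/-- the indices of the tautological vectors -/
abbrev Sx : Type := D.Ix × Fin D.r

/-- the ambient module -/
def V : GMod Y := GMod.pi fun a => (D.L a).M

/-- the rank of the ambient module -/
def ρ : ℕ := ∑ a, (D.L a).rk

/-- the basis of the part of degree `m` -/
def eV (i : D.β) : D.V.M := sgl (fun a => (D.L a).M) (D.a i) (D.e i)

/-- the Hilbert polynomial -/
def p (k : ℤ) : ℤ := D.l * k + D.c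

/-- the weights of the coordinates -/
def d (J : D.Ix) : ℤ := ∑ b, D.w (D.a (J b))

/-- the Pluecker space -/
abbrev Pol : Spc := Amb D.Ix D.d

/-- the coordinates -/
def X (J : D.Ix) : D.Pol.R := Amb.x D.d J

/-- the degrees of the coordinates -/
def dX (J : D.Ix) : D.Pol.J → ℤ := fun o => o.elim 1 fun _ => D.d J

/-- the coordinates of a point -/
def co (z : D.Pol.Pt) (J : D.Ix) : ℂ := z.1 (D.X J)

/-- the hypotheses -/
structure Ok (S : Sur Y) : Prop where
  ind : LinearIndependent ℂ D.eV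
  span : Submodule.span ℂ (Set.range D.eV) = D.V.wt (dg Y D.m)
  card : (D.r : ℤ) + D.p D.m = Fintype.card D.β
  big : S.Big D.V D.l D.c D.m

/-- the Pluecker ideal -/
def IP : Ideal D.Pol.R := Plk.IPl ℂ D.r D.β

/-- the minors of the multiplication maps -/
def minors : Set D.Pol.R :=
  {f | ∃ (k : ℤ) (n : ℕ) (s : Fin n → D.Sx) (ρ : Fin n → Y.R) (φ : Fin n → D.V.M →ₗ[ℂ] ℂ),
    D.m ≤ k ∧ (Module.finrank ℂ (D.V.wt (dg Y k)) : ℤ) < n + D.p k ∧
    (∀ u, ρ u ∈ Y.wt (dg Y (k - D.m))) ∧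
    f = (Matrix.of fun u t => ∑ i, φ t (ρ u • D.eV i) • vec D.X (s u) i).det}

/-- the ideal of the Quot scheme -/
def I : Ideal D.Pol.R := D.IP ⊔ Ideal.span D.minors

/-- the points of the Quot space -/
def VI : Set D.Pol.Pt := {z | ∀ f ∈ D.I, z.1 f = 0}

/-! #### One fibre -/

/-- the tautological vectors at a point -/
def v0 (q : D.Ix → ℂ) (s : D.Sx) : D.V.M := ∑ i, vec q s i • D.eV i

/-- the free module on the tautological vectors -/
def Φ0 : GMod Y := GMod.pi fun _ : D.Sx => (GMod.one Y).shift (-dg Y D.m)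

/-- the map to the ambient module -/
def μ0 (q : D.Ix → ℂ) : D.Φ0.M →ₗ[Y.R] D.V.M := Fintype.linearCombination Y.R (D.v0 q)

theorem eV_wt (i : D.β) : D.eV i ∈ D.V.wt (dg Y D.m) :=
  sgl_wt (M := fun a => (D.L a).M) (D.e_wt i)

theorem v0_wt (q : D.Ix → ℂ) (s : D.Sx) : D.v0 q s ∈ D.V.wt (dg Y D.m) :=
  Submodule.sum_mem _ fun i _ => Submodule.smul_mem _ _ (D.eV_wt i)

theorem μ0_hom (q : D.Ix → ℂ) : D.Φ0.IsHom D.V (D.μ0 q) := lc_hom _ _ (D.v0_wt q)

/-- the submodule generated by the tautological vectors -/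
def gen (q : D.Ix → ℂ) : Submodule Y.R D.V.M := LinearMap.range (D.μ0 q)

/-- the relations -/
def K0' (q : D.Ix → ℂ) : GMod Y := D.Φ0.sub _ (D.μ0_hom q).stab_ker

/-- the submodule as a module -/
def E0 (q : D.Ix → ℂ) : GMod Y := D.V.sub (D.gen q) (D.μ0_hom q).stab_range

/-- the quotient -/
def F0 (q : D.Ix → ℂ) : GMod Y := D.V.quo (D.gen q) (D.μ0_hom q).stab_range

/-- the rank of the module of relations -/
def rK : ℕ := Fintype.card D.Sx - D.ρ

/-- the dimension of the space of maps from the relations to the quotient -/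
def hd (q : D.Ix → ℂ) : ℕ := Module.finrank ℂ (((D.K0' q).hom (D.F0 q)).wt (dg Y 0))

/-- the Euler characteristic of the quotient twisted by a test class -/
def tau (b : K0 Y) (q : D.Ix → ℂ) : ℤ := chiG Y (kact Y b (cls (D.F0 q)))

/-- the quotient has the right Hilbert function and is a torsion sheaf -/
structure Reg (q : D.Ix → ℂ) : Prop where
  hq : ∀ k, D.m ≤ k → hq D.V (D.gen q) k = D.p k
  tor : ∃ y : Y.Pt, ZeroAt y.1 (D.F0 q).M

/-! #### The families -/

/-- coordinates on a space `W` -/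
structure Crd (W : Spc) where
  y : D.Ix → W.R
  e : W.J → ℤ
  τ : D.ι → W.J → ℤ
  y_wt : ∀ J, y J ∈ W.wt (e + ∑ b, τ (D.a (J b)))

/-- the coordinates of the Pluecker space -/
def crd : D.Crd D.Pol where
  y := D.X
  e := fun o => o.elim 1 0
  τ := fun a o => o.elim 0 fun _ => D.w a
  y_wt := fun J => by
    refine wt_eq (Spc.X_mem ptT D.Ix (fun a _ => D.d a) J) (funext fun o => ?_)
    rw [Pi.add_apply, Finset.sum_apply]
    cases o with
    | none => exact (add_zero _).symm.trans (congrArg _ (Finset.sum_const_zero).symm)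
    | some o => exact (zero_add _).symm

variable {D}

namespace Crd

variable (c : D.Crd W)

/-- the pull-back of coordinates -/
def pull {W' : Spc} (g : Mor W' W) : D.Crd W' where
  y := fun J => g.φ (c.y J)
  e := g.ρ c.e
  τ := fun a => g.ρ (c.τ a)
  y_wt := fun J => by
    rw [← map_sum, ← map_add]
    exact g.wt_map _ _ (c.y_wt J)

/-- the coordinates of a point -/
def cz (z : W.Pt) (J : D.Ix) : ℂ := z.1 (c.y J)

/-- the twists of the summands -/
def tw (a : D.ι) : (W.prod Y).J → ℤ := Sum.elim (c.τ a) 0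

/-- the ambient module on `W × Y` -/
def VV : GMod (W.prod Y) := GMod.pi fun a => ((Mor.snd W Y).pull (D.L a).M).shift (c.tw a)

/-- the basis vectors -/
def eVV (i : D.β) : c.VV.M :=
  sgl (fun a => ((Mor.snd W Y).pull (D.L a).M).shift (c.tw a)) (D.a i)
    (sh _ _ (pl _ _ (D.e i)))

/-- the tautological vectors -/
def vv (s : D.Sx) : c.VV.M := ∑ i, (Mor.fst W Y).φ (vec c.y s i) • c.eVV i

/-- the degrees of the tautological vectors -/
def ds (s : D.Sx) : (W.prod Y).J → ℤ :=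
  Sum.elim (c.e + ∑ b ∈ Finset.univ.erase s.2, c.τ (D.a (s.1 b))) (dg Y D.m)

/-- the free module on the tautological vectors -/
def Φ : GMod (W.prod Y) := GMod.pi fun s : D.Sx => (GMod.one _).shift (-c.ds s)

/-- the map to the ambient module -/
def μ : c.Φ.M →ₗ[(W.prod Y).R] c.VV.M := Fintype.linearCombination _ c.vv

theorem eVV_wt (i : D.β) : c.eVV i ∈ c.VV.wt (Sum.elim (-c.τ (D.a i)) (dg Y D.m)) := by
  refine sgl_wt (M := fun a => ((Mor.snd W Y).pull (D.L a).M).shift (c.tw a)) (sh_wt ?_)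
  refine mwt_eq (pl_wt (Mor.snd W Y) (D.e_wt i)) (funext fun j => ?_)
  cases j with
  | inl j => exact (neg_add_cancel (c.τ (D.a i) j)).symm
  | inr j => exact (add_zero _).symm

theorem vv_wt (s : D.Sx) : c.vv s ∈ c.VV.wt (c.ds s) := by
  refine Submodule.sum_mem _ fun i _ => ?_
  refine mwt_eq (GMod.smul_mem_wt ((Mor.fst W Y).wt_map _ _ (c.y_wt _)) (c.eVV_wt i))
    (funext fun j => ?_)
  cases j with
  | inr j => exact zero_add _
  | inl j =>
    change (c.e + ∑ b, c.τ (D.a (Function.update s.1 s.2 i b))) j + -c.τ (D.a i) j =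
      (c.e + ∑ b ∈ Finset.univ.erase s.2, c.τ (D.a (s.1 b))) j
    rw [← Finset.add_sum_erase _ _ (Finset.mem_univ s.2), Function.update_self,
      Finset.sum_congr rfl fun b hb => by rw [Function.update_of_ne (Finset.ne_of_mem_erase hb)]]
    simp only [Pi.add_apply]
    ring

theorem μ_hom : c.Φ.IsHom c.VV c.μ := lc_hom _ _ c.vv_wt

/-- the relations -/
def K1 : GMod (W.prod Y) := c.Φ.sub _ c.μ_hom.stab_ker

/-- the universal submodule -/
def E : GMod (W.prod Y) := c.VV.sub _ c.μ_hom.stab_range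

/-- the universal quotient -/
def F : GMod (W.prod Y) := c.VV.quo _ c.μ_hom.stab_range

/-- the class of the ambient module -/
def vK : K0 (W.prod Y) := kc c.VV D.ρ

/-- the class of the universal submodule -/
def eK : K0 (W.prod Y) := kc c.Φ (Fintype.card D.Sx) - kc c.K1 D.rK

/-- the evaluation on the free module -/
def εΦ (z : W.Pt) : c.Φ.M →+ D.Φ0.M :=
  piMap (M := fun s : D.Sx => (GMod.one _).shift (-c.ds s))
    (N := fun _ : D.Sx => (GMod.one Y).shift (-dg Y D.m))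
    fun _ => (evR Y z : (W.prod Y).R →+* Y.R).toAddMonoidHom

/-- the evaluation on the ambient module -/
def εV (z : W.Pt) : c.VV.M →+ D.V.M :=
  piMap (M := fun a => ((Mor.snd W Y).pull (D.L a).M).shift (c.tw a)) (N := fun a => (D.L a).M)
    fun a => evS z (D.L a).M (c.tw a)

theorem εV_smul (z : W.Pt) (a : (W.prod Y).R) (v : c.VV.M) :
    c.εV z (a • v) = evR Y z a • c.εV z v :=
  piMap_smul _ _ _ (fun b => evS_smul z (D.L b).M (c.tw b) a) v

theorem εV_eVV (z : W.Pt) (i : D.β) : c.εV z (c.eVV i) = D.eV i := by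
  refine (piMap_sgl _ _ _).trans (congrArg (sgl (fun a => (D.L a).M) (D.a i)) ?_)
  exact evS_pl z _ _ _

theorem εV_vv (z : W.Pt) (s : D.Sx) : c.εV z (c.vv s) = D.v0 (c.cz z) s := by
  rw [vv, map_sum, v0]
  refine Finset.sum_congr rfl fun i _ => ?_
  rw [εV_smul, εV_eVV, evR_fst, algebraMap_smul]
  rfl

theorem εV_μ (z : W.Pt) (a : c.Φ.M) : c.εV z (c.μ a) = D.μ0 (c.cz z) (c.εΦ z a) := by
  change c.εV z (∑ s, (show (W.prod Y).R from a s) • c.vv s) =
    ∑ s, evR Y z (a s) • D.v0 (c.cz z) s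
  rw [map_sum]
  exact Finset.sum_congr rfl fun s _ => by rw [εV_smul, εV_vv]

/-- the evaluation on the relations -/
def εK (z : W.Pt) : c.K1.M →+ (D.K0' (c.cz z)).M :=
  subE (c.εΦ z) _ _ fun a ha => by
    rw [LinearMap.mem_ker] at ha ⊢
    rw [← c.εV_μ, ha, map_zero]

theorem εV_mem (z : W.Pt) : ∀ v ∈ LinearMap.range c.μ, c.εV z v ∈ D.gen (c.cz z) := by
  rintro _ ⟨a, rfl⟩
  exact ⟨_, (c.εV_μ z a).symm⟩

/-- the evaluation on the submodule -/
def εE (z : W.Pt) : c.E.M →+ (D.E0 (c.cz z)).M := subE (c.εV z) _ _ (c.εV_mem z)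

/-- the evaluation on the quotient -/
def εF (z : W.Pt) : c.F.M →+ (D.F0 (c.cz z)).M := quoE (c.εV z) _ _ (c.εV_mem z)

end Crd

end Dat

end Vale.Agent.P297Z.Qt
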