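import Vale.Agent.P297Z.Quot.Sk
import Vale.Agent.P297Z.K.Cart

/-!
# P297: fibres of families, the components
-/

set_option linter.all false

open scoped TensorProduct

noncomputable section

namespace Vale.Agent.P297Z.Qt

variable {W Y : Spc}

theorem exists_fib_equiv {R A V : Type} [CommRing R] [Algebra ℂ R] [AddCommGroup A] [Module R A]
    [Module ℂ A] [IsScalarTower ℂ R A] [AddCommGroup V] [Module ℂ V] (z : R →ₐ[ℂ] ℂ)
    (φ : A →ₗ[ℂ] V) (hs : Function.Surjective φ)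
    (hk : ∀ a, φ a = 0 ↔ a ∈ RingHom.ker z • (⊤ : Submodule R A)) :
    ∃ e : Fib z A ≃ₗ[ℂ] V, ∀ a, e (Submodule.Quotient.mk a) = φ a :=
  ⟨(Submodule.Quotient.restrictScalarsEquiv ℂ (RingHom.ker z • (⊤ : Submodule R A))).symm.trans
    ((Submodule.quotEquivOfEq _ (LinearMap.ker φ) (Submodule.ext fun a => (hk a).symm)).trans
      (φ.quotKerEquivOfSurjective hs)), fun _ => rfl⟩

/-- the submodule that cuts out the fibre over `z` -/
abbrev fibS (z : W.Pt) (M : GMod (W.prod Y)) : Submodule (W.prod Y).R M.M :=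
  ((RingHom.ker z.1).map (Mor.fst W Y).φ) • (⊤ : Submodule (W.prod Y).R M.M)

theorem fibS_ind {z : W.Pt} {M : GMod (W.prod Y)} {P : M.M → Prop} (h0 : P 0)
    (h1 : ∀ r m, z.1 r = 0 → P ((Mor.fst W Y).φ r • m)) (ha : ∀ a b, P a → P b → P (a + b))
    {m : M.M} (hm : m ∈ fibS z M) : P m := by
  refine Submodule.smul_induction_on (p := P) hm (fun a h n _ => ?_) ha
  have key : ∀ a ∈ (RingHom.ker z.1).map (Mor.fst W Y).φ, ∀ n : M.M, P (a • n) := by
    intro a h
    induction h using Submodule.span_induction with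
    | mem x hx =>
      obtain ⟨r, hr, rfl⟩ := hx
      exact fun n => h1 r n hr
    | zero => intro n; rw [zero_smul]; exact h0
    | add x y _ _ hx hy => intro n; rw [add_smul]; exact ha _ _ (hx n) (hy n)
    | smul c x _ hx => intro n; rw [smul_eq_mul, mul_comm, mul_smul]; exact hx _
  exact key a h n

theorem fst_smul_mem {z : W.Pt} {M : GMod (W.prod Y)} {r : W.R} (hr : z.1 r = 0) (m : M.M) :
    (Mor.fst W Y).φ r • m ∈ fibS z M :=
  Submodule.smul_mem_smul (Ideal.mem_map_of_mem _ hr) Submodule.mem_top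

theorem map_fibS {z : W.Pt} {A B : GMod (W.prod Y)} (u : A.M →ₗ[(W.prod Y).R] B.M) {a : A.M}
    (h : a ∈ fibS z A) : u a ∈ fibS z B :=
  fibS_ind (P := fun a => u a ∈ fibS z B) (by rw [map_zero]; exact zero_mem _)
    (fun r m hr => by rw [map_smul]; exact fst_smul_mem hr _)
    (fun a b ha hb => by rw [map_add]; exact add_mem ha hb) h

theorem prod_ind1 {P : (W.prod Y).R → Prop} (h0 : P 0)
    (ht : ∀ r b, P ((Mor.fst W Y).φ r * (Mor.snd W Y).φ b)) (ha : ∀ a b, P a → P b → P (a + b))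
    (a : (W.prod Y).R) : P a :=
  TensorProduct.induction_on (motive := fun a : W.R ⊗[ℂ] Y.R => P a) a h0
    (fun r b => Mor.fst_mul_snd r b ▸ ht r b) ha

theorem sub_snd_mem (z : W.Pt) (a : (W.prod Y).R) :
    a - (Mor.snd W Y).φ (evR Y z a) ∈ (RingHom.ker z.1).map (Mor.fst W Y).φ := by
  induction a using prod_ind1 with
  | h0 => rw [map_zero, map_zero, sub_zero]; exact zero_mem _
  | ha a b ha hb => rw [map_add, map_add, add_sub_add_comm]; exact add_mem ha hb
  | ht r b =>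
    rw [map_mul, evR_fst, evR_snd, map_mul, AlgHom.commutes, ← sub_mul,
      ← (Mor.fst W Y).φ.commutes, ← map_sub]
    exact Ideal.mul_mem_right _ _ (Ideal.mem_map_of_mem _ (by simp [RingHom.mem_ker]))

variable {z : W.Pt} {M : GMod (W.prod Y)} {M₀ : GMod Y} {ε : M.M →+ M₀.M}

theorem IsEv.csmul (h : IsEv z M M₀ ε) (c : ℂ) (m : M.M) : ε (c • m) = c • ε m := by
  rw [← algebraMap_smul (W.prod Y).R, h.smul, AlgHom.commutes, algebraMap_smul]

theorem IsEv.fst_smul (h : IsEv z M M₀ ε) (r : W.R) (m : M.M) :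
    ε ((Mor.fst W Y).φ r • m) = z.1 r • ε m := by
  rw [h.smul, evR_fst, algebraMap_smul]

theorem IsEv.snd_smul (h : IsEv z M M₀ ε) (b : Y.R) (m : M.M) :
    ε ((Mor.snd W Y).φ b • m) = b • ε m := by
  rw [h.smul, evR_snd]

theorem IsEv.fibS (h : IsEv z M M₀ ε) {m : M.M} (hm : m ∈ fibS z M) : ε m = 0 :=
  fibS_ind (P := fun m => ε m = 0) (map_zero ε)
    (fun r m hr => by rw [h.fst_smul, hr, zero_smul])
    (fun a b ha hb => by rw [map_add, ha, hb, add_zero]) hm

/-- the torus of the second factor inside the torus of the product -/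
def tY (W : Spc) (h : Y.J → ℂˣ) : (W.prod Y).J → ℂˣ := Sum.elim 1 h

theorem chr_tY (γ : (W.prod Y).J → ℤ) (h : Y.J → ℂˣ) :
    chr γ (tY W h) = chr (fun j => γ (.inr j)) h := by
  refine (chr_sum_type γ (tY W h)).trans ?_
  rw [show (fun j => tY W h (.inl j)) = 1 from rfl, chr_one, one_mul]
  rfl

theorem IsEv.act (h : IsEv z M M₀ ε) (g : Y.J → ℂˣ) (m : M.M) :
    ε (M.act (tY W g) m) = M₀.act g (ε m) := by
  induction m using M.induction with
  | h0 => simp only [map_zero]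
  | ha x y hx hy => simp only [map_add, hx, hy]
  | hw γ m hm => rw [hm, h.csmul, h.wt γ m hm g, chr_tY]

theorem isEv_of_act (h1 : ∀ a m, ε (a • m) = evR Y z a • ε m)
    (h2 : ∀ g m, ε (M.act (tY W g) m) = M₀.act g (ε m)) : IsEv z M M₀ ε :=
  ⟨h1, fun γ m hm g => by
    rw [← h2, hm, ← algebraMap_smul (W.prod Y).R, h1, AlgHom.commutes, algebraMap_smul, chr_tY]⟩

theorem tor_fst (g : Y.J → ℂˣ) : tor (Mor.fst W Y).ρ (tY W g) = 1 :=
  chr_ext fun γ => by
    rw [chr_tor, chr_tY, chr_one]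
    exact chr_zero g

theorem tor_snd (g : Y.J → ℂˣ) : tor (Mor.snd W Y).ρ (tY W g) = g :=
  chr_ext fun γ => by
    rw [chr_tor, chr_tY]
    rfl

theorem evR_act (z : W.Pt) (g : Y.J → ℂˣ) (a : (W.prod Y).R) :
    evR Y z ((W.prod Y).act (tY W g) a) = Y.act g (evR Y z a) := by
  induction a using prod_ind1 with
  | h0 => simp only [map_zero]
  | ha a b ha hb => simp only [map_add, ha, hb]
  | ht r b =>
    rw [map_mul, ← Mor.act_map, ← Mor.act_map, tor_fst, tor_snd, W.act_one, map_mul, map_mul,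
      evR_fst, evR_snd, evR_snd, map_mul, AlgHom.commutes]

namespace Sur

variable (S : Sur Y)

theorem eq_dg1 (γ : Y.J → ℤ) : γ = dg Y (γ S.uniq.default) :=
  funext fun j => congrArg γ (S.uniq.uniq j)

include S in
theorem dg_inj1 : Function.Injective fun k : Unit → ℤ => dg Y (k ()) := fun k l h =>
  funext fun _ => congrFun h S.uniq.default

theorem ev_wtE (h : IsEv z M M₀ ε) {k : Unit → ℤ} {m : M.M}
    (hm : m ∈ wt ((S.prj W).actE M) k) : ε m ∈ M₀.wt (dg Y (k ())) := by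
  have h1 : m ∈ ⨆ γ, M.wt ((Mor.fst W Y).ρ γ + (S.prj W).σ k) := (S.prj W).toRes_mem_partS.2 hm
  refine Submodule.iSup_induction (motive := fun m : M.M => ε m ∈ M₀.wt (dg Y (k ()))) _ h1
    (fun γ m hm => mwt_eq (h.wt _ m hm) (funext fun j => zero_add _)) ?_ ?_
  · rw [map_zero]; exact zero_mem _
  · intro x y hx hy
    rw [map_add]; exact add_mem hx hy

theorem ev_val (h : IsEv z M M₀ ε) (k : ℤ) (m : (S.pc M k).M) :
    ε (S.val M k m) ∈ M₀.wt (dg Y k) := S.ev_wtE h (S.val_mem m)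

/-- the component of degree `k` -/
def cm (M : GMod (W.prod Y)) (k : ℤ) : M.M →+ (S.pc M k).M where
  toFun := fun m => S.el (cmp ((S.prj W).spanE M) (fun _ => k) m) (cmp_mem _ _ m)
  map_zero' := S.val_inj (map_zero (cmp ((S.prj W).spanE M) fun _ => k))
  map_add' := fun a b => S.val_inj (map_add (cmp ((S.prj W).spanE M) fun _ => k) a b)

theorem val_cm (k : ℤ) (m : M.M) :
    S.val M k (S.cm M k m) = cmp ((S.prj W).spanE M) (fun _ => k) m := rfl

theorem cm_val (k : ℤ) (m : (S.pc M k).M) : S.cm M k (S.val M k m) = m :=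
  S.val_inj (cmp_of_mem ((S.prj W).spanE M) (S.val_mem m))

theorem cm_smul (k : ℤ) (r : W.R) (m : M.M) :
    S.cm M k ((Mor.fst W Y).φ r • m) = r • S.cm M k m :=
  S.val_inj ((S.prj W).cmpE_smul M _ r m)

theorem pm_cm {A B : GMod (W.prod Y)} (k : ℤ) (u : A.M →ₗ[(W.prod Y).R] B.M) (hu : A.IsHom B u)
    (a : A.M) : S.pm k u hu (S.cm A k a) = S.cm B k (u a) :=
  S.val_inj ((S.prj W).map_cmpE hu _ a)

theorem ev_cm (h : IsEv z M M₀ ε) (k : ℤ) (m : M.M) :
    ε (S.val M k (S.cm M k m)) = M₀.cmp (dg Y k) (ε m) :=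
  map_cmp ((S.prj W).spanE M) M₀.span ε (fun k : Unit → ℤ => dg Y (k ())) S.dg_inj1
    (fun _ _ hv => S.ev_wtE h hv) (fun _ => k) m

theorem exists_sum_cm (m : M.M) : ∃ s : Finset ℤ, ∑ k ∈ s, S.val M k (S.cm M k m) = m := by
  obtain ⟨s, hs, -⟩ := exists_sum_cmp ((S.prj W).spanE M) m
  exact ⟨s.map (Equiv.funUnique Unit ℤ).toEmbedding, (Finset.sum_map _ _ _).trans hs⟩

theorem val_fibS {k : ℤ} {m : (S.pc M k).M}
    (hm : m ∈ RingHom.ker z.1 • (⊤ : Submodule W.R (S.pc M k).M)) : S.val M k m ∈ fibS z M :=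
  Submodule.smul_induction_on (p := fun m => S.val M k m ∈ fibS z M) hm
    (fun r hr n _ => fst_smul_mem hr _) fun a b ha hb => by rw [map_add]; exact add_mem ha hb

theorem cm_fibS (k : ℤ) {m : M.M} (hm : m ∈ fibS z M) :
    S.cm M k m ∈ RingHom.ker z.1 • (⊤ : Submodule W.R (S.pc M k).M) :=
  fibS_ind (P := fun m => S.cm M k m ∈ RingHom.ker z.1 • (⊤ : Submodule W.R (S.pc M k).M))
    (by rw [map_zero]; exact zero_mem _)
    (fun r m hr => by rw [cm_smul]; exact Submodule.smul_mem_smul hr Submodule.mem_top)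
    (fun a b ha hb => by rw [map_add]; exact add_mem ha hb) hm

theorem fibS_of_cm {m : M.M}
    (h : ∀ k, S.cm M k m ∈ RingHom.ker z.1 • (⊤ : Submodule W.R (S.pc M k).M)) :
    m ∈ fibS z M := by
  obtain ⟨s, hs⟩ := S.exists_sum_cm m
  rw [← hs]
  exact Submodule.sum_mem _ fun k _ => S.val_fibS (h k)

theorem fibK (h : IsFib z M M₀ ε) (k : ℤ) : S.FibK z M M₀ ε k where
  surj := fun v hv => by
    obtain ⟨m, rfl⟩ := h.surj v
    exact ⟨S.cm M k m, (S.ev_cm h.toIsEv k m).trans (M₀.cmp_of_mem hv)⟩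
  ker := fun m hm => S.cm_val k m ▸ S.cm_fibS k (h.ker _ hm)

theorem isFib (h : IsEv z M M₀ ε) (hk : ∀ k, S.FibK z M M₀ ε k) : IsFib z M M₀ ε where
  toIsEv := h
  surj := fun v => by
    induction v using M₀.induction with
    | h0 => exact ⟨0, map_zero ε⟩
    | hw γ v hv => exact ((hk _).surj v (mwt_eq hv (S.eq_dg1 γ))).elim fun m hm => ⟨_, hm⟩
    | ha x y hx hy =>
      obtain ⟨a, rfl⟩ := hx
      obtain ⟨b, rfl⟩ := hy
      exact ⟨a + b, map_add ε a b⟩
  ker := fun m hm => S.fibS_of_cm fun k => (hk k).ker _ (by rw [S.ev_cm h, hm, map_zero])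

theorem fib (k : ℤ) (h : IsEv z M M₀ ε) (hk : S.FibK z M M₀ ε k) :
    ∃ e : Fib z.1 (S.pc M k).M ≃ₗ[ℂ] M₀.wt (dg Y k),
      ∀ m, (e (Submodule.Quotient.mk m) : M₀.M) = ε (S.val M k m) := by
  let φ : (S.pc M k).M →ₗ[ℂ] M₀.wt (dg Y k) :=
    { toFun := fun m => ⟨ε (S.val M k m), S.ev_val h k m⟩
      map_add' := fun a b => Subtype.ext (by
        change ε (S.val M k (a + b)) = ε (S.val M k a) + ε (S.val M k b)
        rw [map_add, map_add])
      map_smul' := fun c a => Subtype.ext (h.csmul c (S.val M k a)) }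
  obtain ⟨e, he⟩ := exists_fib_equiv z.1 φ
    (fun v => (hk.surj v.1 v.2).imp fun m hm => Subtype.ext hm)
    fun a => ⟨fun ha => hk.ker a (congrArg Subtype.val ha),
      fun ha => Subtype.ext (h.fibS (S.val_fibS ha))⟩
  exact ⟨e, fun m => congrArg Subtype.val (he m)⟩

theorem fdim_eq (k : ℤ) (h : IsEv z M M₀ ε) (hk : S.FibK z M M₀ ε k) :
    fdim z.1 (S.pc M k).M = Module.finrank ℂ (M₀.wt (dg Y k)) :=
  (S.fib k h hk).elim fun e _ => e.finrank_eq

/-- a family all of whose fibres are the same module -/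
theorem fam_of_const {ε : W.Pt → M.M →+ M₀.M} (h : ∀ z, IsFib z M M₀ (ε z)) (z : W.Pt) :
    S.Fam z M M₀ (ε z) :=
  ⟨h z, fun k => ⟨_, GMod.isBun_of_rank (M := S.pc M k)
    (fun y => S.fdim_eq k (h y).toIsEv (S.fibK (h y) k)) z⟩⟩

end Sur

end Vale.Agent.P297Z.Qt
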