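import Vale.Agent.P297Z.Quot.Hbq

/-!
# P297: the dual of the bundle of homomorphisms by generators and relations
-/

set_option linter.all false

open scoped TensorProduct

noncomputable section

namespace Vale.Agent.P297Z.Qt

open GMod

variable {W Y : Spc}

namespace Hb

/-- the component of degree `j` -/
def cp (S : Sur Y) (M : GMod (W.prod Y)) (j : ℤ) : M.M →+ (S.pc M j).M :=
  AddMonoidHom.mk' (fun m => S.el (cmp ((S.prj W).spanE M) (fun _ => j) m) (cmp_mem _ _ m))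
    fun x y => S.val_inj (map_add (cmp ((S.prj W).spanE M) fun _ => j) x y)

theorem val_cp (S : Sur Y) (M : GMod (W.prod Y)) (j : ℤ) (m : M.M) :
    S.val M j (cp S M j m) = cmp ((S.prj W).spanE M) (fun _ => j) m := rfl

theorem cp_val (S : Sur Y) (M : GMod (W.prod Y)) (j : ℤ) (m : (S.pc M j).M) :
    cp S M j (S.val M j m) = m := S.val_inj (cmp_of_mem ((S.prj W).spanE M) (S.val_mem m))

theorem cp_smul (S : Sur Y) (M : GMod (W.prod Y)) (j : ℤ) (r : W.R) (m : M.M) :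
    cp S M j ((Mor.fst W Y).φ r • m) = r • cp S M j m :=
  S.val_inj ((S.prj W).cmpE_smul M _ r m)

/-- a part is spanned by the multiples of the generators -/
theorem part_ind (S : Sur Y) {M : GMod (W.prod Y)} {ι : Type} (γ : ι → W.J → ℤ) (a : ι → ℤ)
    (b : ι → M.M) (hb : ∀ i, b i ∈ M.wt (Sum.elim (γ i) (dg Y (a i))))
    (hs : Submodule.span (W.prod Y).R (Set.range b) = ⊤) (j : ℤ) (T : Submodule W.R (S.pc M j).M)
    (h : ∀ i, ∀ y ∈ Y.wt (dg Y (j - a i)), ∀ p, S.val M j p = (Mor.snd W Y).φ y • b i → p ∈ T)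
    (p : (S.pc M j).M) : p ∈ T := by
  rw [← cp_val S M j p]
  generalize S.val M j p = m
  have h1 : ∀ i (ρ : W.R ⊗[ℂ] Y.R), cp S M j ((show (W.prod Y).R from ρ) • b i) ∈ T := by
    intro i ρ
    refine Spc.ten_induction W Y (P := fun ρ => cp S M j ((show (W.prod Y).R from ρ) • b i) ∈ T)
      ?_ (fun _ δ x _ y hy => ?_) (fun x y hx hy => ?_) ρ
    · exact (congrArg (cp S M j) (zero_smul (W.prod Y).R (b i))).trans (map_zero _) ▸ T.zero_mem
    · have e : (show (W.prod Y).R from x ⊗ₜ[ℂ] y) = (Mor.fst W Y).φ x * (Mor.snd W Y).φ y :=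
        ((Algebra.TensorProduct.tmul_mul_tmul x 1 1 y).trans (by rw [mul_one, one_mul])).symm
      rw [e, mul_smul, cp_smul]
      refine T.smul_mem x ?_
      have h2 := (S.prj W).mem_wtE (smul_mem_wt ((Mor.snd W Y).wt_map δ y hy) (hb i))
      by_cases h3 : δ S.uniq.default + a i = j
      · refine h i y (wt_eq hy (funext fun o => ?_)) _ 
          (cmp_of_mem ((S.prj W).spanE M) (h3 ▸ h2))
        rw [S.uniq.uniq o]
        exact eq_sub_of_add_eq h3
      · have h4 : cp S M j ((Mor.snd W Y).φ y • b i) = 0 :=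
          S.val_inj (cmp_of_ne ((S.prj W).spanE M) (fun e => h3 (congrFun e ())) h2)
        exact h4 ▸ T.zero_mem
    · exact (congrArg (cp S M j) (add_smul (show (W.prod Y).R from x) y (b i))).trans
        (map_add _ _ _) ▸ T.add_mem hx hy
  have h2 : ∀ m ∈ Submodule.span (W.prod Y).R (Set.range b), ∀ ρ : (W.prod Y).R,
      cp S M j (ρ • m) ∈ T := fun m hm => by
    induction hm using Submodule.span_induction with
    | mem x hx =>
      obtain ⟨i, rfl⟩ := hx
      exact h1 i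
    | zero => exact fun ρ => by rw [smul_zero, map_zero]; exact T.zero_mem
    | add x y _ _ hx hy => exact fun ρ => by rw [smul_add, map_add]; exact T.add_mem (hx ρ) (hy ρ)
    | smul s x _ hx => exact fun ρ => by rw [smul_smul]; exact hx _
  exact one_smul (W.prod Y).R m ▸ h2 m (hs ▸ Submodule.mem_top) 1

theorem cf_pm (S : Sur Y) {A B : GMod (W.prod Y)} {u : A.M →ₗ[(W.prod Y).R] B.M}
    (hu : A.IsHom B u) (G : GMod (W.prod Y)) (j k : ℤ) (p : (S.pc A j).M)
    (g : Module.Dual W.R (S.pc G (j + k)).M) :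
    S.cf A G j k p g ∘ₗ S.pm k (rs u G) (rs_hom hu G) = S.cf B G j k (S.pm j u hu p) g :=
  LinearMap.ext fun φ => congrArg g (S.val_inj rfl)

theorem ses_left {A B C : GMod W} {f : A.M →ₗ[W.R] B.M} {g : B.M →ₗ[W.R] C.M}
    (s : SES A B C f g) {z : W.Pt} {n : ℕ} (h : FreeAt z.1 C.M n) :
    ∃ (r : W.R) (t : B.M →ₗ[W.R] A.M), z.1 r ≠ 0 ∧ ∀ a, t (f a) = r • a := by
  obtain ⟨r, -, t, h1, -, h2, -⟩ := exists_split h s.2.2.1 (s.2.2.2 z).1 (s.2.2.2 z).2.1
    (s.2.2.2 z).2.2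
  exact ⟨r, t, h1, h2⟩

theorem exists_ext {A B : GMod W} {v : A.M →ₗ[W.R] B.M} (hv : A.IsHom B v) {z : W.Pt} {n : ℕ}
    (h : FreeAt z.1 hv.cokerM.M n) (l : Module.Dual W.R A.M) (hl : ∀ a, v a = 0 → l a = 0) :
    ∃ (r : W.R) (l' : Module.Dual W.R B.M), z.1 r ≠ 0 ∧ l' ∘ₗ v = r • l := by
  obtain ⟨r, t, h1, h2⟩ := ses_left (ses_sub_quo B _ hv.stab_range) h
  obtain ⟨l0, h3⟩ := P297Z.exists_desc (g := v.rangeRestrict) (u := l) (r := 1) (s := 1)
    (fun b hb => by rw [hl b (congrArg Subtype.val hb), smul_zero])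
    fun c => by rw [one_smul]; exact v.surjective_rangeRestrict c
  refine ⟨r, l0 ∘ₗ t, h1, LinearMap.ext fun a => ?_⟩
  refine (congrArg l0 (h2 (v.rangeRestrict a))).trans ((l0.map_smul _ _).trans ?_)
  rw [h3 _ a (one_smul _ _).symm, one_smul]
  rfl

namespace Cov

variable {B : GMod (W.prod Y)} (c : Cov B) (S : Sur Y) (G : GMod (W.prod Y)) (k : ℤ)

theorem span_e : Submodule.span (W.prod Y).R (Set.range c.e) = ⊤ := by
  refine Eq.trans (congrArg (fun f => Submodule.span (W.prod Y).R (Set.range f)) ?_)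
    (Pi.basisFun (W.prod Y).R (Fin c.n)).span_eq
  exact funext fun i => (Pi.basisFun_apply (W.prod Y).R (Fin c.n) i).symm

/-- the map with one nonzero value on the basis -/
def ins (i : Fin c.n) : (S.pc G (c.a i + k)).M →ₗ[W.R] (S.pc (c.P.hom G) k).M :=
  (LinearEquiv.ofBijective _ (c.evP_bij S G k)).symm.toLinearMap ∘ₗ
    LinearMap.single W.R (fun i => (S.pc G (c.a i + k)).M) i

theorem evP_ins (i : Fin c.n) (x : (S.pc G (c.a i + k)).M) :
    c.evP S G k (c.ins S G k i x) = Pi.single (M := fun i => (S.pc G (c.a i + k)).M) i x :=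
  (LinearEquiv.ofBijective _ (c.evP_bij S G k)).apply_symm_apply _

theorem dual_eq (l : Module.Dual W.R (S.pc (c.P.hom G) k).M) :
    l = ∑ i, S.cf c.P G (c.a i) k (c.ec S i) (l ∘ₗ c.ins S G k i) := by
  refine LinearMap.ext fun φ => ?_
  have e : ∑ i, c.ins S G k i (c.evP S G k φ i) = φ := (c.evP_bij S G k).1 (by
    rw [map_sum]
    simp only [evP_ins]
    exact Finset.univ_sum_single _)
  rw [LinearMap.sum_apply]
  exact (congrArg l e).symm.trans (map_sum l _ _)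

theorem key {N : Type} [AddCommGroup N] [Module W.R N]
    (P : ∀ j, (S.pc B j).M →ₗ[W.R] Module.Dual W.R (S.pc G (j + k)).M →ₗ[W.R] N)
    (hP : ∀ (j j' : ℤ) (b : (S.pc B j).M) (b' : (S.pc B j').M)
      (g : Module.Dual W.R (S.pc G (j + k)).M) (g' : Module.Dual W.R (S.pc G (j' + k)).M),
      ∀ y ∈ Y.wt (dg Y (j' - j)), S.val B j' b' = (Mor.snd W Y).φ y • S.val B j b →
      (∀ v v', S.val G (j' + k) v' = (Mor.snd W Y).φ y • S.val G (j + k) v → g v = g' v') →
      P j' b' g' = P j b g) (j : ℤ) (g : Module.Dual W.R (S.pc G (j + k)).M)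
    (p : (S.pc c.P j).M) :
    ∑ i, P (c.a i) (S.pm _ c.π c.π_hom (c.ec S i)) (S.cf c.P G j k p g ∘ₗ c.ins S G k i) =
      P j (S.pm j c.π c.π_hom p) g := by
  let L : (S.pc c.P j).M →ₗ[W.R] N := ∑ i, P (c.a i) (S.pm _ c.π c.π_hom (c.ec S i)) ∘ₗ
    LinearMap.lcomp W.R W.R (c.ins S G k i) ∘ₗ
      (LinearMap.llcomp W.R _ _ W.R g) ∘ₗ (S.apc c.P G j k).flip
  have hL : ∀ p, L p =
      ∑ i, P (c.a i) (S.pm _ c.π c.π_hom (c.ec S i)) (S.cf c.P G j k p g ∘ₗ c.ins S G k i) :=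
    fun p => LinearMap.sum_apply _ _ _
  rw [← hL]
  refine part_ind S c.γ c.a c.e c.e_wt c.span_e j
    (LinearMap.eqLocus L ((P j).flip g ∘ₗ S.pm j c.π c.π_hom)) (fun i y hy p hp => ?_) p
  have h1 : ∀ φ, S.val G _ (S.apc c.P G j k φ p) =
      (Mor.snd W Y).φ y • S.val G _ (c.evP S G k φ i) := fun φ => by
    rw [S.val_apc, hp, map_smul, val_evP]
  refine (hL p).trans ((Finset.sum_eq_single i (fun i' _ hi => ?_)
    fun h => (h (Finset.mem_univ i)).elim).trans (hP _ _ _ _ _ _ y hy ?_ fun v v' h => ?_).symm)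
  · have h2 : S.cf c.P G j k p g ∘ₗ c.ins S G k i' = 0 := LinearMap.ext fun x =>
      (congrArg g (S.val_inj ((h1 _).trans (by
        rw [evP_ins, Pi.single_eq_of_ne hi.symm, map_zero, smul_zero, map_zero])))).trans
        (map_zero g)
    rw [h2, map_zero]
  · rw [S.val_pm, S.val_pm, hp, map_smul]
    rfl
  · refine congrArg g (S.val_inj ((h1 _).trans ?_))
    rw [evP_ins, Pi.single_eq_same, h]

end Cov

end Hb

open Hb in
theorem hbd : HBD := by
  intro hF hB W Y S z B G B₀ G₀ εB εG k fB fG hk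
  have F := hF hB W Y S z
  obtain ⟨c⟩ := exists_cov S B
  obtain ⟨c'⟩ := exists_cov S c.K
  refine ⟨fun lam => ?_, fun N _ _ P hP n j b g h => ?_⟩
  · obtain ⟨⟨a, ha⟩, h1, -⟩ := c.split c' F fB fG hk
    obtain ⟨r, t, h2, h3⟩ := exists_left_inv ha (c.hom_free fG k).choose_spec h1
    refine ⟨r, c.n, c.a, fun i => S.pm _ c.π c.π_hom (c.ec S i),
      fun i => (lam ∘ₗ t) ∘ₗ c.ins S G k i, h2, LinearMap.ext fun φ => ?_⟩
    have e := LinearMap.congr_fun (c.dual_eq S G k (lam ∘ₗ t)) (c.u S G k φ)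
    rw [LinearMap.comp_apply, h3, map_smul, LinearMap.sum_apply] at e
    rw [LinearMap.sum_apply]
    exact e.trans (Finset.sum_congr rfl fun i _ => LinearMap.congr_fun
      (cf_pm S c.π_hom G (c.a i) k (c.ec S i) ((lam ∘ₗ t) ∘ₗ c.ins S G k i)) φ)
  · choose p hp using fun i => (S.prj W).partMap_surjective (fun _ => j i) c.π_hom c.π_surj (b i)
    replace hp : ∀ i, S.pm (j i) c.π c.π_hom (p i) = b i := hp
    let Ψ : Module.Dual W.R (S.pc (c.P.hom G) k).M →ₗ[W.R] N :=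
      ∑ i, P (c.a i) (S.pm _ c.π c.π_hom (c.ec S i)) ∘ₗ LinearMap.lcomp W.R W.R (c.ins S G k i)
    have hΨ : ∀ j p g, Ψ (S.cf c.P G j k p g) = P j (S.pm j c.π c.π_hom p) g := fun j p g =>
      (LinearMap.sum_apply _ _ _).trans (c.key S G k P hP j g p)
    obtain ⟨r, l, h1, h2⟩ := exists_ext (c.v_hom c' S G k) (c.coker_free c' F fB fG hk).choose_spec
      (∑ i, S.cf c.P G (j i) k (p i) (g i)) fun a ha => by
        obtain ⟨φ, rfl⟩ := (c.uv_exact c' S G k a).1 ha
        have e := LinearMap.congr_fun h φ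
        rw [LinearMap.sum_apply] at e ⊢
        refine (Finset.sum_congr rfl fun i _ => ?_).trans e
        rw [← hp]
        exact LinearMap.congr_fun (cf_pm S c.π_hom G _ k _ _) φ
    refine ⟨r, h1, ?_⟩
    have h3 := congrArg Ψ h2
    have h4 := congrArg (LinearMap.lcomp W.R W.R (c.v c' S G k)) (c'.dual_eq S G k l)
    rw [map_sum, LinearMap.lcomp_apply'] at h4
    rw [map_smul, map_sum, h4, map_sum,
      Finset.sum_congr rfl fun i _ => (hΨ (j i) (p i) (g i)).trans (by rw [hp])] at h3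
    refine h3.symm.trans (Finset.sum_eq_zero fun i _ => ?_)
    refine (congrArg Ψ (cf_pm S (c.d_hom c') G (c'.a i) k (c'.ec S i) (l ∘ₗ c'.ins S G k i))).trans
      ((hΨ _ _ _).trans ?_)
    have e : S.pm _ c.π c.π_hom (S.pm _ (c.d c') (c.d_hom c') (c'.ec S i)) = 0 :=
      S.val_inj ((c.d_exact c').apply_apply_eq_zero _)
    rw [e, map_zero, LinearMap.zero_apply]

end Vale.Agent.P297Z.Qt
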