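import Vale.Agent.P297Z.Quot.Sk
import Vale.Agent.P297Z.K.PK4
import Mathlib.LinearAlgebra.LeftExact

/-!
# P297: evaluation of homomorphisms of families, covers of a family
-/

set_option linter.all false

open scoped TensorProduct

noncomputable section

namespace Vale.Agent.P297Z.Qt.Hb

open GMod
open Submodule.Quotient (mk)

variable {W Y : Spc}

/-! ### Homomorphisms -/

section hom

variable {A B C G : GMod W} {u : A.M →ₗ[W.R] B.M} {v : B.M →ₗ[W.R] C.M}

theorem hom_ext {φ ψ : (A.hom B).M} (h : ∀ a, ap φ a = ap ψ a) : φ = ψ := LinearMap.ext h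

theorem rs_inj (h : Function.Surjective u) (G : GMod W) : Function.Injective (rs u G) :=
  LinearMap.lcomp_injective_of_surjective (S := W.R) (N := G.M) u h

theorem rs_exact (h : Function.Exact u v) (hv : Function.Surjective v) (G : GMod W) :
    Function.Exact (rs v G) (rs u G) := LinearMap.exact_lcomp_of_exact_of_surjective G.M h hv

/-- descent of a homogeneous map along a surjection -/
theorem exists_desc (hv : B.IsHom C v) (h : Function.Surjective v) {δ : W.J → ℤ}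
    {φ : (B.hom G).M} (hφ : φ ∈ (B.hom G).wt δ) (h0 : ∀ b, v b = 0 → ap φ b = 0) :
    ∃ ψ ∈ (C.hom G).wt δ, rs v G ψ = φ := by
  obtain ⟨ψ, hψ⟩ := (rs_exact (A := hv.kerM) v.exact_subtype_ker_map h G φ).1
    (hom_ext fun a => h0 a.1 a.2)
  obtain ⟨ψ', h1, h2⟩ := (rs_hom hv G).exists_preimage (m := ψ) (γ := δ) (hψ.symm ▸ hφ)
  exact ⟨ψ', h1, h2.trans hψ⟩

/-- the basis of a sum of twists -/
def bs {ι : Type} [Fintype ι] [DecidableEq ι] (δ : ι → W.J → ℤ) (i : ι) : (Fr δ).M :=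
  sgl (fun i => (GMod.one W).shift (-δ i)) i (sh (GMod.one W) (-δ i) (1 : W.R))

theorem bs_wt {ι : Type} [Fintype ι] [DecidableEq ι] (δ : ι → W.J → ℤ) (i : ι) :
    bs δ i ∈ (Fr δ).wt (δ i) :=
  sgl_wt (M := fun i => (GMod.one W).shift (-δ i)) (sh_wt (M := GMod.one W)
    (mwt_eq (M := GMod.one W) W.one_mem (add_neg_cancel _).symm))

/-- the map from a sum of twists with given values on the basis -/
def lc {ι : Type} [Fintype ι] (δ : ι → W.J → ℤ) (b : ι → B.M) : (Fr δ).M →ₗ[W.R] B.M :=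
  Fintype.linearCombination W.R b

theorem lc_bs {ι : Type} [Fintype ι] [DecidableEq ι] (δ : ι → W.J → ℤ) (b : ι → B.M) (i : ι) :
    lc δ b (bs δ i) = b i :=
  (Fintype.linearCombination_apply_single W.R b i 1).trans (one_smul _ _)

theorem fr_ext {ι : Type} [Fintype ι] [DecidableEq ι] {δ : ι → W.J → ℤ}
    {φ ψ : (Fr δ).M →ₗ[W.R] B.M} (h : ∀ i, φ (bs δ i) = ψ (bs δ i)) : φ = ψ :=
  (Pi.basisFun W.R ι).ext (f₁ := φ) (f₂ := ψ) fun i => by
    rw [Pi.basisFun_apply]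
    exact h i

theorem act_lc {ι : Type} [Fintype ι] [DecidableEq ι] {δ : ι → W.J → ℤ} {φ : ((Fr δ).hom G).M}
    {g : W.J → ℂˣ} {t : ℂ} (h : ∀ i, G.act g (ap φ (bs δ i)) = (chr (δ i) g * t) • ap φ (bs δ i)) :
    ((Fr δ).hom G).act g φ = t • φ := by
  refine ap.injective (fr_ext fun i => ?_)
  rw [act_ap, bs_wt δ i g⁻¹, LinearMap.map_smul_of_tower, map_smul, h, smul_smul, chr_inv,
    inv_mul_cancel_left₀ (chr_ne _ _), ap_smul]

end hom

/-! ### Evaluation -/

section ev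

variable {z : W.Pt} {A B G M : GMod (W.prod Y)} {A₀ B₀ G₀ M₀ : GMod Y} {εA : A.M →+ A₀.M}
  {εB : B.M →+ B₀.M} {εG : G.M →+ G₀.M} {ε : M.M →+ M₀.M}

theorem ev_zero (h : IsEv z M M₀ ε) {m : M.M}
    (hm : m ∈ ((RingHom.ker z.1).map (Mor.fst W Y).φ) • (⊤ : Submodule (W.prod Y).R M.M)) :
    ε m = 0 := by
  refine Submodule.smul_induction_on (p := fun m => ε m = 0) hm (fun a ha m _ => ?_)
    fun a b ha hb => by rw [map_add, ha, hb, add_zero]
  have : evR Y z a = 0 := by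
    refine (Ideal.map_le_iff_le_comap (K := RingHom.ker (evR Y z))).2 (fun c hc => ?_) ha
    rw [Ideal.mem_comap, RingHom.mem_ker, evR_fst, (RingHom.mem_ker.1 hc), map_zero]
  rw [h.smul, this, zero_smul]

theorem ev_val_zero (S : Sur Y) (h : IsEv z M M₀ ε) {k : ℤ} {m : (S.pc M k).M}
    (hm : m ∈ RingHom.ker z.1 • (⊤ : Submodule W.R (S.pc M k).M)) : ε (S.val M k m) = 0 := by
  refine Submodule.smul_induction_on (p := fun m => ε (S.val M k m) = 0) hm (fun a ha m _ => ?_)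
    fun a b ha hb => by rw [map_add, map_add, ha, hb, add_zero]
  rw [S.val_smul, h.smul, evR_fst, RingHom.mem_ker.1 ha, map_zero, zero_smul]

theorem exists_evH (fB : IsFib z B B₀ εB) (fG : IsEv z G G₀ εG) (φ : (B.hom G).M) :
    ∃ ψ : (B₀.hom G₀).M, ∀ b, ap ψ (εB b) = εG (ap φ b) := by
  have h0 : ∀ b b', εB b = εB b' → εG (ap φ b) = εG (ap φ b') := fun b b' h => by
    rw [← sub_eq_zero, ← map_sub, ← map_sub]
    exact ev_zero fG (Submodule.smul_top_le_comap_smul_top _ (ap φ)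
      (fB.ker _ (by rw [map_sub, h, sub_self])))
  choose s hs using fB.surj
  refine ⟨ap.symm
    { toFun := fun v => εG (ap φ (s v))
      map_add' := fun a b => ?_
      map_smul' := fun r a => ?_ }, fun b => h0 _ _ (hs _)⟩
  · rw [← map_add, ← map_add]
    exact h0 _ _ (by rw [map_add, hs, hs, hs])
  · have := h0 (s (r • a)) ((Mor.snd W Y).φ r • s a) (by rw [fB.smul, evR_snd, hs, hs])
    rw [this, map_smul, fG.smul, evR_snd, RingHom.id_apply]

theorem fib_ext (fB : IsFib z B B₀ εB) {φ ψ : (B₀.hom G₀).M}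
    (h : ∀ b, ap φ (εB b) = ap ψ (εB b)) : φ = ψ := hom_ext fun v => by
  obtain ⟨b, rfl⟩ := fB.surj v
  exact h b

/-- the evaluation of homomorphisms -/
def evH (fB : IsFib z B B₀ εB) (fG : IsEv z G G₀ εG) : (B.hom G).M →+ (B₀.hom G₀).M :=
  AddMonoidHom.mk' (fun φ => (exists_evH fB fG φ).choose) fun φ ψ => fib_ext fB fun b => by
    rw [(exists_evH fB fG _).choose_spec, map_add ap (Exists.choose _), LinearMap.add_apply,
      (exists_evH fB fG _).choose_spec, (exists_evH fB fG _).choose_spec, map_add,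
      LinearMap.add_apply, map_add]

theorem evH_ap (fB : IsFib z B B₀ εB) (fG : IsEv z G G₀ εG) (φ : (B.hom G).M) (b : B.M) :
    ap (evH fB fG φ) (εB b) = εG (ap φ b) := (exists_evH fB fG φ).choose_spec b

theorem evH_isEv (fB : IsFib z B B₀ εB) (fG : IsEv z G G₀ εG) :
    IsEv z (B.hom G) (B₀.hom G₀) (evH fB fG) where
  smul := fun a φ => fib_ext fB fun b => by
    rw [evH_ap, map_smul, map_smul, LinearMap.smul_apply, LinearMap.smul_apply, fG.smul, evH_ap]
  wt := fun γ φ hφ g => fib_ext fB fun b => by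
    induction b using B.induction with
    | h0 => rw [map_zero, map_zero, map_zero]
    | ha a b ha hb => rw [map_add, map_add, map_add, ha, hb]
    | hw β b hb =>
      rw [act_ap, fB.wt β b hb g⁻¹, LinearMap.map_smul_of_tower, map_smul, ap_smul, evH_ap,
        fG.wt _ _ (ap_wt hφ hb) g, smul_smul, chr_inv]
      congr 1
      exact (congrArg _ (chr_add (fun j => β (.inr j)) (fun j => γ (.inr j)) g)).trans
        (inv_mul_cancel_left₀ (chr_ne _ _) _)

theorem evH_rs (fA : IsFib z A A₀ εA) (fB : IsFib z B B₀ εB) (fG : IsEv z G G₀ εG)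
    {u : A.M →ₗ[(W.prod Y).R] B.M} {u₀ : A₀.M →ₗ[Y.R] B₀.M} (h : ∀ a, εB (u a) = u₀ (εA a))
    (φ : (B.hom G).M) : evH fA fG (rs u G φ) = rs u₀ G₀ (evH fB fG φ) := fib_ext fA fun a => by
  rw [evH_ap, ap_rs, ap_rs, ← h, evH_ap]

end ev

theorem mem_wtE (S : Sur Y) {M : GMod (W.prod Y)} {γ : W.J → ℤ} {k : ℤ} {m : M.M}
    (h : m ∈ M.wt (Sum.elim γ (dg Y k))) : m ∈ wt ((S.prj W).actE M) fun _ => k :=
  have e : (S.prj W).π (Sum.elim γ (dg Y k)) = fun _ => k := rfl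
  e ▸ (S.prj W).mem_wtE (δ := Sum.elim γ (dg Y k)) h

/-! ### Covers -/

/-- homogeneous generators of a family -/
structure Cov (B : GMod (W.prod Y)) where
  n : ℕ
  γ : Fin n → W.J → ℤ
  a : Fin n → ℤ
  b : Fin n → B.M
  b_wt : ∀ i, b i ∈ B.wt (Sum.elim (γ i) (dg Y (a i)))
  span : Submodule.span (W.prod Y).R (Set.range b) = ⊤

theorem exists_cov (S : Sur Y) (B : GMod (W.prod Y)) : Nonempty (Cov B) := by
  obtain ⟨T, w, h1, h2⟩ := B.exists_gens (W.prod Y).R
  let v : Fin T.card → B.M := fun i => T.equivFin.symm i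
  refine ⟨⟨T.card, fun i j => w (v i) (.inl j), fun i => w (v i) (.inr S.uniq.default), v,
    fun i => mwt_eq (h1 _ (T.equivFin.symm i).2) (funext fun j => ?_), ?_⟩⟩
  · cases j with
    | inl j => rfl
    | inr j => rw [S.uniq.uniq j]; rfl
  · rw [← h2]
    congr 1
    exact (T.equivFin.symm.surjective.range_comp Subtype.val).trans Subtype.range_coe

namespace Cov

variable {B G : GMod (W.prod Y)} (c : Cov B) {z : W.Pt} {B₀ G₀ : GMod Y} {εB : B.M →+ B₀.M}
  {εG : G.M →+ G₀.M}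

/-- the degrees of the generators -/
def ds (i : Fin c.n) : (W.prod Y).J → ℤ := Sum.elim (c.γ i) (dg Y (c.a i))

/-- the free module on the generators -/
def P : GMod (W.prod Y) := Fr c.ds

/-- its fibre -/
def P₀ : GMod Y := Fr fun i => dg Y (c.a i)

/-- the basis of the free module -/
def e (i : Fin c.n) : c.P.M := bs c.ds i

/-- the basis of the fibre -/
def e₀ (i : Fin c.n) : c.P₀.M := bs (fun i => dg Y (c.a i)) i

/-- the projection -/
def π : c.P.M →ₗ[(W.prod Y).R] B.M := lc c.ds c.b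

/-- the projection on the fibres -/
def π₀ (εB : B.M →+ B₀.M) : c.P₀.M →ₗ[Y.R] B₀.M := lc _ fun i => εB (c.b i)

/-- the evaluation on the free module -/
def ε (z : W.Pt) : c.P.M →+ c.P₀.M :=
  piMap (M := fun i => (GMod.one _).shift (-c.ds i))
    (N := fun i => (GMod.one Y).shift (-dg Y (c.a i)))
    fun _ => (evR Y z : (W.prod Y).R →+* Y.R).toAddMonoidHom

theorem e_wt (i : Fin c.n) : c.e i ∈ c.P.wt (c.ds i) := bs_wt _ i

theorem e₀_wt (i : Fin c.n) : c.e₀ i ∈ c.P₀.wt (dg Y (c.a i)) := bs_wt _ i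

theorem π_e (i : Fin c.n) : c.π (c.e i) = c.b i := lc_bs _ _ i

theorem π_hom : c.P.IsHom B c.π := lc_hom _ _ c.b_wt

theorem π_surj : Function.Surjective c.π :=
  LinearMap.range_eq_top.1 ((Fintype.range_linearCombination (W.prod Y).R c.b).trans c.span)

theorem π₀_hom (h : IsEv z B B₀ εB) : c.P₀.IsHom B₀ (c.π₀ εB) :=
  lc_hom _ _ fun i => h.wt _ _ (c.b_wt i)

theorem ε_e (z : W.Pt) (i : Fin c.n) : c.ε z (c.e i) = c.e₀ i :=
  (piMap_sgl _ _ _).trans (congrArg (sgl (fun i => (GMod.one Y).shift (-dg Y (c.a i))) i)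
    (map_one (evR Y z)))

theorem ε_π (h : IsEv z B B₀ εB) (a : c.P.M) : εB (c.π a) = c.π₀ εB (c.ε z a) := by
  change εB (∑ s, (show (W.prod Y).R from a s) • c.b s) = ∑ s, evR Y z (a s) • εB (c.b s)
  rw [map_sum]
  exact Finset.sum_congr rfl fun s _ => h.smul _ _

theorem π₀_surj (h : IsFib z B B₀ εB) : Function.Surjective (c.π₀ εB) := fun v => by
  obtain ⟨b, rfl⟩ := h.surj v
  obtain ⟨a, rfl⟩ := c.π_surj b
  exact ⟨_, (c.ε_π h.toIsEv a).symm⟩

/-- the relations -/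
def K : GMod (W.prod Y) := c.π_hom.kerM

/-- the relations on the fibre -/
def K₀ (h : IsEv z B B₀ εB) : GMod Y := (c.π₀_hom h).kerM

theorem ε_mem (h : IsEv z B B₀ εB) : ∀ m ∈ LinearMap.ker c.π, c.ε z m ∈ LinearMap.ker (c.π₀ εB) :=
  fun m hm => by rw [LinearMap.mem_ker, ← c.ε_π h, LinearMap.mem_ker.1 hm, map_zero]

/-- the evaluation on the relations -/
def εK (h : IsEv z B B₀ εB) : c.K.M →+ (c.K₀ h).M :=
  subE (c.ε z) c.π_hom.stab_ker (c.π₀_hom h).stab_ker (c.ε_mem h)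

/-- the inclusion of the relations -/
def ι : c.K.M →ₗ[(W.prod Y).R] c.P.M := (LinearMap.ker c.π).subtype

/-- the inclusion of the relations on the fibre -/
def ι₀ (h : IsEv z B B₀ εB) : (c.K₀ h).M →ₗ[Y.R] c.P₀.M := (LinearMap.ker (c.π₀ εB)).subtype

theorem ι_hom : c.K.IsHom c.P c.ι := GMod.isHom_subtype _ _ c.π_hom.stab_ker

theorem ι₀_hom (h : IsEv z B B₀ εB) : (c.K₀ h).IsHom c.P₀ (c.ι₀ h) :=
  GMod.isHom_subtype _ _ (c.π₀_hom h).stab_ker

theorem ι_exact : Function.Exact c.ι c.π := c.π.exact_subtype_ker_map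

theorem ι₀_exact (h : IsEv z B B₀ εB) : Function.Exact (c.ι₀ h) (c.π₀ εB) :=
  (c.π₀ εB).exact_subtype_ker_map

theorem ι₀_inj (h : IsEv z B B₀ εB) : Function.Injective (c.ι₀ h) := Subtype.val_injective

theorem ε_ι (h : IsEv z B B₀ εB) (a : c.K.M) : c.ε z (c.ι a) = c.ι₀ h (c.εK h a) := rfl

variable {S : Sur Y}

theorem famP (F : Fbk S z) : S.Fam z c.P c.P₀ (c.ε z) :=
  F.pi (Fin c.n) _ _ _ fun i => F.one (c.γ i) (dg Y (c.a i))

theorem famK (F : Fbk S z) (h : S.Fam z B B₀ εB) : S.Fam z c.K (c.K₀ h.toIsEv) (c.εK h.toIsEv) := by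
  refine (F.ker c.P B c.P₀ B₀ (c.ε z) εB c.π c.π_hom (c.π₀ εB) (c.π₀_hom h.toIsEv) _ ?_ (c.famP F) h
    (c.ε_π h.toIsEv) fun k => ⟨0, freeAt_zero_iff.2 fun m => ⟨1, ev_one, ?_⟩⟩).1
  · rintro _ ⟨a, rfl⟩
    exact ⟨_, (c.ε_π h.toIsEv a).symm⟩
  · refine S.val_inj ?_
    rw [one_smul, map_zero]
    obtain ⟨b, hb⟩ := Submodule.mkQ_surjective (LinearMap.range c.π) (S.val _ k m)
    exact hb.symm.trans ((Submodule.Quotient.mk_eq_zero _).2 (c.π_surj b))

/-- the basis as elements of the parts -/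
def ec (S : Sur Y) (i : Fin c.n) : (S.pc c.P (c.a i)).M :=
  S.el (c.e i) (mem_wtE S (c.e_wt i))

/-- the values on the basis -/
def evP (S : Sur Y) (G : GMod (W.prod Y)) (k : ℤ) :
    (S.pc (c.P.hom G) k).M →ₗ[W.R] ∀ i, (S.pc G (c.a i + k)).M :=
  LinearMap.pi fun i => (S.apc c.P G (c.a i) k).flip (c.ec S i)

theorem val_evP (G : GMod (W.prod Y)) (k : ℤ) (φ : (S.pc (c.P.hom G) k).M) (i : Fin c.n) :
    S.val G _ (c.evP S G k φ i) = ap (S.val _ k φ) (c.e i) := rfl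

theorem evP_bij (S : Sur Y) (G : GMod (W.prod Y)) (k : ℤ) : Function.Bijective (c.evP S G k) := by
  refine ⟨fun φ ψ h => S.val_inj (ap.injective (fr_ext fun i => ?_)), fun g => ?_⟩
  · exact congrArg (S.val G _) (congrFun h i)
  · have e : ∀ i, ap (ap.symm (lc c.ds fun i => S.val G _ (g i)) : (c.P.hom G).M) (c.e i) =
        S.val G _ (g i) := fun i => lc_bs c.ds (fun i => S.val G _ (g i)) i
    refine ⟨S.el (ap.symm (lc c.ds fun i => S.val G _ (g i))) fun h => act_lc fun i => ?_,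
      funext fun i => S.val_inj (e i)⟩
    refine (congrArg (G.act _) (e i)).trans ((S.val_mem (g i) h).trans ?_)
    rw [chr_tor, ← chr_add]
    exact congrArg₂ (fun t x => chr t h • x) rfl (e i).symm

theorem hom_free (fG : S.Fam z G G₀ εG) (k : ℤ) : ∃ r, FreeAt z.1 (S.pc (c.P.hom G) k).M r := by
  choose r hr using fun i => fG.free (c.a i + k)
  exact ⟨_, (AK.free_pi hr).of_equiv (LinearEquiv.ofBijective _ (c.evP_bij S G k)).symm⟩

theorem hom_fibK (F : Fbk S z) (fG : IsFib z G G₀ εG) (k : ℤ) :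
    S.FibK z (c.P.hom G) (c.P₀.hom G₀) (evH (c.famP F).toIsFib fG.toIsEv) k where
  surj := fun φ hφ => by
    choose g hg using fun i => (F.fibK G G₀ εG fG (c.a i + k)).surj (ap φ (c.e₀ i))
      (ap_wt hφ (c.e₀_wt i))
    obtain ⟨ψ, rfl⟩ := (c.evP_bij S G k).2 g
    refine ⟨ψ, ap.injective (fr_ext fun i => ?_)⟩
    refine (congrArg _ (c.ε_e z i).symm).trans ((evH_ap _ _ _ _).trans (hg i))
  ker := fun φ hφ => by
    let e := LinearEquiv.ofBijective _ (c.evP_bij S G k)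
    rw [← e.symm_apply_apply φ, ← Finset.univ_sum_single (e φ), map_sum]
    refine Submodule.sum_mem _ fun i _ => Submodule.smul_top_le_comap_smul_top _
      (e.symm.toLinearMap ∘ₗ LinearMap.single W.R _ i)
      ((F.fibK G G₀ εG fG (c.a i + k)).ker _ ?_)
    refine (evH_ap (c.famP F).toIsFib fG.toIsEv (S.val _ k φ) (c.e i)).symm.trans ?_
    rw [hφ, map_zero, LinearMap.zero_apply]

end Cov

end Vale.Agent.P297Z.Qt.Hb
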