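import Vale.Agent.P297Z.Quot.NatQ
import Vale.Agent.P297Z.Quot.Hbq1

/-!
# P297: constant families
-/

set_option linter.all false

open scoped TensorProduct

noncomputable section

namespace Vale.Agent.P297Z.Qt

open GMod

section ml

variable {P A B : Type} [CommRing P] [AddCommGroup A] [Module P A] [AddCommGroup B] [Module P B]

theorem ml_mem {n : ℕ} (f : MultilinearMap P (fun _ : Fin n => A) P) (I : Ideal P) {s : Set A}
    (hs : Submodule.span P s = ⊤) (h : ∀ v, (∀ i, v i ∈ s) → f v ∈ I) (v : Fin n → A) :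
    f v ∈ I := by
  suffices H : ∀ (t : Finset (Fin n)) (v : Fin n → A), (∀ i ∉ t, v i ∈ s) → f v ∈ I from
    H Finset.univ v fun i hi => absurd (Finset.mem_univ i) hi
  intro t
  induction t using Finset.induction_on with
  | empty => exact fun v hv => h v fun i => hv i (Finset.notMem_empty i)
  | insert j t hj ih =>
    intro v hv
    rw [← Function.update_eq_self j v]
    have hx : v j ∈ Submodule.span P s := hs ▸ Submodule.mem_top
    generalize v j = x at hx
    induction hx using Submodule.span_induction with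
    | mem x hx =>
      refine ih _ fun i hi => ?_
      by_cases e : i = j
      · rwa [e, Function.update_self]
      · rw [Function.update_of_ne e]
        exact hv i fun h => (Finset.mem_insert.1 h).elim e hi
    | zero => rw [f.map_update_zero]; exact zero_mem _
    | add x y _ _ hx hy => rw [f.map_update_add]; exact add_mem hx hy
    | smul c x _ hx => rw [f.map_update_smul]; exact I.mul_mem_left c hx

theorem det_mem' {n : ℕ} (β : A →ₗ[P] B →ₗ[P] P) (I : Ideal P) {s : Set A}
    (hs : Submodule.span P s = ⊤) (g : Fin n → B)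
    (h : ∀ a : Fin n → A, (∀ i, a i ∈ s) → (Matrix.of fun u t => β (a u) (g t)).det ∈ I)
    (a : Fin n → A) : (Matrix.of fun u t => β (a u) (g t)).det ∈ I :=
  ml_mem (Matrix.detRowAlternating.toMultilinearMap.compLinearMap
    fun _ => LinearMap.pi fun t => β.flip (g t)) I hs h a

/-- a determinant of pairings is multilinear in the rows and in the columns -/
theorem det_mem {n : ℕ} (β : A →ₗ[P] B →ₗ[P] P) (I : Ideal P) {s : Set A} {s' : Set B}
    (hs : Submodule.span P s = ⊤) (hs' : Submodule.span P s' = ⊤)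
    (h : ∀ (a : Fin n → A) (g : Fin n → B), (∀ i, a i ∈ s) → (∀ i, g i ∈ s') →
      (Matrix.of fun u t => β (a u) (g t)).det ∈ I)
    (a : Fin n → A) (g : Fin n → B) : (Matrix.of fun u t => β (a u) (g t)).det ∈ I := by
  refine det_mem' β I hs g (fun a ha => ?_) a
  rw [← Matrix.det_transpose]
  refine det_mem' β.flip I hs' a (fun g hg => ?_) g
  rw [← Matrix.det_transpose]
  exact h a g ha hg

end ml

variable {W W' Y : Spc}

/-- `p` identifies `M` with the constant family with the fibre `M₀` -/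
structure Lf (S : Sur Y) (M : GMod (W.prod Y)) (M₀ : GMod Y) (p : M₀.M →+ M.M) : Prop where
  smul : ∀ b v, p (b • v) = (Mor.snd W Y).φ b • p v
  wt : ∀ k, ∀ v ∈ M₀.wt (dg Y k), p v ∈ wt ((S.prj W).actE M) fun _ => k
  span : ∀ m, m ∈ Submodule.span (W.prod Y).R (Set.range p)
  dual : ∀ φ : M₀.M →ₗ[ℂ] ℂ, ∃ ψ : M.M →+ W.R, ∀ a v, ψ ((Mor.fst W Y).φ a • p v) = φ v • a

namespace Lf

variable {S : Sur Y} {M : GMod (W.prod Y)} {M₀ : GMod Y} {p : M₀.M →+ M.M}

theorem cmul (h : Lf S M M₀ p) (t : ℂ) (v : M₀.M) : p (t • v) = t • p v := by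
  rw [← algebraMap_smul Y.R t v, h.smul, AlgHom.commutes, algebraMap_smul]

theorem ind (h : Lf S M M₀ p) {P : M.M → Prop} (h0 : P 0)
    (h1 : ∀ a v, P ((Mor.fst W Y).φ a • p v)) (ha : ∀ u v, P u → P v → P (u + v)) (m : M.M) :
    P m := by
  suffices H : ∀ a : (W.prod Y).R, P (a • m) from one_smul (W.prod Y).R m ▸ H 1
  induction h.span m using Submodule.span_induction with
  | mem x hx =>
    obtain ⟨v, rfl⟩ := hx
    intro a
    induction a using prod_ind with
    | h0 => rwa [zero_smul]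
    | ha a b h2 h3 => rw [add_smul]; exact ha _ _ h2 h3
    | h1 a b => rw [mul_smul, ← h.smul]; exact h1 _ _
  | zero => intro a; rwa [smul_zero]
  | add x y _ _ hx hy => intro a; rw [smul_add]; exact ha _ _ (hx a) (hy a)
  | smul c x _ hx => intro a; rw [smul_smul]; exact hx _

/-- a constant element of a part -/
def el (h : Lf S M M₀ p) (k : ℤ) : M₀.wt (dg Y k) →ₗ[ℂ] (S.pc M k).M where
  toFun v := S.el (p v) (h.wt k v v.2)
  map_add' u v := S.val_inj (map_add p u.1 v.1)
  map_smul' t v := S.val_inj (h.cmul t v.1)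

theorem val_el (h : Lf S M M₀ p) (k : ℤ) (v : M₀.wt (dg Y k)) : S.val M k (h.el k v) = p v := rfl

theorem p_cmp (h : Lf S M M₀ p) (k : ℤ) (v : M₀.M) :
    p (M₀.cmp (dg Y k) v) = P297Z.cmp ((S.prj W).spanE M) (fun _ => k) (p v) :=
  map_cmp M₀.span ((S.prj W).spanE M) p (fun γ _ => γ S.uniq.default)
    (fun a b e => funext fun j => by
      rw [S.uniq.uniq j]
      exact congrFun e ())
    (fun γ v hv => h.wt _ v (mwt_eq hv (funext fun j => by rw [S.uniq.uniq j]; rfl))) (dg Y k) v

theorem span_el (h : Lf S M M₀ p) (k : ℤ) :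
    Submodule.span W.R (Set.range (h.el k)) = ⊤ := by
  have H : ∀ m : M.M, ∃ x ∈ Submodule.span W.R (Set.range (h.el k)),
      S.val M k x = P297Z.cmp ((S.prj W).spanE M) (fun _ => k) m := fun m => by
    induction m using h.ind with
    | h0 => exact ⟨0, zero_mem _, by rw [map_zero, map_zero]⟩
    | ha u v hu hv =>
      obtain ⟨x, h1, h2⟩ := hu
      obtain ⟨y, h3, h4⟩ := hv
      exact ⟨x + y, add_mem h1 h3, by rw [map_add, map_add, h2, h4]⟩
    | h1 a v =>
      exact ⟨a • h.el k ⟨_, M₀.cmp_mem (dg Y k) v⟩,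
        Submodule.smul_mem _ _ (Submodule.subset_span ⟨_, rfl⟩), by
          rw [S.val_smul, val_el, (S.prj W).cmpE_smul, h.p_cmp]⟩
  refine eq_top_iff.2 fun m _ => ?_
  obtain ⟨x, h1, h2⟩ := H (S.val M k m)
  rwa [← S.val_inj (h2.trans (P297Z.cmp_of_mem _ (S.val_mem m)))]

theorem span_of (h : Lf S M M₀ p) (k : ℤ) {s : Set (M₀.wt (dg Y k))}
    (hs : Submodule.span ℂ s = ⊤) : Submodule.span W.R (h.el k '' s) = ⊤ := by
  refine eq_top_iff.2 ((h.span_el k).ge.trans (Submodule.span_le.2 ?_))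
  rintro _ ⟨v, rfl⟩
  refine Submodule.span_le_restrictScalars ℂ W.R _ ?_
  rw [← Submodule.map_span, hs]
  exact ⟨v, trivial, rfl⟩

/-- the functional on a part given by a functional on the fibre -/
def dl (h : Lf S M M₀ p) (k : ℤ) (φ : M₀.M →ₗ[ℂ] ℂ) : Module.Dual W.R (S.pc M k).M where
  toFun m := (h.dual φ).choose (S.val M k m)
  map_add' u v := by rw [map_add, map_add]
  map_smul' a m := by
    rw [S.val_smul, RingHom.id_apply]
    generalize S.val M k m = x
    induction x using h.ind with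
    | h0 => rw [smul_zero, map_zero, smul_zero]
    | ha u v hu hv => rw [smul_add, map_add, map_add, hu, hv, smul_add]
    | h1 b v =>
      rw [smul_smul, ← map_mul, (h.dual φ).choose_spec, (h.dual φ).choose_spec, smul_eq_mul,
        mul_smul_comm]

theorem dl_el (h : Lf S M M₀ p) (k : ℤ) (φ : M₀.M →ₗ[ℂ] ℂ) (v : M₀.wt (dg Y k)) :
    h.dl k φ (h.el k v) = algebraMap ℂ W.R (φ v) := by
  have e := (h.dual φ).choose_spec 1 v
  rw [map_one, one_smul, ← Algebra.algebraMap_eq_smul_one] at e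
  exact e

/-- a basis of the fibre gives a basis of the part -/
theorem exists_basis (h : Lf S M M₀ p) (k : ℤ) {ι : Type} [Fintype ι]
    (b : Module.Basis ι ℂ (M₀.wt (dg Y k))) : ∃ (B : Module.Basis ι W.R (S.pc M k).M)
      (φ : ι → M₀.M →ₗ[ℂ] ℂ), (∀ i, B i = h.el k (b i)) ∧
        (∀ i (v : M₀.wt (dg Y k)), φ i v = b.coord i v) ∧ ∀ i, B.coord i = h.dl k (φ i) := by
  classical
  choose φ hφ using fun i => LinearMap.exists_extend (b.coord i)
  have h1 : ∀ i (v : M₀.wt (dg Y k)), φ i v = b.coord i v := fun i v =>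
    LinearMap.congr_fun (hφ i) v
  have h2 : ∀ i j, h.dl k (φ i) (h.el k (b j)) = if j = i then 1 else 0 := fun i j => by
    rw [dl_el, h1, Module.Basis.coord_apply, b.repr_self, Finsupp.single_apply]
    split_ifs
    exacts [map_one _, map_zero _]
  have h3 : LinearIndependent W.R fun i => h.el k (b i) := by
    refine Fintype.linearIndependent_iff.2 fun g hg i => ?_
    simpa [h2] using congrArg (h.dl k (φ i)) hg
  have h4 : ⊤ ≤ Submodule.span W.R (Set.range fun i => h.el k (b i)) :=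
    (Set.range_comp (h.el k) b).symm ▸ (h.span_of k b.span_eq).ge
  refine ⟨Module.Basis.mk h3 h4, φ, Module.Basis.mk_apply h3 h4, h1, fun i => ?_⟩
  refine (Module.Basis.mk h3 h4).ext fun j => ?_
  rw [Module.Basis.coord_apply, Module.Basis.repr_self, Finsupp.single_apply,
    Module.Basis.mk_apply, h2]

theorem pi {ι : Type} [Fintype ι] {M : ι → GMod (W.prod Y)} {M₀ : ι → GMod Y}
    {p : ∀ i, (M₀ i).M →+ (M i).M} (h : ∀ i, Lf S (M i) (M₀ i) (p i)) :
    Lf S (GMod.pi M) (GMod.pi M₀) (piMap p) where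
  smul b v := piMap_smul _ _ _ (fun i => (h i).smul b) v
  wt k v hv g := funext fun i => (h i).wt k (v i) (fun t => congrFun (hv t) i) g
  span m := by
    classical
    have e : m = ∑ i, sgl M i (m i) := (Finset.univ_sum_single m).symm
    rw [e]
    refine Submodule.sum_mem _ fun i _ => ?_
    let f : (M i).M →ₗ[(W.prod Y).R] (GMod.pi M).M :=
      LinearMap.single (W.prod Y).R (fun i => (M i).M) i
    refine (Submodule.span_le (p := Submodule.comap f
      (Submodule.span _ (Set.range (piMap p))))).2 ?_ ((h i).span (m i))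
    rintro _ ⟨v, rfl⟩
    exact Submodule.subset_span ⟨sgl M₀ i v, piMap_sgl p i v⟩
  dual φ := by
    classical
    choose ψ hψ using fun i => (h i).dual (φ ∘ₗ LinearMap.single ℂ (fun i => (M₀ i).M) i)
    refine ⟨∑ i, (ψ i).comp (Pi.evalAddMonoidHom (fun i => (M i).M) i), fun a v => ?_⟩
    have e : φ v = ∑ i, φ (sgl M₀ i (v i)) :=
      (congrArg φ (Finset.univ_sum_single v).symm).trans (map_sum φ _ _)
    rw [e, Finset.sum_smul, AddMonoidHom.finset_sum_apply]
    exact Finset.sum_congr rfl fun i _ => hψ i a (v i)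

theorem one (S : Sur Y) (γ : W.J → ℤ) (m : ℤ) :
    Lf S ((GMod.one (W.prod Y)).shift (-Sum.elim γ (dg Y m))) ((GMod.one Y).shift (-dg Y m))
      ((Mor.snd W Y).φ : Y.R →+* (W.prod Y).R).toAddMonoidHom where
  smul := map_mul (Mor.snd W Y).φ
  wt k v hv := Hb.mem_wtE S (γ := γ) (mem_shift_wt.2 (wt_eq
    ((Mor.snd W Y).wt_map _ _ (mem_shift_wt.1 hv)) (funext fun j => by
      cases j with
      | inl j => exact (add_neg_cancel (γ j)).symm
      | inr j => rfl)))
  span m := by
    have e : (show (W.prod Y).R from m) • (Mor.snd W Y).φ 1 = m := by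
      rw [map_one]
      exact mul_one _
    exact e ▸ Submodule.smul_mem _ _ (Submodule.subset_span ⟨(1 : Y.R), rfl⟩)
  dual φ := ⟨((TensorProduct.rid ℂ W.R).toLinearMap ∘ₗ
      LinearMap.lTensor W.R (show Y.R →ₗ[ℂ] ℂ from φ)).toAddMonoidHom, fun a v =>
    congrArg ((TensorProduct.rid ℂ W.R).toLinearMap ∘ₗ
      LinearMap.lTensor W.R (show Y.R →ₗ[ℂ] ℂ from φ)) (Mor.fst_mul_snd a v)⟩

end Lf

/-- the constant sections of a twisted pull-back -/
def pS (L : GMod Y) (γ : (W.prod Y).J → ℤ) : L.M →+ (((Mor.snd W Y).pull L).shift γ).M :=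
  (sh _ γ).toAddMonoidHom.comp (AK.pu _ L)

theorem pS_eq (L : GMod Y) (γ : (W.prod Y).J → ℤ) (l : L.M) : pS L γ l = sh _ γ (pl _ L l) := rfl

theorem exists_dual (L : GMod Y) (φ : L.M →ₗ[ℂ] ℂ) : ∃ ψ : ((Mor.snd W Y).pull L).M →+ W.R,
    ∀ a v, ψ ((Mor.fst W Y).φ a • pl _ L v) = φ v • a := by
  let β : W.R ⊗[ℂ] Y.R →ₗ[ℂ] L.M →ₗ[ℂ] W.R := TensorProduct.lift
    (LinearMap.mk₂ ℂ (fun a b => (φ ∘ₗ (LinearMap.lsmul Y.R L.M b).restrictScalars ℂ).smulRight a)
      (fun a a' b => LinearMap.ext fun l => smul_add _ a a')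
      (fun t a b => LinearMap.ext fun l => smul_comm _ t a)
      (fun a b b' => LinearMap.ext fun l => by simp [add_smul])
      fun t a b => LinearMap.ext fun l => by simp [smul_smul])
  have hβ : ∀ a b l, β ((Mor.fst W Y).φ a * (Mor.snd W Y).φ b) l = φ (b • l) • a := fun a b l =>
    congrArg (fun t => β t l) (Mor.fst_mul_snd a b)
  refine ⟨TensorProduct.liftAddHom (R := Y.R) (M := (Mor.snd W Y).Src) (N := L.M)
    (LinearMap.toAddMonoidHom'.comp β.toAddMonoidHom) fun c a l => ?_, fun a v => ?_⟩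
  · change β ((Mor.snd W Y).φ c * (show (W.prod Y).R from a)) l = β a (c • l)
    generalize (show (W.prod Y).R from a) = x
    induction x using prod_ind with
    | h0 => rw [mul_zero]; exact (map_zero (β.flip l)).trans (map_zero (β.flip _)).symm
    | ha u v hu hv =>
      rw [mul_add]
      exact (map_add (β.flip l) _ _).trans ((congrArg₂ (· + ·) hu hv).trans
        (map_add (β.flip _) u v).symm)
    | h1 a b => rw [mul_left_comm, ← map_mul, hβ, hβ, mul_comm, mul_smul]
  · have e := hβ a 1 v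
    rw [map_one, one_smul] at e
    exact e

theorem Lf.pull (S : Sur Y) (L : GMod Y) (τ : W.J → ℤ) :
    Lf S (((Mor.snd W Y).pull L).shift (Sum.elim τ 0)) L (pS L _) where
  smul b v := AK.pu_smul _ b v
  wt k v hv := Hb.mem_wtE S (γ := -τ) (sh_wt (mwt_eq (pl_wt (Mor.snd W Y) hv) (funext fun j => by
      cases j with
      | inl j => exact (neg_add_cancel (τ j)).symm
      | inr j => exact (add_zero _).symm)))
  span m := by
    rw [← sh_unsh _ _ m]
    generalize unsh _ _ m = x
    induction x using pull_ind with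
    | h0 => rw [map_zero]; exact zero_mem _
    | ha u v hu hv => rw [map_add]; exact add_mem hu hv
    | h1 a v => rw [map_smul]; exact Submodule.smul_mem _ _ (Submodule.subset_span ⟨v, rfl⟩)
  dual φ := exists_dual L φ

namespace Dat.Crd

variable {D : Dat Y} (c : D.Crd W)

/-- the constant sections of the free module -/
def pΦ : D.Φ0.M →+ c.Φ.M :=
  piMap (M := fun _ : D.Sx => (GMod.one Y).shift (-dg Y D.m))
    (N := fun s : D.Sx => (GMod.one _).shift (-c.ds s))
    fun _ => ((Mor.snd W Y).φ : Y.R →+* (W.prod Y).R).toAddMonoidHom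

/-- the constant sections of the ambient module -/
def pV : D.V.M →+ c.VV.M :=
  piMap (M := fun a => (D.L a).M) (N := fun a => ((Mor.snd W Y).pull (D.L a).M).shift (c.tw a))
    fun a => pS (D.L a).M (c.tw a)

theorem lfΦ (S : Sur Y) : Lf S c.Φ D.Φ0 c.pΦ := Lf.pi fun s => Lf.one S _ _

theorem lfV (S : Sur Y) : Lf S c.VV D.V c.pV := Lf.pi fun a => Lf.pull S _ _

theorem pV_eV (i : D.β) : c.pV (D.eV i) = c.eVV i := piMap_sgl _ _ _

theorem uΦ_p (g : Mor W' W) (v : D.Φ0.M) : c.uΦ g (c.pΦ v) = (c.pull g).pΦ v :=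
  funext fun s => map_snd g (v s)

theorem uV_p (g : Mor W' W) (v : D.V.M) : c.uV g (c.pV v) = (c.pull g).pV v :=
  funext fun a => plS_pl g _ (c.tw a) _ (v a)

theorem εΦ_p (z : W.Pt) (v : D.Φ0.M) : c.εΦ z (c.pΦ v) = v := funext fun s => evR_snd z (v s)

theorem εV_p (z : W.Pt) (v : D.V.M) : c.εV z (c.pV v) = v :=
  funext fun a => evS_pl z _ (c.tw a) (v a)

end Dat.Crd

end Vale.Agent.P297Z.Qt
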