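import Vale.Agent.P297Z.Quot.Sk

/-!
# P297: tools for the construction of the obstruction theory
-/

set_option linter.all false

open scoped TensorProduct

noncomputable section

namespace Vale.Agent.P297Z.Qt

namespace Oa

section alg

variable {R : Type} [CommRing R] [Algebra ℂ R] (z : R →ₐ[ℂ] ℂ) {A L : Type} [AddCommGroup A]
  [Module R A] [AddCommGroup L] [Module R L]

/-- the elements that lie in `N` at the point `z` -/
def locS (N : Submodule R A) : Submodule R A where
  carrier := {a | ∃ r, z r ≠ 0 ∧ r • a ∈ N}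
  zero_mem' := ⟨1, ev_one, by rw [smul_zero]; exact N.zero_mem⟩
  add_mem' := by
    rintro a b ⟨r, hr, ha⟩ ⟨s, hs, hb⟩
    refine ⟨r * s, ev_mul hr hs, ?_⟩
    rw [smul_add]
    refine N.add_mem ?_ ?_
    · rw [mul_comm, mul_smul]; exact N.smul_mem _ ha
    · rw [mul_smul]; exact N.smul_mem _ hb
  smul_mem' := by
    rintro c a ⟨r, hr, ha⟩
    exact ⟨r, hr, by rw [smul_comm]; exact N.smul_mem _ ha⟩

variable {z}

theorem le_locS {N : Submodule R A} {a : A} (h : a ∈ N) : a ∈ locS z N :=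
  ⟨1, ev_one, by rwa [one_smul]⟩

theorem locS_of_smul {N : Submodule R A} {a : A} {r : R} (hr : z r ≠ 0) (h : r • a ∈ locS z N) :
    a ∈ locS z N := by
  obtain ⟨s, hs, h⟩ := h
  exact ⟨s * r, ev_mul hs hr, by rwa [mul_smul]⟩

variable (z A) in
theorem exists_loc : ∃ (L : Type) (_ : AddCommGroup L) (_ : Module R L) (ι : A →ₗ[R] L),
    (∀ r, z r ≠ 0 → Function.Bijective fun l : L => r • l) ∧
      ∀ a, ι a = 0 → ∃ r, z r ≠ 0 ∧ r • a = 0 := by
  let T : Submonoid R :=
    { carrier := {r | z r ≠ 0}, mul_mem' := ev_mul, one_mem' := ev_one }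
  refine ⟨LocalizedModule T A, inferInstance, inferInstance, LocalizedModule.mkLinearMap T A,
    fun r hr => ?_, fun a ha => ?_⟩
  · exact (Module.End.isUnit_iff _).1
      (IsLocalizedModule.map_units (LocalizedModule.mkLinearMap T A) (⟨r, hr⟩ : T))
  · obtain ⟨s, hs⟩ := (IsLocalizedModule.eq_zero_iff T (LocalizedModule.mkLinearMap T A)).1 ha
    exact ⟨s.1, s.2, hs⟩

variable {P A' B B' : Type} [CommRing P] [AddCommGroup A'] [Module P A'] [AddCommGroup B]
  [Module R B] [AddCommGroup B'] [Module P B'] {φ : P →+* R}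

theorem exists_lin (hL : ∀ r, z r ≠ 0 → Function.Bijective fun l : L => r • l)
    (hφ : Function.Surjective φ) (π : A' →ₛₗ[φ] A) (β : A' →ₛₗ[φ] L)
    (h1 : ∀ a, ∃ r a', z (φ r) ≠ 0 ∧ π a' = φ r • a) (h2 : ∀ a', π a' = 0 → β a' = 0) :
    ∃ u : A →ₗ[R] L, ∀ a', u (π a') = β a' := by
  choose r s hr hs using h1
  choose v hv using fun a => (hL _ (hr a)).2 (β (s a))
  have key : ∀ a t a', π a' = φ t • a → φ t • v a = β a' := by
    intro a t a' h
    have h3 := h2 (r a • a' - t • s a) (by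
      rw [map_sub, map_smulₛₗ, map_smulₛₗ, h, hs, smul_comm, sub_self])
    rw [map_sub, map_smulₛₗ, map_smulₛₗ, sub_eq_zero] at h3
    refine (hL _ (hr a)).1 ?_
    change φ (r a) • φ t • v a = φ (r a) • β a'
    rw [smul_comm, h3]
    exact congrArg (φ t • ·) (hv a)
  refine ⟨{ toFun := v, map_add' := fun a b => ?_, map_smul' := fun c a => ?_ }, fun a' => ?_⟩
  · refine (hL _ (ev_mul (hr a) (hr b))).1 ?_
    have h3 := key (a + b) (r a * r b) (r b • s a + r a • s b) (by
      rw [map_add, map_smulₛₗ, map_smulₛₗ, hs, hs, map_mul, smul_add, smul_smul, smul_smul,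
        mul_comm])
    rw [map_mul] at h3
    change (φ (r a) * φ (r b)) • v (a + b) = (φ (r a) * φ (r b)) • (v a + v b)
    rw [h3, map_add, map_smulₛₗ, map_smulₛₗ, ← hv a, ← hv b, smul_add, smul_smul, smul_smul,
      mul_comm]
  · obtain ⟨c, rfl⟩ := hφ c
    refine (hL _ (hr a)).1 ?_
    have h3 := key (φ c • a) (r a) (c • s a) (by rw [map_smulₛₗ, hs, smul_comm])
    change φ (r a) • v (φ c • a) = φ (r a) • φ c • v a
    rw [h3, map_smulₛₗ, ← hv a, smul_comm]
  · have := key (π a') 1 a' (by rw [map_one, one_smul])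
    rwa [map_one, one_smul] at this

theorem exists_bil (hL : ∀ r, z r ≠ 0 → Function.Bijective fun l : L => r • l)
    (hφ : Function.Surjective φ) (π : A' →ₛₗ[φ] A) (π' : B' →ₛₗ[φ] B)
    (β : A' → B' →ₛₗ[φ] L) (βa : ∀ a a' b, β (a + a') b = β a b + β a' b)
    (βs : ∀ (c : P) a b, β (c • a) b = φ c • β a b)
    (h1 : ∀ a, ∃ r a', z (φ r) ≠ 0 ∧ π a' = φ r • a)
    (h1' : ∀ b, ∃ r b', z (φ r) ≠ 0 ∧ π' b' = φ r • b)
    (h2 : ∀ a' b', π a' = 0 → β a' b' = 0) (h2' : ∀ a' b', π' b' = 0 → β a' b' = 0) :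
    ∃ u : A →ₗ[R] B →ₗ[R] L, ∀ a' b', u (π a') (π' b') = β a' b' := by
  choose v hv using fun a' => exists_lin hL hφ π' (β a') h1' (h2' a')
  have ext : ∀ f f' : B →ₗ[R] L, (∀ b', f (π' b') = f' (π' b')) → f = f' := by
    intro f f' h
    refine LinearMap.ext fun b => ?_
    obtain ⟨r, b', hr, hb⟩ := h1' b
    refine (hL _ hr).1 ?_
    change φ r • f b = φ r • f' b
    rw [← map_smul, ← map_smul, ← hb, h]
  have hL' : ∀ r, z r ≠ 0 → Function.Bijective fun l : B →ₗ[R] L => r • l := by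
    intro r hr
    let e : L ≃ₗ[R] L := LinearEquiv.ofBijective (r • LinearMap.id) (hL r hr)
    refine ⟨fun f f' h => LinearMap.ext fun b => (hL r hr).1 (LinearMap.congr_fun h b), fun f => ?_⟩
    exact ⟨e.symm.toLinearMap ∘ₗ f, LinearMap.ext fun b => e.apply_symm_apply (f b)⟩
  obtain ⟨u, hu⟩ := exists_lin hL' hφ π
    ({ toFun := v
       map_add' := fun a a' => ext _ _ fun b => by rw [LinearMap.add_apply, hv, hv, hv, βa]
       map_smul' := fun c a => ext _ _ fun b => by rw [LinearMap.smul_apply, hv, hv, βs] } :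
      A' →ₛₗ[φ] B →ₗ[R] L) h1
    fun a' h => ext _ _ fun b => (hv a' b).trans (h2 a' b h)
  exact ⟨u, fun a' b' => by rw [hu]; exact hv a' b'⟩

end alg

variable {W W' Y : Spc}

theorem over_act {g : Mor W' W} {M : GMod (W.prod Y)} {M' : GMod (W'.prod Y)} {u : M.M →+ M'.M}
    (h : Over g M M' u) (t : (W'.prod Y).J → ℂˣ) (m : M.M) :
    u (M.act (tor (g.map (Mor.id Y)).ρ t) m) = M'.act t (u m) := by
  induction m using M.induction with
  | h0 => rw [map_zero, map_zero, map_zero]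
  | ha x y hx hy => rw [map_add, map_add, map_add, map_add, hx, hy]
  | hw γ m hm =>
    rw [M.mem_wt.1 hm, M'.mem_wt.1 (h.wt γ m hm), chr_tor, ← algebraMap_smul (W.prod Y).R, h.smul,
      AlgHom.commutes, algebraMap_smul]

end Oa

variable {W W' Y : Spc}

namespace Sur

variable (S : Sur Y)

theorem obs_tor_π (g : Mor W' W) (t : (S.prj W').E → ℂˣ) :
    tor (g.map (Mor.id Y)).ρ (tor (S.prj W').π t) = tor (S.prj W).π t :=
  chr_ext fun γ => (chr_tor _ _ _).trans ((chr_tor _ _ _).trans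
    (Eq.trans (congrArg (chr · t) (funext fun _ => zero_add _)) (chr_tor (S.prj W).π γ t).symm))

theorem obs_tor_ret (g : Mor W' W) (t : W'.J → ℂˣ) :
    tor (g.map (Mor.id Y)).ρ (tor (S.prj W').ret t) = tor (S.prj W).ret (tor g.ρ t) :=
  chr_ext fun γ => by
    rw [chr_tor, chr_tor, chr_tor, chr_tor]
    refine congrArg (chr · t) (funext fun _ => ?_)
    exact add_zero _

/-- the map on the parts given by a map over `g` -/
def upc {g : Mor W' W} {M : GMod (W.prod Y)} {M' : GMod (W'.prod Y)} {u : M.M →+ M'.M}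
    (h : Over g M M' u) (k : ℤ) : (S.pc M k).M →ₛₗ[(g.φ : W.R →+* W'.R)] (S.pc M' k).M where
  toFun m := S.el (u (S.val M k m)) fun t => by
    change M'.act (tor (S.prj W').π t) _ = _
    have h1 : M.act (tor (S.prj W).π t) (S.val M k m) = chr (fun _ => k) t • S.val M k m :=
      S.val_mem m t
    rw [← Oa.over_act h, S.obs_tor_π g t, h1, ← algebraMap_smul (W.prod Y).R, h.smul, AlgHom.commutes,
      algebraMap_smul]
  map_add' a b := S.val_inj (map_add u (S.val M k a) (S.val M k b))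
  map_smul' r a := S.val_inj ((h.smul _ (S.val M k a)).trans
    (congrArg (· • u (S.val M k a)) (map_fst g r)))

theorem val_upc {g : Mor W' W} {M : GMod (W.prod Y)} {M' : GMod (W'.prod Y)} {u : M.M →+ M'.M}
    (h : Over g M M' u) (k : ℤ) (m : (S.pc M k).M) :
    S.val M' k (S.upc h k m) = u (S.val M k m) := rfl

theorem upc_act {g : Mor W' W} {M : GMod (W.prod Y)} {M' : GMod (W'.prod Y)} {u : M.M →+ M'.M}
    (h : Over g M M' u) (k : ℤ) (t : W'.J → ℂˣ) (m : (S.pc M k).M) :
    S.upc h k ((S.pc M k).act (tor g.ρ t) m) = (S.pc M' k).act t (S.upc h k m) :=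
  S.val_inj (by rw [val_upc, val_act, val_act, val_upc, ← Oa.over_act h, obs_tor_ret])

/-- the multiplication by a form -/
def mulY (M : GMod (W.prod Y)) (j j' : ℤ) (y : Y.R) (hy : y ∈ Y.wt (dg Y (j' - j))) :
    (S.pc M j).M →ₗ[W.R] (S.pc M j').M where
  toFun m := S.el ((Mor.snd W Y).φ y • S.val M j m) fun t => by
    change M.act (tor (S.prj W).π t) _ = _
    have h1 : M.act (tor (S.prj W).π t) (S.val M j m) = chr (fun _ => j) t • S.val M j m :=
      S.val_mem m t
    rw [M.act_smul, h1, Spc.mem_wt.1 ((Mor.snd W Y).wt_map _ y hy), chr_tor, smul_assoc,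
      smul_comm ((Mor.snd W Y).φ y), smul_smul, ← chr_add]
    refine congrArg (fun γ => chr γ t • _) (funext fun _ => ?_)
    exact sub_add_cancel j' j
  map_add' a b := S.val_inj (smul_add ((Mor.snd W Y).φ y) (S.val M j a) (S.val M j b))
  map_smul' r a := S.val_inj (smul_comm ((Mor.snd W Y).φ y) ((Mor.fst W Y).φ r) (S.val M j a))

theorem val_mulY (M : GMod (W.prod Y)) (j j' : ℤ) (y : Y.R) (hy : y ∈ Y.wt (dg Y (j' - j)))
    (m : (S.pc M j).M) : S.val M j' (S.mulY M j j' y hy m) = (Mor.snd W Y).φ y • S.val M j m := rfl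

/-- the identification of the parts of equal degrees -/
def cq (M : GMod (W.prod Y)) {j j' : ℤ} (h : j = j') : (S.pc M j).M ≃ₗ[W.R] (S.pc M j').M :=
  h ▸ LinearEquiv.refl W.R (S.pc M j).M

theorem val_cq (M : GMod (W.prod Y)) {j j' : ℤ} (h : j = j') (m : (S.pc M j).M) :
    S.val M j' (S.cq M h m) = S.val M j m := by
  subst h
  rfl

theorem val_cq_symm (M : GMod (W.prod Y)) {j j' : ℤ} (h : j = j') (m : (S.pc M j').M) :
    S.val M j ((S.cq M h).symm m) = S.val M j' m := by
  subst h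
  rfl

end Sur

namespace Oa

theorem act_pl (g : Mor W' W) (M : GMod W) (t : W'.J → ℂˣ) (m : M.M) :
    (g.pull M).act t (pl g M m) = pl g M (M.act (tor g.ρ t) m) :=
  congrArg (· ⊗ₜ[W.R] M.act (tor g.ρ t) m) (map_one (W'.act t))

theorem pl_add (g : Mor W' W) (M : GMod W) (a b : M.M) : pl g M (a + b) = pl g M a + pl g M b :=
  TensorProduct.tmul_add _ _ _

theorem pl_smul (g : Mor W' W) (M : GMod W) (r : W.R) (a : M.M) :
    pl g M (r • a) = g.φ r • pl g M a :=
  (TensorProduct.smul_tmul r (1 : g.Src) a).symm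

/-- the canonical map to the pull-back as a semilinear map -/
def plL (g : Mor W' W) (M : GMod W) : M.M →ₛₗ[(g.φ : W.R →+* W'.R)] (g.pull M).M where
  toFun := pl g M
  map_add' := pl_add g M
  map_smul' := pl_smul g M

end Oa

end Vale.Agent.P297Z.Qt
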