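import Vale.Agent.P297Z.Quot.ObsA

/-!
# P297: the obstruction bundle, abstract form
-/

set_option linter.all false

open scoped TensorProduct

noncomputable section

namespace Vale.Agent.P297Z.Qt

namespace Oa

theorem exists_desc0 {P R A A' L : Type} [CommRing P] [CommRing R] [AddCommGroup A] [Module R A]
    [AddCommGroup L] [Module R L] [AddCommGroup A'] [Module P A'] {φ : P →+* R}
    (hφ : Function.Surjective φ) (π : A' →ₛₗ[φ] A) (β : A' →ₛₗ[φ] L) (h1 : Function.Surjective π)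
    (h2 : ∀ a', π a' = 0 → β a' = 0) : ∃ u : A →ₗ[R] L, ∀ a', u (π a') = β a' := by
  choose s hs using h1
  have key : ∀ a', β (s (π a')) = β a' := fun a' =>
    sub_eq_zero.1 ((map_sub β _ _).symm.trans (h2 _ (by rw [map_sub, hs, sub_self])))
  refine ⟨{ toFun := fun a => β (s a), map_add' := fun a b => ?_, map_smul' := fun c a => ?_ }, key⟩
  · rw [← map_add, ← key (s a + s b), map_add, hs, hs]
  · obtain ⟨c, rfl⟩ := hφ c
    rw [RingHom.id_apply, ← map_smulₛₗ, ← key (c • s a), map_smulₛₗ, hs]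

theorem map_mem_smul_top {P A B : Type} [CommRing P] [AddCommGroup A] [Module P A]
    [AddCommGroup B] [Module P B] (f : A →ₗ[P] B) {I : Ideal P} {a : A}
    (h : a ∈ I • (⊤ : Submodule P A)) : f a ∈ I • (⊤ : Submodule P B) :=
  Submodule.smul_induction_on h
    (fun r hr n _ => by rw [map_smul]; exact Submodule.smul_mem_smul hr trivial)
    fun x y hx hy => by rw [map_add]; exact Submodule.add_mem _ hx hy

theorem dual_mem_mul {P A : Type} [CommRing P] [AddCommGroup A] [Module P A] (f : A →ₗ[P] P)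
    {I K : Ideal P} (hf : ∀ a, f a ∈ K) {a : A} (h : a ∈ I • (⊤ : Submodule P A)) : f a ∈ I * K :=
  Submodule.smul_induction_on h
    (fun r hr n _ => by rw [map_smul]; exact Ideal.mul_mem_mul hr (hf n))
    fun x y hx hy => by rw [map_add]; exact Submodule.add_mem _ hx hy

theorem dual_mem {P A : Type} [CommRing P] [AddCommGroup A] [Module P A] (f : A →ₗ[P] P)
    {I : Ideal P} {a : A} (h : a ∈ I • (⊤ : Submodule P A)) : f a ∈ I := by
  have := dual_mem_mul f (K := ⊤) (fun _ => trivial) h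
  rwa [Ideal.mul_top] at this

end Oa

open Oa

variable {W W' Y : Spc}

/-- the data of the construction -/
structure Ob (S : Sur Y) (W W' : Spc) where
  g : Mor W' W
  sj : Function.Surjective g.φ
  Φ : GMod (W.prod Y)
  V : GMod (W.prod Y)
  μ : Φ.M →ₗ[(W.prod Y).R] V.M
  hμ : Φ.IsHom V μ
  Φ' : GMod (W'.prod Y)
  V' : GMod (W'.prod Y)
  μ' : Φ'.M →ₗ[(W'.prod Y).R] V'.M
  hμ' : Φ'.IsHom V' μ'
  uΦ : Φ.M →+ Φ'.M
  uV : V.M →+ V'.M
  oΦ : Over g Φ Φ' uΦ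
  oV : Over g V V' uV
  com : ∀ a, uV (μ a) = μ' (uΦ a)
  sΦ : ∀ k, Function.Surjective (S.upc oΦ k)
  kΦ : ∀ k a, S.upc oΦ k a = 0 → a ∈ RingHom.ker g.φ • (⊤ : Submodule W.R (S.pc Φ k).M)
  sV : ∀ k, Function.Surjective (S.upc oV k)
  kV : ∀ k a, S.upc oV k a = 0 ↔ a ∈ RingHom.ker g.φ • (⊤ : Submodule W.R (S.pc V k).M)
  free : ∀ k, Module.Free W.R (S.pc V k).M
  m : ℤ
  IP : Ideal W.R
  I : Ideal W.R
  I' : Ideal W.R
  hP : (GMod.one W).Stab IP
  hI : (GMod.one W).Stab I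
  hI' : (GMod.one W).Stab I'
  le₁ : IP ≤ I
  le₂ : I ≤ I'
  le₃ : I' ≤ RingHom.ker g.φ

namespace Ob

variable {S : Sur Y} (o : Ob S W W')

/-- the ring map -/
abbrev φ : W.R →+* W'.R := (o.g.φ : W.R →+* W'.R)

/-- the relations -/
def K : GMod (W'.prod Y) := o.Φ'.sub _ o.hμ'.stab_ker

/-- the quotient -/
def F : GMod (W'.prod Y) := o.V'.quo _ o.hμ'.stab_range

/-- the inclusion -/
def iK : o.K.M →ₗ[(W'.prod Y).R] o.Φ'.M := (LinearMap.ker o.μ').subtype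

/-- the projection -/
def πF : o.V'.M →ₗ[(W'.prod Y).R] o.F.M := (LinearMap.range o.μ').mkQ

theorem iK_hom : o.K.IsHom o.Φ' o.iK := GMod.isHom_subtype _ _ _

theorem πF_hom : o.V'.IsHom o.F o.πF := GMod.isHom_mkQ _ _ _

theorem iK_inj : Function.Injective o.iK := Subtype.val_injective

theorem μ_iK (a : o.K.M) : o.μ' (o.iK a) = 0 := a.2

theorem πF_μ (a : o.Φ'.M) : o.πF (o.μ' a) = 0 :=
  (Submodule.Quotient.mk_eq_zero _).2 (LinearMap.mem_range_self _ a)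

/-- the map in degree `k` -/
def μk (k : ℤ) : (S.pc o.Φ k).M →ₗ[W.R] (S.pc o.V k).M := S.pm k o.μ o.hμ

theorem upc_μk (k : ℤ) (a : (S.pc o.Φ k).M) :
    S.upc o.oV k (o.μk k a) = S.pm k o.μ' o.hμ' (S.upc o.oΦ k a) := S.val_inj (o.com _)

/-- the lifts of the relations -/
def 𝒦 (k : ℤ) : Submodule W.R (S.pc o.Φ k).M :=
  (o.I • (⊤ : Submodule W.R (S.pc o.V k).M)).comap (o.μk k)

/-- the lifts of the functionals on the quotient -/
def 𝒢 (k : ℤ) : Submodule W.R (Module.Dual W.R (S.pc o.V k).M) where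
  carrier := {f | ∀ a, f (o.μk k a) ∈ o.I}
  zero_mem' := fun _ => o.I.zero_mem
  add_mem' := fun h h' a => o.I.add_mem (h a) (h' a)
  smul_mem' := fun c _ h a => o.I.mul_mem_left c (h a)

theorem le_ker : o.I ≤ RingHom.ker o.g.φ := o.le₂.trans o.le₃

theorem μ_u (k : ℤ) (κ : o.𝒦 k) : o.μ' (o.uΦ (S.val _ k κ.1)) = 0 := by
  have h := (o.kV k _).2 (Submodule.smul_mono_left o.le_ker κ.2)
  rw [upc_μk] at h
  exact congrArg (S.val _ k) h

/-- the relation given by a lift -/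
def rK (k : ℤ) : o.𝒦 k →ₛₗ[o.φ] (S.pc o.K k).M where
  toFun κ := S.el (M := o.K) ⟨o.uΦ (S.val _ k κ.1), o.μ_u k κ⟩ fun t =>
    Subtype.ext (S.val_mem (S.upc o.oΦ k κ.1) t)
  map_add' a b := S.val_inj (Subtype.ext (congrArg (S.val _ k) ((S.upc o.oΦ k).map_add a.1 b.1)))
  map_smul' r a := S.val_inj (Subtype.ext
    (congrArg (S.val _ k) ((S.upc o.oΦ k).map_smulₛₗ r a.1)))

theorem pm_rK (k : ℤ) (κ : o.𝒦 k) : S.pm k o.iK o.iK_hom (o.rK k κ) = S.upc o.oΦ k κ.1 := rfl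

theorem pm_iK_inj (k : ℤ) : Function.Injective (S.pm k o.iK o.iK_hom) :=
  (S.prj W').partMap_injective _ o.iK_hom o.iK_inj

/-- the projection to the part of the quotient -/
def πk (k : ℤ) : (S.pc o.V k).M →ₛₗ[o.φ] (S.pc o.F k).M :=
  (S.pm k o.πF o.πF_hom).comp (S.upc o.oV k)

theorem πk_eq (k : ℤ) (v : (S.pc o.V k).M) : o.πk k v = S.pm k o.πF o.πF_hom (S.upc o.oV k v) := rfl

theorem πk_surj (k : ℤ) : Function.Surjective (o.πk k) :=
  ((S.prj W').partMap_surjective _ o.πF_hom (Submodule.mkQ_surjective _)).comp (o.sV k)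

theorem πk_μk (k : ℤ) (a : (S.pc o.Φ k).M) : o.πk k (o.μk k a) = 0 := by
  rw [πk_eq, upc_μk]
  exact S.val_inj (o.πF_μ _)

theorem πk_ker (k : ℤ) (v : (S.pc o.V k).M) (h : o.πk k v = 0) :
    ∃ a, v - o.μk k a ∈ RingHom.ker o.g.φ • (⊤ : Submodule W.R (S.pc o.V k).M) := by
  obtain ⟨a, ha⟩ : S.val _ k (S.upc o.oV k v) ∈ LinearMap.range o.μ' :=
    (Submodule.Quotient.mk_eq_zero _).1 (congrArg (S.val _ k) h)
  obtain ⟨a', ha'⟩ := (S.prj W').exists_preimage (fun _ => k) o.hμ' (b := S.upc o.oV k v) ha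
  obtain ⟨a'', rfl⟩ := o.sΦ k a'
  refine ⟨a'', (o.kV k _).1 ?_⟩
  rw [map_sub, upc_μk]
  exact sub_eq_zero.2 ha'.symm

theorem exists_rG (k : ℤ) (f : o.𝒢 k) :
    ∃ u : Module.Dual W'.R (S.pc o.F k).M, ∀ v, u (o.πk k v) = o.φ (f.1 v) := by
  refine exists_desc0 o.sj (o.πk k) (o.φ.toSemilinearMap.comp f.1) (o.πk_surj k) fun v hv => ?_
  obtain ⟨a, ha⟩ := o.πk_ker k v hv
  have h1 := dual_mem f.1 ha
  rw [map_sub] at h1
  have h2 := (RingHom.ker o.g.φ).add_mem h1 (o.le_ker (f.2 a))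
  rwa [sub_add_cancel] at h2

theorem dual_ext {k : ℤ} {u u' : Module.Dual W'.R (S.pc o.F k).M}
    (h : ∀ v, u (o.πk k v) = u' (o.πk k v)) : u = u' :=
  LinearMap.ext fun v => (o.πk_surj k v).elim fun w hw => hw ▸ h w

/-- the functional given by a lift -/
def rG (k : ℤ) : o.𝒢 k →ₛₗ[o.φ] Module.Dual W'.R (S.pc o.F k).M where
  toFun f := (o.exists_rG k f).choose
  map_add' a b := o.dual_ext fun v => by
    rw [LinearMap.add_apply, (o.exists_rG k _).choose_spec, (o.exists_rG k _).choose_spec,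
      (o.exists_rG k _).choose_spec]
    exact map_add o.φ _ _
  map_smul' r a := o.dual_ext fun v => by
    rw [LinearMap.smul_apply, (o.exists_rG k _).choose_spec, (o.exists_rG k _).choose_spec]
    exact map_mul o.φ _ _

theorem rG_πk (k : ℤ) (f : o.𝒢 k) (v : (S.pc o.V k).M) : o.rG k f (o.πk k v) = o.φ (f.1 v) :=
  (o.exists_rG k f).choose_spec v

theorem exists_dual (k : ℤ) (u : Module.Dual W'.R (S.pc o.F k).M) :
    ∃ f : Module.Dual W.R (S.pc o.V k).M, ∀ v, o.φ (f v) = u (o.πk k v) := by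
  haveI := o.free k
  let b := Module.Free.chooseBasis W.R (S.pc o.V k).M
  choose s hs using fun i => o.sj (u (o.πk k (b i)))
  have : o.φ.toSemilinearMap.comp (b.constr W.R s) = u.comp (o.πk k) := b.ext fun i => by
    rw [LinearMap.comp_apply, Module.Basis.constr_basis]
    exact hs i
  exact ⟨b.constr W.R s, fun v => LinearMap.congr_fun this v⟩

theorem rK_surj {z : W'.Pt} {k : ℤ} {n : ℕ} (h : Blk (o.g.onPt z).1 (o.μk k) n o.I)
    (b : (S.pc o.K k).M) : ∃ r κ, z.1 (o.φ r) ≠ 0 ∧ o.rK k κ = o.φ r • b := by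
  obtain ⟨a, ha⟩ := o.sΦ k (S.pm k o.iK o.iK_hom b)
  obtain ⟨r, κ, hr, h1, h2⟩ := h.ker _ o.le_ker a ((o.kV k _).1 (by
    rw [upc_μk, ha]
    exact S.val_inj (o.μ_iK _)))
  refine ⟨r, ⟨κ, h1⟩, hr, o.pm_iK_inj k ?_⟩
  have h3 : S.upc o.oΦ k (r • a - κ) = 0 :=
    Submodule.smul_induction_on h2
      (fun r hr n _ => by rw [map_smulₛₗ]; exact (congrArg (· • _) hr).trans (zero_smul _ _))
      fun x y hx hy => by rw [map_add, hx, hy, add_zero]
  rw [map_sub, map_smulₛₗ, ha, sub_eq_zero] at h3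
  rw [pm_rK, map_smul]
  exact h3.symm

theorem rG_surj {z : W'.Pt} {k : ℤ} {n : ℕ} (h : Blk (o.g.onPt z).1 (o.μk k) n o.I)
    (u : Module.Dual W'.R (S.pc o.F k).M) : ∃ r f, z.1 (o.φ r) ≠ 0 ∧ o.rG k f = o.φ r • u := by
  obtain ⟨f, hf⟩ := o.exists_dual k u
  obtain ⟨r, f', hr, h1, h2⟩ := h.cok _ o.le_ker f fun a =>
    (hf _).trans (by rw [πk_μk, map_zero])
  refine ⟨r, ⟨f', h1⟩, hr, o.dual_ext fun v => ?_⟩
  have h3 : o.φ (r * f v - f' v) = 0 := h2 v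
  rw [map_sub, map_mul, hf, sub_eq_zero] at h3
  rw [rG_πk]
  exact h3.symm

/-- the module `I' / J I'` -/
def Con : GMod W' := o.g.pull ((GMod.one W).sub o.I' o.hI')

/-- the class of an element of the ideal -/
def con : o.I' →ₛₗ[o.φ] o.Con.M := plL o.g ((GMod.one W).sub o.I' o.hI')

theorem con_smul {x : W.R} (hx : x ∈ RingHom.ker o.g.φ) (a : o.I') : o.con (x • a) = 0 := by
  have h : o.φ x = 0 := hx
  rw [map_smulₛₗ, h, zero_smul]

theorem con_mul (a : o.I') (h : a.1 ∈ RingHom.ker o.g.φ * o.I) : o.con a = 0 := by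
  have key : ∀ r ∈ RingHom.ker o.g.φ * o.I, ∃ b : o.I', b.1 = r ∧ o.con b = 0 := by
    intro r hr
    refine Submodule.mul_induction_on hr (fun x hx y hy => ⟨x • ⟨y, o.le₂ hy⟩, rfl, o.con_smul hx _⟩) ?_
    rintro _ _ ⟨x, rfl, hx⟩ ⟨y, rfl, hy⟩
    exact ⟨x + y, rfl, by rw [map_add, hx, hy, add_zero]⟩
  obtain ⟨b, h1, h2⟩ := key _ h
  rwa [← Subtype.ext h1]

/-- the pairing -/
def pr (k : ℤ) (κ : o.𝒦 k) : o.𝒢 k →ₗ[W.R] o.I' where
  toFun f := ⟨f.1 (o.μk k κ.1), o.le₂ (f.2 _)⟩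
  map_add' _ _ := rfl
  map_smul' _ _ := rfl

theorem pr_add (k : ℤ) (a b : o.𝒦 k) (f : o.𝒢 k) : o.pr k (a + b) f = o.pr k a f + o.pr k b f :=
  Subtype.ext ((congrArg f.1 (map_add (o.μk k) a.1 b.1)).trans (map_add f.1 _ _))

theorem pr_smul (k : ℤ) (r : W.R) (a : o.𝒦 k) (f : o.𝒢 k) : o.pr k (r • a) f = r • o.pr k a f :=
  Subtype.ext ((congrArg f.1 (map_smul (o.μk k) r a.1)).trans (map_smul f.1 _ _))

/-- the maps from the relations to the quotient -/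
abbrev H : GMod W' := S.pc (o.K.hom o.F) 0

/-- the maps that kill the relations of degree `m` -/
def H' : GMod W' := o.H.sub _ (S.kil_stab (GMod.IsHom.id o.K) o.F o.m)

/-- the inclusion -/
def iH : o.H'.M →ₗ[W'.R] o.H.M := (S.kil LinearMap.id o.F o.m).subtype

theorem iH_hom : o.H'.IsHom o.H o.iH := GMod.isHom_subtype _ _ _

/-- the restriction of functionals -/
def res : Module.Dual W'.R o.H.M →ₗ[W'.R] o.H'.dual.M := o.iH.dualMap

/-- the coefficient functional -/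
def cf (k : ℤ) (b : (S.pc o.K k).M) (u : Module.Dual W'.R (S.pc o.F k).M) :
    Module.Dual W'.R o.H.M :=
  S.cf o.K o.F k 0 b (u ∘ₗ (S.cq o.F (add_zero k)).toLinearMap)

/-- the image of the smaller ideal -/
def NP : Submodule W'.R o.Con.M := Submodule.span _ {n | ∃ a : o.I', a.1 ∈ o.IP ∧ n = o.con a}

/-- the generators -/
def gens : Set (o.H'.dual.prod o.Con).M :=
  {x | ∃ k κ f, x = (o.res (o.cf k (o.rK k κ) (o.rG k f)), o.con (o.pr k κ f))} ∪
    {x | ∃ n ∈ o.NP, x = (0, n)}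

/-- the obstruction module -/
def CS : Submodule W'.R (o.H'.dual.prod o.Con).M := Submodule.span _ o.gens

theorem act_con (t : W'.J → ℂˣ) (a : o.I') :
    o.Con.act t (o.con a) = o.con ⟨W.act (tor o.g.ρ t) a.1, o.hI' _ _ a.2⟩ := act_pl _ _ _ _

theorem NP_stab : o.Con.Stab o.NP := GMod.stab_span (by
  rintro t _ ⟨a, ha, rfl⟩
  exact Submodule.subset_span ⟨_, o.hP _ _ ha, o.act_con t a⟩)

theorem μk_act (k : ℤ) (t : W.J → ℂˣ) (a : (S.pc o.Φ k).M) :
    o.μk k ((S.pc o.Φ k).act t a) = (S.pc o.V k).act t (o.μk k a) := S.pm_hom k o.μ o.hμ t a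

theorem πk_act (k : ℤ) (t : W'.J → ℂˣ) (v : (S.pc o.V k).M) :
    o.πk k ((S.pc o.V k).act (tor o.g.ρ t) v) = (S.pc o.F k).act t (o.πk k v) := by
  rw [πk_eq, S.upc_act, S.pm_hom k o.πF o.πF_hom t, πk_eq]

theorem CS_stab : (o.H'.dual.prod o.Con).Stab o.CS := GMod.stab_span (by
  rintro t _ (⟨k, κ, f, rfl⟩ | ⟨n, hn, rfl⟩)
  · let κ' : o.𝒦 k := ⟨(S.pc o.Φ k).act (tor o.g.ρ t) κ.1, by
      change o.μk k _ ∈ o.I • (⊤ : Submodule W.R (S.pc o.V k).M)
      rw [μk_act]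
      exact GMod.Stab.smul o.hI (GMod.stab_top _) _ _ κ.2⟩
    let f' : o.𝒢 k := ⟨(S.pc o.V k).dual.act (tor o.g.ρ t) f.1, fun a => by
      change W.act _ (f.1 ((S.pc o.V k).act _ (o.μk k a))) ∈ o.I
      rw [← μk_act]
      exact o.hI _ _ (f.2 _)⟩
    have e0 : ∀ v, f'.1 v = W.act (tor o.g.ρ t) (f.1 ((S.pc o.V k).act (tor o.g.ρ t)⁻¹ v)) :=
      fun _ => rfl
    have e1 : o.rK k κ' = (S.pc o.K k).act t (o.rK k κ) := o.pm_iK_inj k (by
      rw [S.pm_hom k o.iK o.iK_hom t, pm_rK, pm_rK, ← S.upc_act])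
    have e2 : ∀ u, o.rG k f' u = W'.act t (o.rG k f ((S.pc o.F k).act t⁻¹ u)) := by
      intro u
      obtain ⟨v, rfl⟩ := o.πk_surj k u
      rw [← πk_act, rG_πk, rG_πk, e0, tor_inv]
      exact o.g.act_map t _
    refine Submodule.subset_span (Or.inl ⟨k, κ', f', Prod.ext (LinearMap.ext fun ψ => ?_) ?_⟩)
    · change W'.act t (o.rG k f (S.cq o.F (add_zero k) (S.apc _ _ k 0
        (o.iH (o.H'.act t⁻¹ ψ)) (o.rK k κ)))) =
        o.rG k f' (S.cq o.F (add_zero k) (S.apc _ _ k 0 (o.iH ψ) (o.rK k κ')))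
      rw [e2, e1, o.iH_hom t⁻¹ ψ]
      refine congrArg (fun u => W'.act t (o.rG k f u)) (S.val_inj ?_)
      rw [S.val_act, S.val_cq, S.val_cq, S.val_apc, S.val_apc, S.val_act, S.val_act, act_ap,
        tor_inv, inv_inv]
    · refine (o.act_con t _).trans (congrArg o.con (Subtype.ext ?_))
      change _ = f'.1 (o.μk k ((S.pc o.Φ k).act (tor o.g.ρ t) κ.1))
      rw [e0, μk_act, GMod.act_inv_act]
      rfl
  · exact Submodule.subset_span (Or.inr ⟨_, o.NP_stab t n hn,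
      Prod.ext (map_zero (o.H'.dual.act t)) rfl⟩))

/-- the obstruction bundle -/
def C : GMod W' := (o.H'.dual.prod o.Con).sub _ o.CS_stab

/-- the map to the ideal -/
def θ : o.C.M →ₗ[W'.R] o.Con.M := (LinearMap.snd W'.R o.H'.dual.M o.Con.M).comp o.CS.subtype

/-- the map to the dual of the bundle of homomorphisms -/
def π : o.C.M →ₗ[W'.R] o.H'.dual.M := (LinearMap.fst W'.R o.H'.dual.M o.Con.M).comp o.CS.subtype

/-- the conormal module of the smaller ideal -/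
def N : GMod W' := o.Con.sub _ o.NP_stab

/-- the inclusion of the conormal module -/
def ι : o.N.M →ₗ[W'.R] o.C.M :=
  ((LinearMap.inr W'.R o.H'.dual.M o.Con.M).comp o.NP.subtype).codRestrict o.CS fun n =>
    Submodule.subset_span (Or.inr ⟨n.1, n.2, rfl⟩)

theorem θ_hom : o.C.IsHom o.Con o.θ := fun _ _ => rfl

theorem π_hom : o.C.IsHom o.H'.dual o.π := fun _ _ => rfl

theorem ι_hom : o.N.IsHom o.C o.ι := fun t _ =>
  Subtype.ext (Prod.ext (map_zero (o.H'.dual.act t)).symm rfl)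

end Ob

end Vale.Agent.P297Z.Qt
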