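import Vale.Agent.P297Z.Quot.ObsB

/-!
# P297: the obstruction bundle, the local statements
-/

set_option linter.all false

open scoped TensorProduct

noncomputable section

namespace Vale.Agent.P297Z.Qt

open Oa

variable {W W' Y : Spc} {S : Sur Y}

namespace Ob

/-- the hypotheses at a point -/
structure At (o : Ob S W W') (z : W'.Pt) : Prop where
  blk : ∀ k, ∃ n, Blk (o.g.onPt z).1 (o.μk k) n o.I
  blkP : ∃ n, Blk (o.g.onPt z).1 (o.μk o.m) n o.IP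
  gen : ∀ a ∈ o.I', ∃ r, z.1 (o.φ r) ≠ 0 ∧
    r * a ∈ o.IP ⊔ Ideal.span {f | ∃ k κ g, f = (o.pr k κ g).1}
  span : ∀ lam : Module.Dual W'.R o.H.M, ∃ (r : W'.R) (n : ℕ) (j : Fin n → ℤ)
    (b : ∀ i, (S.pc o.K (j i)).M) (g : ∀ i, Module.Dual W'.R (S.pc o.F (j i + 0)).M),
    z.1 r ≠ 0 ∧ r • lam = ∑ i, S.cf o.K o.F (j i) 0 (b i) (g i)
  rel : ∀ (N : Type) [AddCommGroup N] [Module W'.R N]
    (P : ∀ j, (S.pc o.K j).M →ₗ[W'.R] Module.Dual W'.R (S.pc o.F (j + 0)).M →ₗ[W'.R] N),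
    (∀ (j j' : ℤ) (b : (S.pc o.K j).M) (b' : (S.pc o.K j').M)
      (g : Module.Dual W'.R (S.pc o.F (j + 0)).M) (g' : Module.Dual W'.R (S.pc o.F (j' + 0)).M),
      ∀ y ∈ Y.wt (dg Y (j' - j)), S.val o.K j' b' = (Mor.snd W' Y).φ y • S.val o.K j b →
      (∀ v v', S.val o.F (j' + 0) v' = (Mor.snd W' Y).φ y • S.val o.F (j + 0) v → g v = g' v') →
      P j' b' g' = P j b g) →
    ∀ (n : ℕ) (j : Fin n → ℤ) (b : ∀ i, (S.pc o.K (j i)).M)
      (g : ∀ i, Module.Dual W'.R (S.pc o.F (j i + 0)).M),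
      ∑ i, S.cf o.K o.F (j i) 0 (b i) (g i) = 0 → ∃ r, z.1 r ≠ 0 ∧ r • ∑ i, P (j i) (b i) (g i) = 0
  ext : ∀ lam : Module.Dual W'.R o.H'.M, ∃ (r : W'.R) (lam' : Module.Dual W'.R o.H.M),
    z.1 r ≠ 0 ∧ ∀ φ, lam' (o.iH φ) = r * lam φ
  van : ∀ lam : Module.Dual W'.R o.H.M, (∀ φ : o.H'.M, lam (o.iH φ) = 0) →
    ∃ (r : W'.R) (n : ℕ) (b : Fin n → (S.pc o.K o.m).M)
      (g : Fin n → Module.Dual W'.R (S.pc o.F (o.m + 0)).M),
      z.1 r ≠ 0 ∧ r • lam = ∑ i, S.cf o.K o.F o.m 0 (b i) (g i)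

variable {o : Ob S W W'} {z : W'.Pt}

variable (o) in
/-- the functional on the part of degree `k` -/
def dq (k : ℤ) : Module.Dual W'.R (S.pc o.F (k + 0)).M →ₗ[W'.R] Module.Dual W'.R (S.pc o.F k).M :=
  (S.cq o.F (add_zero k)).symm.toLinearMap.dualMap

theorem dq_apply (k : ℤ) (g : Module.Dual W'.R (S.pc o.F (k + 0)).M) (v : (S.pc o.F k).M) :
    o.dq k g v = g ((S.cq o.F (add_zero k)).symm v) := rfl

theorem cf_dq (k : ℤ) (b : (S.pc o.K k).M) (g : Module.Dual W'.R (S.pc o.F (k + 0)).M) :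
    o.cf k b (o.dq k g) = S.cf o.K o.F k 0 b g :=
  LinearMap.ext fun φ => congrArg g ((S.cq o.F (add_zero k)).symm_apply_apply _)

theorem cf_smul (k : ℤ) (r s : W'.R) (b : (S.pc o.K k).M) (g : Module.Dual W'.R (S.pc o.F k).M) :
    o.cf k (r • b) (s • g) = (s * r) • o.cf k b g := LinearMap.ext fun φ => by
  change s * g (S.cq o.F (add_zero k) (S.apc _ _ k 0 φ (r • b))) =
    (s * r) * g (S.cq o.F (add_zero k) (S.apc _ _ k 0 φ b))
  rw [map_smul, map_smul, map_smul, mul_assoc]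
  rfl

theorem scf_smul (k : ℤ) (r : W'.R) (b : (S.pc o.K k).M)
    (g : Module.Dual W'.R (S.pc o.F (k + 0)).M) :
    S.cf o.K o.F k 0 (r • b) g = r • S.cf o.K o.F k 0 b g := LinearMap.ext fun φ => by
  change g (S.apc _ _ k 0 φ (r • b)) = r * g (S.apc _ _ k 0 φ b)
  rw [map_smul, map_smul]
  rfl

theorem At.surj_π (h : o.At z) : SurjAt z.1 o.π := by
  have key : ∀ k b g, o.res (S.cf o.K o.F k 0 b g) ∈ locS z.1 (LinearMap.range o.π) := by
    intro k b g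
    obtain ⟨n, hn⟩ := h.blk k
    obtain ⟨r, κ, hr, h1⟩ := o.rK_surj hn b
    obtain ⟨s, f, hs, h2⟩ := o.rG_surj hn (o.dq k g)
    refine ⟨o.φ s * o.φ r, ev_mul hs hr, ⟨_, Submodule.subset_span (Or.inl ⟨k, κ, f, rfl⟩)⟩, ?_⟩
    change o.res (o.cf k (o.rK k κ) (o.rG k f)) = _
    rw [h1, h2, cf_smul, cf_dq, map_smul]
  intro lam
  obtain ⟨r, lam', hr, h1⟩ := h.ext lam
  obtain ⟨s, n, j, b, g, hs, h2⟩ := h.span lam'
  have h3 : o.res lam' = r • lam := LinearMap.ext h1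
  have h4 : lam ∈ locS z.1 (LinearMap.range o.π) := by
    refine locS_of_smul hr (locS_of_smul hs ?_)
    rw [← h3, ← map_smul, h2, map_sum]
    exact Submodule.sum_mem _ fun i _ => key _ _ _
  obtain ⟨t, ht, a, ha⟩ := h4
  exact ⟨t, a, ht, ha⟩

theorem At.surj_θ (h : o.At z) : SurjAt z.1 o.θ := by
  have key : ∀ a : o.I', o.con a ∈ locS z.1 (LinearMap.range o.θ) := by
    intro a
    obtain ⟨r, hr, h1⟩ := h.gen a.1 a.2
    let T : Submodule W.R o.I' := (LinearMap.range o.θ).comap o.con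
    have h2 : o.IP ⊔ Ideal.span {f | ∃ k κ g, f = (o.pr k κ g).1} ≤ T.map o.I'.subtype := by
      refine sup_le (fun b hb => ?_) (Ideal.span_le.2 ?_)
      · exact ⟨⟨b, o.le₂ (o.le₁ hb)⟩, ⟨o.ι ⟨_, Submodule.subset_span ⟨_, hb, rfl⟩⟩, rfl⟩, rfl⟩
      · rintro _ ⟨k, κ, g, rfl⟩
        exact ⟨o.pr k κ g, ⟨⟨_, Submodule.subset_span (Or.inl ⟨k, κ, g, rfl⟩)⟩, rfl⟩, rfl⟩
    obtain ⟨b, hb, e⟩ := h2 h1
    have e' : b = r • a := Subtype.ext e
    refine ⟨o.φ r, hr, ?_⟩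
    rw [← map_smulₛₗ, ← e']
    exact hb
  intro n
  have h4 : n ∈ locS z.1 (LinearMap.range o.θ) :=
    pull_ind o.g ((GMod.one W).sub o.I' o.hI') (P := fun n => n ∈ locS z.1 (LinearMap.range o.θ))
      (Submodule.zero_mem _) (fun a v => Submodule.smul_mem _ a (key v))
      (fun _ _ => Submodule.add_mem _) n
  obtain ⟨t, ht, a, ha⟩ := h4
  exact ⟨t, a, ht, ha⟩

theorem con_loc (a : o.I') {r : W.R} {b : W.R} (hb : b ∈ o.IP)
    (h : r * a.1 - b ∈ RingHom.ker o.g.φ * o.I) : o.φ r • o.con a ∈ o.NP := by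
  have h1 := o.con_mul (r • a - ⟨b, o.le₂ (o.le₁ hb)⟩) h
  rw [map_sub, map_smulₛₗ, sub_eq_zero] at h1
  rw [h1]
  exact Submodule.subset_span ⟨_, hb, rfl⟩

theorem At.ex (h : o.At z) : ExAt z.1 o.ι o.π := by
  obtain ⟨L, _, _, ι₀, hL, hι⟩ := exists_loc z.1 (o.Con.M ⧸ o.NP)
  let ι : o.Con.M →ₗ[W'.R] L := ι₀ ∘ₗ o.NP.mkQ
  have canc : ∀ {r : W'.R} {l : L}, z.1 r ≠ 0 → r • l = 0 → l = 0 := fun {r l} hr hl =>
    (hL r hr).1 (hl.trans (smul_zero r).symm)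
  have ι0 : ∀ n ∈ o.NP, ι n = 0 := fun n hn =>
    (congrArg ι₀ ((Submodule.Quotient.mk_eq_zero _).2 hn)).trans (map_zero ι₀)
  have ιr : ∀ (a : o.I') (r b : W.R), z.1 (o.φ r) ≠ 0 → b ∈ o.IP →
      r * a.1 - b ∈ RingHom.ker o.g.φ * o.I → ι (o.con a) = 0 := fun a r b hr hb h1 =>
    canc hr (by rw [← map_smul]; exact ι0 _ (con_loc a hb h1))
  have hP : ∀ k, ∃ P : (S.pc o.K k).M →ₗ[W'.R] Module.Dual W'.R (S.pc o.F k).M →ₗ[W'.R] L,
      ∀ κ f, P (o.rK k κ) (o.rG k f) = ι (o.con (o.pr k κ f)) := by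
    intro k
    obtain ⟨n, hn⟩ := h.blk k
    refine exists_bil (φ := o.φ) (B := Module.Dual W'.R (S.pc o.F k).M) (B' := o.𝒢 k) hL o.sj
      (o.rK k) (o.rG k) (fun κ => ι.comp (o.con.comp (o.pr k κ)))
      (fun a b f => ?_) (fun c a f => ?_) (o.rK_surj hn) (o.rG_surj hn) (fun κ f h1 => ?_)
      fun κ f h1 => ?_
    · change ι (o.con (o.pr k (a + b) f)) = ι (o.con (o.pr k a f)) + ι (o.con (o.pr k b f))
      rw [pr_add, map_add, map_add]
    · change ι (o.con (o.pr k (c • a) f)) = o.φ c • ι (o.con (o.pr k a f))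
      rw [pr_smul, map_smulₛₗ, map_smul]
    · have h2 := o.kΦ k κ.1 (by rw [← pm_rK, h1, map_zero])
      obtain ⟨r, hr, h3⟩ := hn.ind _ o.le_ker κ.1 f.1 κ.2 h2 f.2
      exact ιr _ r 0 hr o.IP.zero_mem (by rw [sub_zero]; exact h3)
    · refine ιr _ 1 0 (by rw [map_one]; exact ev_one) o.IP.zero_mem ?_
      rw [sub_zero, one_mul, mul_comm]
      refine dual_mem_mul f.1 (fun v => ?_) κ.2
      exact (o.rG_πk k f v).symm.trans (by rw [h1]; rfl)
  choose P hP using hP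
  have Pm : ∀ b u, P o.m b u = 0 := by
    intro b u
    obtain ⟨n, hn⟩ := h.blk o.m
    obtain ⟨n', hn'⟩ := h.blkP
    obtain ⟨r, κ, hr, h1⟩ := o.rK_surj hn b
    obtain ⟨s, f, hs, h2⟩ := o.rG_surj hn u
    obtain ⟨t, κ', ht, h3, h4⟩ := hn'.ker _ o.le₁ κ.1 κ.2
    have h5 := hP o.m κ f
    rw [h1, h2, map_smul, map_smul, LinearMap.smul_apply] at h5
    refine canc hr (canc hs (h5.trans (ιr _ t (f.1 (o.μk o.m κ')) ht (dual_mem f.1 h3) ?_)))
    have h6 := dual_mem_mul (f.1 ∘ₗ o.μk o.m) f.2 h4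
    rw [map_sub, map_smul] at h6
    exact Ideal.mul_mono_left o.le_ker h6
  let P' : ∀ j, (S.pc o.K j).M →ₗ[W'.R] Module.Dual W'.R (S.pc o.F (j + 0)).M →ₗ[W'.R] L :=
    fun j => (P j).compl₂ (o.dq j)
  have hrel := h.rel L P' (by
    intro j j' b b' g g' y hy h1 h2
    obtain ⟨n, hn⟩ := h.blk j
    obtain ⟨n', hn'⟩ := h.blk j'
    obtain ⟨r, κ, hr, h3⟩ := o.rK_surj hn b
    obtain ⟨s, f, hs, h4⟩ := o.rG_surj hn' (o.dq j' g')
    have e0 : ∀ a, o.μk j' (S.mulY o.Φ j j' y hy a) = S.mulY o.V j j' y hy (o.μk j a) := fun a =>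
      S.val_inj (map_smul o.μ _ _)
    let κ' : o.𝒦 j' := ⟨S.mulY o.Φ j j' y hy κ.1, by
      change o.μk j' _ ∈ o.I • (⊤ : Submodule W.R (S.pc o.V j').M)
      rw [e0]
      exact map_mem_smul_top _ κ.2⟩
    let f' : o.𝒢 j := ⟨f.1 ∘ₗ S.mulY o.V j j' y hy, fun a => by
      rw [LinearMap.comp_apply, ← e0]
      exact f.2 _⟩
    have e1 : o.rK j' κ' = o.φ r • b' := o.pm_iK_inj j' (S.val_inj (by
      have e := congrArg (fun t => S.val _ j (S.pm j o.iK o.iK_hom t)) h3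
      simp only [pm_rK, S.val_upc, S.val_pm, S.val_smul, map_smul] at e ⊢
      change o.uΦ (S.val _ j' (S.mulY o.Φ j j' y hy κ.1)) = _
      rw [S.val_mulY, o.oΦ.smul, map_snd, e, h1, map_smul, smul_comm]))
    have e2 : o.rG j f' = o.φ s • o.dq j g := o.dual_ext fun v => by
      have e := LinearMap.congr_fun h4 (o.πk j' (S.mulY o.V j j' y hy v))
      rw [rG_πk] at e ⊢
      refine e.trans (congrArg (o.φ s * ·) (h2 _ _ ?_).symm)
      refine (S.val_cq_symm _ _ _).trans (Eq.trans ?_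
        (congrArg ((Mor.snd W' Y).φ y • ·) (S.val_cq_symm _ _ _).symm))
      rw [πk_eq, πk_eq, S.val_pm, S.val_pm, S.val_upc, S.val_upc,
        S.val_mulY, o.oV.smul, map_snd, map_smul]
    have e3 : o.pr j' κ' f = o.pr j κ f' := Subtype.ext (congrArg f.1 (e0 κ.1))
    have e4 := hP j' κ' f
    rw [e3, ← hP j κ f', e1, e2, h3, h4, map_smul, map_smul, map_smul, map_smul,
      LinearMap.smul_apply, LinearMap.smul_apply] at e4
    exact (hL _ hr).1 ((hL _ hs).1 e4))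
  let Rel : Submodule W'.R (Module.Dual W'.R o.H.M × L) :=
    Submodule.span _ {x | ∃ j b g, x = (S.cf o.K o.F j 0 b g, P' j b g)}
  have hRel : ∀ l, (0, l) ∈ Rel → l = 0 := by
    intro l hl
    obtain ⟨n, a, x, hx⟩ := Submodule.mem_span_set'.1 hl
    choose j b g hj using fun i => (x i).2
    have h1 := congrArg Prod.fst hx
    have h2 := congrArg Prod.snd hx
    simp only [Prod.fst_sum, Prod.snd_sum, hj, Prod.smul_mk] at h1 h2
    obtain ⟨r, hr, h3⟩ := hrel n j (fun i => a i • b i) g (by simpa only [scf_smul] using h1)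
    simp only [map_smul, LinearMap.smul_apply, h2] at h3
    exact canc hr h3
  have hC : ∀ x ∈ o.CS, ∃ lam, o.res lam = x.1 ∧ (lam, ι x.2) ∈ Rel := by
    intro x hx
    induction hx using Submodule.span_induction with
    | mem x hx =>
      rcases hx with ⟨k, κ, f, rfl⟩ | ⟨n, hn, rfl⟩
      · refine ⟨_, rfl, Submodule.subset_span ⟨k, o.rK k κ,
          o.rG k f ∘ₗ (S.cq o.F (add_zero k)).toLinearMap, Prod.ext rfl ?_⟩⟩
        refine (hP k κ f).symm.trans (congrArg (P k (o.rK k κ)) (LinearMap.ext fun v => ?_))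
        exact congrArg (o.rG k f) ((S.cq o.F (add_zero k)).apply_symm_apply v).symm
      · refine ⟨0, map_zero _, ?_⟩
        rw [ι0 n hn]
        exact Rel.zero_mem
    | zero =>
      refine ⟨0, map_zero _, ?_⟩
      change (0, ι 0) ∈ Rel
      rw [map_zero]
      exact Rel.zero_mem
    | add x y _ _ hx hy =>
      obtain ⟨l, h1, h2⟩ := hx
      obtain ⟨l', h1', h2'⟩ := hy
      refine ⟨l + l', (map_add _ _ _).trans (congrArg₂ _ h1 h1'), ?_⟩
      change (l + l', ι (x.2 + y.2)) ∈ Rel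
      rw [map_add]
      exact Rel.add_mem h2 h2'
    | smul a x _ hx =>
      obtain ⟨l, h1, h2⟩ := hx
      refine ⟨a • l, (map_smul _ _ _).trans (congrArg _ h1), ?_⟩
      change (a • l, ι (a • x.2)) ∈ Rel
      rw [map_smul]
      exact Rel.smul_mem a h2
  intro x hx
  obtain ⟨lam, h1, h2⟩ := hC x.1 x.2
  obtain ⟨r, n, b, g, hr, h3⟩ := h.van lam fun φ => LinearMap.congr_fun (h1.trans hx) φ
  have h4 : (r • lam, (0 : L)) ∈ Rel := by
    have : (r • lam, (0 : L)) = ∑ i, (S.cf o.K o.F o.m 0 (b i) (g i), P' o.m (b i) (g i)) :=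
      Prod.ext (h3.trans (Prod.fst_sum (f := fun i =>
        (S.cf o.K o.F o.m 0 (b i) (g i), P' o.m (b i) (g i)))).symm)
        (Prod.snd_sum.trans (Finset.sum_eq_zero fun i _ => Pm _ _)).symm
    rw [this]
    exact Submodule.sum_mem _ fun i _ => Submodule.subset_span ⟨_, _, _, rfl⟩
  have h5 := Rel.sub_mem (Rel.smul_mem r h2) h4
  rw [Prod.smul_mk, Prod.mk_sub_mk, sub_self, sub_zero] at h5
  obtain ⟨s, hs, h6⟩ := hι _ (canc hr (hRel _ h5))
  rw [← map_smul] at h6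
  refine ⟨s, ⟨s • x.1.2, (Submodule.Quotient.mk_eq_zero _).1 h6⟩, hs,
    Subtype.ext (Prod.ext ?_ rfl)⟩
  exact ((congrArg (s • ·) hx).trans (smul_zero s)).symm

theorem ses (h : ∀ z, o.At z) : GMod.SES o.N o.C o.H'.dual o.ι o.π :=
  ⟨o.ι_hom, o.π_hom, fun _ => rfl, fun z => ⟨.of_inj fun _ _ e =>
    Subtype.ext (congrArg (fun x : o.C.M => x.1.2) e), (h z).ex, (h z).surj_π⟩⟩

end Ob

end Vale.Agent.P297Z.Qt
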