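import Vale.Agent.P297Z.Quot.ObsC

/-!
# P297: the obstruction theory of the Quot space from the blocks
-/

set_option linter.all false

open scoped TensorProduct

noncomputable section

namespace Vale.Agent.P297Z.Qt

open Oa

variable {Y : Spc}

/-- the elements that lie in the ideal at all points of `Z` -/
def IZ (D : Dat Y) (Z : Set D.Pol.Pt) : Ideal D.Pol.R where
  carrier := {a | ∀ z ∈ Z, ∃ r, z.1 r ≠ 0 ∧ r * a ∈ D.I}
  zero_mem' := fun z _ => (locS z.1 D.I).zero_mem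
  add_mem' := fun ha hb z hz => (locS z.1 D.I).add_mem (ha z hz) (hb z hz)
  smul_mem' := fun c _ ha z hz => (locS z.1 D.I).smul_mem c (ha z hz)

theorem IZ_stab {D : Dat Y} {Z : Set D.Pol.Pt} (hZ : D.Pol.Stab Z)
    (hI : (GMod.one D.Pol).Stab D.I) : (GMod.one D.Pol).Stab (IZ D Z) := by
  intro g a ha z hz
  obtain ⟨r, hr, h⟩ := ha (Spc.mv z g) (hZ z hz _ (Spc.orb_mv z g))
  exact ⟨D.Pol.act g r, hr, (map_mul (D.Pol.act g) r a) ▸ hI g _ h⟩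

theorem le_IZ (D : Dat Y) (Z : Set D.Pol.Pt) : D.I ≤ IZ D Z := fun _ ha _ _ => le_locS ha

theorem IZ_le {D : Dat Y} {Z : Set D.Pol.Pt} (h : Z ⊆ D.VI) : IZ D Z ≤ D.Pol.van Z := by
  intro a ha z hz
  obtain ⟨r, hr, h1⟩ := ha z hz
  have := h hz _ h1
  rw [map_mul] at this
  exact (mul_eq_zero.1 this).resolve_left hr

theorem ker_incl (W : Spc) (Z : Set W.Pt) (hZ : W.Stab Z) :
    RingHom.ker (Mor.incl W Z hZ).φ = W.van Z := Ideal.mk_ker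

theorem incl_mem {W : Spc} {Z : Set W.Pt} (hZ : W.Stab Z) (hC : W.Clo Z) (z : (W.sub Z hZ).Pt) :
    (Mor.incl W Z hZ).onPt z ∈ Z := hC _ fun r hr =>
  (congrArg z.1 (Ideal.Quotient.eq_zero_iff_mem.2 hr)).trans (map_zero z.1)

theorem sub_ne {W : Spc} {Z : Set W.Pt} (hZ : W.Stab Z) (h : Z.Nonempty) :
    Nonempty (W.sub Z hZ).Pt := by
  obtain ⟨z, hz⟩ := h
  exact ⟨⟨Ideal.Quotient.liftₐ (W.van Z) z.1 fun a ha => ha z hz, (Spc.sub_pt W Z hZ _).2 z.2⟩⟩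

/-- the data of the construction for the Quot space -/
def mkOb (S : Sur Y) (D : Dat Y) (Z : Set D.Pol.Pt) (hZ : D.Pol.Stab Z) (hV : Z ⊆ D.VI)
    (hP : Pts S D) (hM : Min S D) (hN : Nat' D.crd (Mor.incl _ Z hZ)) (hR : Rst S D.crd Z hZ) :
    Ob S D.Pol (D.Pol.sub Z hZ) where
  g := Mor.incl _ Z hZ
  sj := Ideal.Quotient.mk_surjective
  Φ := D.crd.Φ
  V := D.crd.VV
  μ := D.crd.μ
  hμ := D.crd.μ_hom
  Φ' := (D.crd.pull (Mor.incl _ Z hZ)).Φ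
  V' := (D.crd.pull (Mor.incl _ Z hZ)).VV
  μ' := (D.crd.pull (Mor.incl _ Z hZ)).μ
  hμ' := (D.crd.pull (Mor.incl _ Z hZ)).μ_hom
  uΦ := D.crd.uΦ _
  uV := D.crd.uV _
  oΦ := hN.oΦ
  oV := hN.oV
  com := D.crd.uV_μ _
  sΦ := fun k a' => (hR.surjΦ k a').imp fun _ h => S.val_inj h
  kΦ := fun k a h => by
    rw [ker_incl]
    exact (hR.kerΦ k a).1 (congrArg (S.val _ k) h)
  sV := fun k a' => (hR.surjV k a').imp fun _ h => S.val_inj h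
  kV := fun k a => by
    rw [ker_incl]
    exact ⟨fun h => (hR.kerV k a).1 (congrArg (S.val _ k) h),
      fun h => S.val_inj ((hR.kerV k a).2 h)⟩
  free := hM.free
  m := D.m
  IP := D.IP
  I := D.I
  I' := IZ D Z
  hP := hP.stabP
  hI := hP.stabI
  hI' := IZ_stab hZ hP.stabI
  le₁ := le_sup_left
  le₂ := le_IZ D Z
  le₃ := by
    rw [ker_incl]
    exact IZ_le hV

theorem free_at {P B : Type} [CommRing P] [Algebra ℂ P] [AddCommGroup B] [Module P B]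
    [Module.Finite P B] (h : Module.Free P B) (z : P →ₐ[ℂ] ℂ) : ∃ b, FreeAt z B b := by
  haveI : Nontrivial P := z.toRingHom.domain_nontrivial
  exact ⟨_, (freeAt_pi _).of_equiv (Module.finBasis P B).equivFun.symm⟩

theorem mul_det_zero {P : Type} [CommRing P] {n : ℕ} (M : Matrix (Fin (n + 1)) (Fin (n + 1)) P)
    (s : P) (h : ∀ j, s * M 0 j = 0) : s * M.det = 0 := by
  rw [Matrix.det_succ_row_zero, Finset.mul_sum]
  refine Finset.sum_eq_zero fun j _ => ?_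
  rw [mul_comm ((-1 : P) ^ (j : ℕ)), ← mul_assoc, ← mul_assoc, h j, zero_mul, zero_mul]

section blk

variable {S : Sur Y} {D : Dat Y}

theorem blk_ge (hB : BLK) (hM : Min S D) {z : D.Pol.Pt} (hz : D.Reg (D.co z)) {k : ℤ}
    (hk : D.m ≤ k) : ∃ n : ℕ, (n : ℤ) + D.p k = Module.finrank ℂ (D.V.wt (dg Y k)) ∧
      Blk z.1 (μk S D k) n D.I := by
  have h := hM.rank z k
  rw [hz.hq k hk] at h
  obtain ⟨b, hb⟩ := free_at (hM.free k) z.1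
  refine ⟨_, by rw [h, sub_add_cancel], hB _ _ _ z.1 _ _ b _ hb rfl fun a g => ⟨1, ev_one, ?_⟩⟩
  rw [one_mul]
  refine Ideal.mem_sup_right (hM.mem k hk _ ?_ a g)
  push_cast
  omega

theorem blk_lt (hB : BLK) (hM : Min S D) (hb : Bas S) (hF : FBK) (hb' : BAS) (z : D.Pol.Pt)
    (hΦ : S.Fam z D.crd.Φ D.Φ0 (D.crd.εΦ z)) {k : ℤ} (hk : k < D.m) :
    Blk z.1 (μk S D k) (frk z.1 (μk S D k)) D.I := by
  have f := hF hb' _ _ S z
  have h1 := f.fdim _ _ _ k hΦ.toIsEv (f.fibK _ _ _ hΦ.toIsFib k)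
  have h2 : D.Φ0.wt (dg Y k) = ⊥ := hb.low_fr D.Sx (fun _ => D.m) D.m (fun _ => le_rfl) k hk
  rw [h2, finrank_bot] at h1
  obtain ⟨r, hr⟩ := hΦ.free k
  have h3 : ZeroAt z.1 (S.pc D.crd.Φ k).M := freeAt_zero_iff.1 ((hr.fdim.symm.trans h1) ▸ hr)
  obtain ⟨b, hb⟩ := free_at (hM.free k) z.1
  refine hB _ _ _ z.1 _ _ b _ hb rfl fun a g => ?_
  obtain ⟨s, hs, h4⟩ := h3 (a 0)
  refine ⟨s, hs, ?_⟩
  rw [mul_det_zero _ s fun t => ?_]
  · exact D.I.zero_mem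
  · change s • g t (μk S D k (a 0)) = 0
    rw [← map_smul, ← map_smul, h4, map_zero, map_zero]

theorem blk_P (hB : BLK) (hD : D.Ok S) (hM : Min S D) {z : D.Pol.Pt} (hz : D.Reg (D.co z))
    (hr : Plk.Rel (D.co z)) : Blk z.1 (μk S D D.m) D.r D.IP := by
  have h := hM.rank z D.m
  rw [hz.hq _ le_rfl, ← hD.span, finrank_span_eq_card hD.ind, ← hD.card, add_sub_cancel_right]
    at h
  obtain ⟨b, hb⟩ := free_at (hM.free D.m) z.1
  exact hB _ _ _ z.1 _ _ b _ hb (Int.ofNat_inj.1 h) (hM.plk z hr)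

end blk

theorem cz_pull {W W' : Spc} {D : Dat Y} (c : D.Crd W) (g : Mor W' W) (z : W'.Pt) :
    (c.pull g).cz z = c.cz (g.onPt z) := rfl

theorem cz_crd {D : Dat Y} (z : D.Pol.Pt) : D.crd.cz z = D.co z := rfl

theorem cz_co {W : Spc} {D : Dat Y} (g : Mor W D.Pol) (z : W.Pt) :
    (D.crd.pull g).cz z = D.co (g.onPt z) := (cz_pull _ _ _).trans (cz_crd _)

theorem pull_pull {W W' W'' : Spc} {D : Dat Y} (c : D.Crd W) (g : Mor W' W) (j : Mor W'' W') :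
    c.pull (g.comp j) = (c.pull g).pull j := rfl

theorem pull_cls (hBAS : BAS) (hFBK : FBK) (hHB : HB) (hBCH : BCH) {W W' : Spc} {S : Sur Y}
    {D : Dat Y} (c : D.Crd W) (j : Mor W' W) (n : ℕ) (hW : W'.Cn) (f₀ : Fm S c)
    (f₁ : Fm S (c.pull j)) (nj : Nat' c j) (h₀ : Hcl S c) (h₁ : Hcl S (c.pull j))
    (hX : ∀ z, Kx S D (c.cz z)) (hn : ∀ z, D.hd (c.cz z) = n) :
    pullK j (kc (c.H S) n - kc (c.A S) (Fintype.card D.Sx * (D.p D.m).toNat)) =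
      -pK W' Y (dualK _ (c.pull j).eK * ((c.pull j).vK - (c.pull j).eK)) := by
  have bH : (c.H S).IsBun n := fun z => hn z ▸ h₀.fH z
  have b1 := (hBCH hFBK hHB hBAS _ _ Y S j _ _ _ _ _ _ 0 n nj.oK nj.oF (fun z =>
    ⟨_, _, _, _, _, _, f₀.fK (j.onPt z), f₀.fF (j.onPt z), f₁.fK z, f₁.fF z, nj.εK z, nj.εF z,
      (hX (j.onPt z)).extH 0 le_rfl⟩) bH).2
  have b2 := (hBCH hFBK hHB hBAS _ _ Y S j _ _ _ _ _ _ 0 _ nj.oΦ nj.oF (fun z =>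
    ⟨_, _, _, _, _, _, f₀.fΦ (j.onPt z), f₀.fF (j.onPt z), f₁.fΦ z, f₁.fF z, nj.εΦ z, nj.εF z,
      (hX (j.onPt z)).extA 0⟩) h₀.bA).2
  obtain ⟨w⟩ := hW.ne
  have k1 := (h₁.kH hW w).2
  rw [cz_pull, hn] at k1
  have k2 := h₁.kA hW
  rw [map_sub]
  refine (congrArg₂ (· - ·) (b1.trans k1) (b2.trans k2)).trans ?_
  rw [← map_sub, ← map_neg, ← sub_mul, ← map_sub, ← neg_mul, ← map_neg, ← neg_sub]
  rfl

theorem mkOb_at (hBAS : BAS) (hFBK : FBK) (hHBD : HBD) (hBLK : BLK) {S : Sur Y} {D : Dat Y}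
    (hD : D.Ok S) {Z : Set D.Pol.Pt} (hZ : D.Pol.Stab Z) (hC : D.Pol.Clo Z) (hV : Z ⊆ D.VI)
    (hP : Pts S D) (hM : Min S D) (hN : Nat' D.crd (Mor.incl _ Z hZ)) (hR : Rst S D.crd Z hZ)
    (hF : Fm S (D.crd.pull (Mor.incl _ Z hZ))) {n : ℕ} (hp : Hp S (D.crd.pull (Mor.incl _ Z hZ)) n)
    (hX : ∀ z, Kx S D ((D.crd.pull (Mor.incl _ Z hZ)).cz z)) (z : (D.Pol.sub Z hZ).Pt) :
    (mkOb S D Z hZ hV hP hM hN hR).At z := by
  have hΦ : ∀ z : D.Pol.Pt, S.Fam z D.crd.Φ D.Φ0 (D.crd.εΦ z) := fun z =>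
    (hFBK hBAS _ _ S z).pi _ _ _ _ fun s => (hFBK hBAS _ _ S z).one _ _
  have hpt := (hP.mem _).1 (hV (incl_mem hZ hC z))
  have hz := hP.reg _ hpt
  have hd := hHBD hFBK hBAS _ Y S z _ _ _ _ _ _ 0 (hF.fK z) (hF.fF z) ((hX z).extH 0 le_rfl)
  refine ⟨fun k => ?_, ⟨_, blk_P hBLK hD hM hz hpt.rel⟩, fun a ha => ?_, hd.1, hd.2,
    hp.ext z, hp.van z⟩
  · rcases lt_or_ge k D.m with hk | hk
    · exact ⟨_, blk_lt hBLK hM (hBAS Y S) hFBK hBAS _ (hΦ _) hk⟩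
    · exact (blk_ge hBLK hM hz hk).imp fun _ h => h.2
  · obtain ⟨r, hr, h1⟩ := ha _ (incl_mem hZ hC z)
    have h2 : D.I ≤ locS ((Mor.incl _ Z hZ).onPt z).1 (D.IP ⊔ Ideal.span
        {f | ∃ k κ g, f = ((mkOb S D Z hZ hV hP hM hN hR).pr k κ g).1}) := by
      refine sup_le (fun b hb => le_locS (Ideal.mem_sup_left hb)) (Ideal.span_le.2 fun f hf => ?_)
      obtain ⟨k, n₁, a, g, hk, h3, rfl⟩ := hM.eq f hf
      obtain ⟨n₀, h4, h5⟩ := blk_ge hBLK hM hz hk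
      obtain ⟨s, hs, h6⟩ := h5.gen n₁ (by omega) a g
      refine ⟨s, hs, Ideal.mem_sup_right (Ideal.span_mono ?_ h6)⟩
      rintro _ ⟨κ, g', h7, h8, rfl⟩
      exact ⟨k, ⟨κ, h7⟩, ⟨g', h8⟩, rfl⟩
    exact locS_of_smul hr (h2 h1)

theorem fin_alg {Q W : Spc} (j : Mor W Q) {ι : Type} [Fintype ι] {L : ι → K0 Q} {L' : ι → K0 W}
    (hL : ∀ a, L' a = pullK j (dualK Q (L a))) {C N H A X : K0 Q} {T : K0 W}
    (e1 : C = N + dualK Q H) (e2 : N = dualK Q (∑ a, L a - 1 - A)) (e3 : H = A + X)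
    (e4 : pullK j X = -T) : pullK j C - ∑ a, L' a + 1 = -dualK W T := by
  rw [Finset.sum_congr rfl fun a _ => hL a, ← map_neg, ← e4, ← pullK_dualK, e1, e2, e3]
  simp only [map_add, map_sub, map_sum, map_one]
  ring

theorem obs_of (hBAS : BAS) (hKOSP : KOSP) (hEXK : EXK) (hH1 : H1) (hGRT : GRT) (hPTS : PTS)
    (hKX : KX) (hFBK : FBK) (hFLB : FLB) (hHB : HB) (hHBD : HBD) (hCLS : CLS) (hRESH : RESH)
    (hBCH : BCH) (hFAM : FAM) (hNAT : NAT) (hHCL : HCL) (hCUT : CUT) (hBLK : BLK) (hMIN : MIN)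
    (hRST : RST) (hHP : HP) (hCON : CON) : OBS := by
  intro Y S D hD Z n hZn hne hn
  have hP := hPTS hBAS Y S D hD
  have hX := hKX hBAS hKOSP hEXK hH1 hPTS Y S D hD
  have hM := hMIN hFBK hBAS hGRT Y S D hD
  obtain ⟨hZ, hC, hsep⟩ :=
    (hCUT hFBK hFLB hFAM hHB hBAS hKOSP hEXK hH1 hPTS hKX Y S D hD).2 Z hZn
  have hN := fun W W' c g => hNAT hFBK hFLB hFAM hBAS W W' Y D c g
  have hpt : ∀ z, D.Pt ((D.crd.pull (Mor.incl _ Z hZ)).cz z) := fun z =>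
    (congrArg D.Pt (cz_co _ z)).mpr ((hP.mem _).1 (hZn.sub (incl_mem hZ hC z)))
  have hhd : ∀ z, D.hd ((D.crd.pull (Mor.incl _ Z hZ)).cz z) = n := fun z =>
    (congrArg D.hd (cz_co _ z)).trans (hn _ (incl_mem hZ hC z))
  have hF := fun W (c : D.Crd W) (h : ∀ z, D.Pt (c.cz z)) =>
    hFAM hFBK hFLB hBAS W Y S D c fun z => hP.reg _ (h z)
  have hH := fun W (c : D.Crd W) h =>
    hHCL hFBK hFLB hFAM hHB hCLS hRESH hBAS hKOSP hEXK hH1 hPTS hKX W Y S D c hD h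
  have hp := hHP hFBK hFLB hFAM hHB hBAS hKOSP hEXK hH1 hPTS hKX _ Y S D _ n hD (sub_ne hZ hne)
    hpt hhd
  obtain ⟨hst, ν, hν, hcl⟩ := hCON hFBK hFLB hFAM hHB hBAS hKOSP hEXK hH1 hPTS hKX hGRT Y S D hD
    Z hZ (IZ D Z) (IZ_stab hZ hP.stabI) hC hne hZn.sub (le_sup_left.trans (le_IZ D Z))
    (IZ_le hZn.sub) hp.bA'
  obtain ⟨n', hn', -, hcl'⟩ := hp.cls
  let o := mkOb S D Z hZ hZn.sub hP hM (hN _ _ _ _) (hRST _ Y S D D.crd Z hZ)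
  have hat : ∀ z, o.At z := mkOb_at hBAS hFBK hHBD hBLK hD hZ hC hZn.sub hP hM _ _ (hF _ _ hpt) hp
    fun z => hX _ (hpt z)
  have hses := Ob.ses hat
  have hN' : o.N.IsBun ν := hν
  have hH' : o.H'.IsBun n' := hn'
  have hk : kc o.C (ν + n') = kc o.N ν + dualK _ (kc o.H' n') := by
    rw [kc_ses hses hN' hH'.dual, dualK_kc hH']
  let O : Obs D.Ix D.d :=
    { I := IZ D Z
      stab := IZ_stab hZ hP.stabI
      Z := Z
      hZ := hZ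
      mem := fun z => ⟨fun hz a ha => IZ_le hZn.sub ha z hz, fun h => by
        by_contra hz
        obtain ⟨a, h1, h2⟩ := hsep z hz
        exact h1 (h a h2)⟩
      C := ⟨o.C, ν + n', hses.isBun_mid hN' hH'.dual⟩
      θ := o.θ
      hom := o.θ_hom
      surj := fun z => (hat z).surj_θ }
  refine ⟨O, rfl, fun _ => Iff.rfl, fun W j hW => ?_⟩
  have e1 : O.C.cls = kc o.N ν + dualK _ (kc o.H' n') := (kc_bun O.C).symm.trans hk
  have e2 : kc o.N ν = dualK _ (∑ J, line (D.Pol.sub Z hZ) (D.dX J) - 1 -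
      kc ((D.crd.pull (Mor.incl _ Z hZ)).A' S) (D.r * (D.p D.m).toNat)) :=
    (dualK_dualK _).symm.trans (congrArg (dualK _) hcl)
  have e3 : kc o.H' n' = kc ((D.crd.pull (Mor.incl _ Z hZ)).A' S) (D.r * (D.p D.m).toNat) +
      (kc ((D.crd.pull (Mor.incl _ Z hZ)).H S) n -
        kc ((D.crd.pull (Mor.incl _ Z hZ)).A S) (Fintype.card D.Sx * (D.p D.m).toNat)) :=
    eq_add_of_sub_eq' hcl'
  have hpt' : ∀ z, D.Pt (((D.crd.pull (Mor.incl _ Z hZ)).pull j).cz z) := fun z =>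
    (congrArg D.Pt (cz_pull _ j z)).mpr (hpt (j.onPt z))
  have e4 := pull_cls hBAS hFBK hHB hBCH (D.crd.pull (Mor.incl _ Z hZ)) j n hW (hF _ _ hpt)
    (hF _ _ hpt') (hN _ _ _ j) (hH _ _ hpt) (hH _ _ hpt') (fun z => hX _ (hpt z)) hhd
  have e5 : ∀ a, pullK (O.inc.comp j) (line _ fun o => -o.elim 1 fun _ => D.d a) =
      pullK j (dualK (D.Pol.sub Z hZ) (line (D.Pol.sub Z hZ) (D.dX a))) := fun a =>
    (pullK_line _ _).trans ((congrArg (pullK j) (dualK_line _)).trans (pullK_line _ _)).symm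
  have e6 : D.crd.pull (O.inc.comp j) = (D.crd.pull (Mor.incl _ Z hZ)).pull j :=
    pull_pull D.crd (Mor.incl _ Z hZ) j
  rw [e6]
  exact fin_alg (Q := D.Pol.sub Z hZ) j e5 e1 e2 e3 e4

end Vale.Agent.P297Z.Qt
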