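import Vale.Agent.P297Z.Quot.Sk
import Vale.Agent.P297Z.Quot.Big

/-!
# P297: the points of the Quot space, general lemmas
-/

set_option linter.all false

open Filter Module

noncomputable section

namespace Vale.Agent.P297Z.Qt

namespace PtA

open Bg

/-- the relations are stable under the torus -/
theorem rel_tw {A B : Type} [CommRing A] {r : ℕ} {z : (Fin r → B) → A} (h : Plk.Rel z)
    (l : B → A) : Plk.Rel fun J => (∏ b, l (J b)) * z J := by
  classical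
  intro J J₁
  have h1 : ∀ c i, ∏ b, l (Function.update J c i b) =
      (∏ b ∈ Finset.univ.erase c, l (J b)) * l i := fun c i => by
    rw [← Finset.mul_prod_erase _ _ (Finset.mem_univ c), Function.update_self, mul_comm]
    congr 1
    exact Finset.prod_congr rfl fun b hb => by
      rw [Function.update_of_ne (Finset.ne_of_mem_erase hb)]
  have h2 : Plk.cols (Plk.vc (fun J => (∏ b, l (J b)) * z J) J) J₁ =
      Matrix.diagonal (fun c => ∏ b ∈ Finset.univ.erase c, l (J b)) * Plk.cols (Plk.vc z J) J₁ *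
        Matrix.diagonal fun b => l (J₁ b) := by
    ext c b
    rw [Matrix.mul_diagonal, Matrix.diagonal_mul]
    simp only [Plk.cols, Plk.vc, Matrix.of_apply, h1]
    ring
  have h3 : (∏ c, ∏ b ∈ Finset.univ.erase c, l (J b)) * ∏ b, l (J b) = (∏ b, l (J b)) ^ r := by
    rw [← Finset.prod_mul_distrib, Finset.prod_congr rfl fun c _ =>
      Finset.prod_erase_mul Finset.univ (fun b => l (J b)) (Finset.mem_univ c)]
    simp
  have h4 := h J J₁
  unfold Plk.plk at h4 ⊢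
  rw [h2, Matrix.det_mul, Matrix.det_mul, Matrix.det_diagonal, Matrix.det_diagonal, mul_pow, ← h3]
  linear_combination (∏ c, ∏ b ∈ Finset.univ.erase c, l (J b)) * (∏ b, l (J b)) *
    (∏ b, l (J₁ b)) * h4

/-- the vanishing of all the minors of size `n` -/
theorem det_iff {U : Type} [AddCommGroup U] [Module ℂ U] (A : Set U)
    [FiniteDimensional ℂ (Submodule.span ℂ A)] (n : ℕ) :
    (∀ v : Fin n → U, (∀ u, v u ∈ A) → ∀ φ : Fin n → U →ₗ[ℂ] ℂ,
      (Matrix.of fun u t => φ t (v u)).det = 0) ↔ finrank ℂ (Submodule.span ℂ A) < n := by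
  classical
  constructor
  · intro h
    by_contra hn
    obtain ⟨f, h1, -, h3⟩ := Submodule.exists_fun_fin_finrank_span_eq ℂ A
    have h4 := h3.comp _ (Fin.castLE_injective (not_lt.1 hn))
    obtain ⟨G, hG⟩ := (Fintype.linearCombination ℂ _).exists_leftInverse_of_injective
      (LinearMap.ker_eq_bot.2 h4.fintypeLinearCombination_injective)
    have h5 := h (f ∘ Fin.castLE (not_lt.1 hn)) (fun u => h1 _) fun t => LinearMap.proj t ∘ₗ G
    have h6 : (Matrix.of fun u t => (LinearMap.proj t ∘ₗ G : U →ₗ[ℂ] ℂ)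
        ((f ∘ Fin.castLE (not_lt.1 hn)) u)) = 1 := by
      ext u t
      have h7 := congrFun (LinearMap.congr_fun hG (Pi.single u 1)) t
      rw [LinearMap.comp_apply, Fintype.linearCombination_apply_single, one_smul] at h7
      rw [Matrix.of_apply, LinearMap.comp_apply, LinearMap.proj_apply, h7, LinearMap.id_apply,
        Matrix.one_apply, Pi.single_apply]
      simp only [eq_comm]
    rw [h6, Matrix.det_one] at h5
    exact one_ne_zero h5
  · intro h v hv φ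
    have h1 : ¬ LinearIndependent ℂ fun u => (⟨v u, Submodule.subset_span (hv u)⟩ :
        Submodule.span ℂ A) := fun hi => by
      have := hi.fintype_card_le_finrank
      rw [Fintype.card_fin] at this
      omega
    obtain ⟨c, h2, i, h3⟩ := Fintype.not_linearIndependent_iff.1 h1
    refine Matrix.exists_vecMul_eq_zero_iff.1 ⟨c, fun e => h3 (congrFun e i), funext fun t => ?_⟩
    have h4 := congrArg (fun x : Submodule.span ℂ A => φ t x) h2
    simpa [Matrix.vecMul, dotProduct] using h4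

variable {Y : Spc} {V : GMod Y} {N E : Submodule Y.R V.M} {m k : ℤ}

theorem pi_wt {ι : Type} [Fintype ι] {M : ι → GMod Y} {γ : Y.J → ℤ} {v : (GMod.pi M).M}
    (h : v ∈ (GMod.pi M).wt γ) (i : ι) : v i ∈ (M i).wt γ := fun g => congrFun (h g) i

theorem fr_wt {ι : Type} [Fintype ι] {a : (GMod.pi fun _ : ι => (GMod.one Y).shift (-dg Y m)).M}
    (h : a ∈ (GMod.pi fun _ : ι => (GMod.one Y).shift (-dg Y m)).wt (dg Y k)) (i : ι) :
    (show Y.R from a i) ∈ Y.wt (dg Y (k - m)) :=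
  mwt_eq (M := GMod.one Y) ((GMod.one Y).mem_shift_wt.1 (pi_wt h i))
    (funext fun _ => (sub_eq_add_neg k m).symm)

/-- the scaling of the summands -/
def sc {ι : Type} [Fintype ι] (M : ι → GMod Y) (κ : ι → ℂ) : (GMod.pi M).M →ₗ[ℂ] (GMod.pi M).M :=
  LinearMap.pi fun a => κ a • LinearMap.proj (R := ℂ) (φ := fun i => (M i).M) a

theorem sc_sgl {ι : Type} [Fintype ι] [DecidableEq ι] (M : ι → GMod Y) (κ : ι → ℂ) (a : ι)
    (ρ : Y.R) (e : (M a).M) : sc M κ (ρ • sgl M a e) = κ a • ρ • sgl M a e := funext fun j => by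
  change κ j • ρ • Pi.single (M := fun i => (M i).M) a e j =
    κ a • ρ • Pi.single (M := fun i => (M i).M) a e j
  by_cases h : j = a
  · rw [h]
  · rw [Pi.single_eq_of_ne h, smul_zero, smul_zero, smul_zero]

theorem hq_congr (h : N ≤ E) (h' : ∀ v ∈ V.wt (dg Y k), v ∈ E → v ∈ N) :
    hq V N k = hq V E k := by
  have : V.wt (dg Y k) ⊓ N.restrictScalars ℂ = V.wt (dg Y k) ⊓ E.restrictScalars ℂ :=
    le_antisymm (fun v hv => ⟨hv.1, h hv.2⟩) fun v hv => ⟨hv.1, h' v hv.1 hv.2⟩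
  rw [hq, hq, this]

theorem hq_mono [Module.Finite ℂ (V.wt (dg Y k))] (h : N ≤ E) : hq V E k ≤ hq V N k := by
  have h1 : V.wt (dg Y k) ⊓ N.restrictScalars ℂ ≤ V.wt (dg Y k) ⊓ E.restrictScalars ℂ :=
    fun v hv => ⟨hv.1, h hv.2⟩
  haveI := Submodule.finiteDimensional_inf_left (V.wt (dg Y k)) (E.restrictScalars ℂ)
  have h2 := Submodule.finrank_mono h1
  rw [hq, hq]
  omega

theorem mem_of_hq [Module.Finite ℂ (V.wt (dg Y k))] (h : N ≤ E) (e : hq V N k = hq V E k) :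
    ∀ v ∈ V.wt (dg Y k), v ∈ E → v ∈ N := by
  have h1 : V.wt (dg Y k) ⊓ N.restrictScalars ℂ ≤ V.wt (dg Y k) ⊓ E.restrictScalars ℂ :=
    fun v hv => ⟨hv.1, h hv.2⟩
  haveI := Submodule.finiteDimensional_inf_left (V.wt (dg Y k)) (E.restrictScalars ℂ)
  have h2 := Submodule.eq_of_le_of_finrank_eq h1 (by rw [hq, hq] at e; omega)
  intro v hv hE
  have h3 : v ∈ V.wt (dg Y k) ⊓ E.restrictScalars ℂ := ⟨hv, hE⟩
  rw [← h2] at h3
  exact h3.2

theorem gen_ind {x : Fin 3 → Y.R} (h0 : ∀ v ∈ V.wt (dg Y m), v ∈ E → v ∈ N)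
    (h1 : ∀ k, m ≤ k → ∀ v ∈ V.wt (dg Y (k + 1)), v ∈ E →
      ∃ w : Fin 3 → V.M, (∀ i, w i ∈ V.wt (dg Y k) ∧ w i ∈ E) ∧ k3 x V.M w = v) :
    ∀ k, m ≤ k → ∀ v ∈ V.wt (dg Y k), v ∈ E → v ∈ N := by
  intro k hk
  induction k, hk using Int.le_induction with
  | base => exact h0
  | succ k hk ih =>
    intro v hv hE
    obtain ⟨w, h2, rfl⟩ := h1 k hk v hv hE
    rw [k3_apply]
    exact N.sum_mem fun i _ => N.smul_mem _ (ih _ (h2 i).1 (h2 i).2)

theorem pair_tr (hN : V.Stab N) (hE : V.Stab E) (h : N ≤ E)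
    (h' : ∀ k, m ≤ k → ∀ v ∈ V.wt (dg Y k), v ∈ E → v ∈ N) {h₀ h₁ : Y.R}
    (w₀ : h₀ ∈ Y.wt (dg Y 1)) (w₁ : h₁ ∈ Y.wt (dg Y 1)) (P : Pair (V.quo E hE) m h₀ h₁) :
    Pair (V.quo N hN) m h₀ h₁ := by
  have hw : ∀ {γ} {a : V.M}, a ∈ V.wt γ → qm V E hE a ∈ (V.quo E hE).wt γ :=
    fun ha => (qm_hom E hE).map_wt ha
  have hw' : ∀ {γ} {a : V.M}, a ∈ V.wt γ → qm V N hN a ∈ (V.quo N hN).wt γ :=
    fun ha => (qm_hom N hN).map_wt ha
  refine ⟨fun k hk v hv e => ?_, fun k hk v hv u hu e => ?_, fun k hk v hv => ?_⟩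
  · obtain ⟨a, ha, rfl⟩ := qm_lift hv
    rw [← map_smul, qm_zero] at e
    refine qm_zero.2 (h' k hk a ha (qm_zero.1 (P.inj k hk _ (hw ha) ?_)))
    rw [← map_smul, qm_zero]
    exact h e
  · obtain ⟨a, ha, rfl⟩ := qm_lift hv
    obtain ⟨b, hb, rfl⟩ := qm_lift hu
    rw [← map_smul, ← map_smul, ← sub_eq_zero, ← map_sub, qm_zero] at e
    obtain ⟨c, hc, e'⟩ := P.reg k hk _ (hw ha) _ (hw hb) (by
      rw [← map_smul, ← map_smul, ← sub_eq_zero, ← map_sub, qm_zero]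
      exact h e)
    obtain ⟨c, hc', rfl⟩ := qm_lift hc
    refine ⟨_, hw' hc', ?_⟩
    rw [← map_smul, ← sub_eq_zero, ← map_sub, qm_zero] at e' ⊢
    exact h' (k + 1) (by omega) _ (sub_mem ha (sm_wt w₀ hc')) e'
  · obtain ⟨a, ha, rfl⟩ := qm_lift hv
    obtain ⟨b, hb, c, hc, e⟩ := P.surj k hk _ (hw ha)
    obtain ⟨b, hb', rfl⟩ := qm_lift hb
    obtain ⟨c, hc', rfl⟩ := qm_lift hc
    refine ⟨_, hw' hb', _, hw' hc', ?_⟩
    rw [← map_smul, ← map_smul, ← map_add, ← sub_eq_zero, ← map_sub, qm_zero] at e ⊢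
    refine h' (k + 2) (by omega) _ (sub_mem ha (mwt_eq (add_mem (sm_wt w₀ hb') (sm_wt w₁ hc'))
      ?_)) e
    rw [add_assoc]
    rfl

theorem tor_of_pair (S : Sur Y) {F : GMod Y} {h₀ h₁ : Y.R} (w₀ : h₀ ∈ S.lin) (w₁ : h₁ ∈ S.lin)
    (P : Pair F m h₀ h₁) : ∃ y : Y.Pt, ZeroAt y.1 F.M := by
  obtain ⟨y, y₀, y₁⟩ := S.two h₀ w₀ h₁ w₁
  obtain ⟨i, hi⟩ := (S.pts y.1).1 y.2
  refine ⟨y, zeroAt_iff_fib.2 fun x => ?_⟩
  obtain ⟨v, rfl⟩ := fib_surj x
  refine F.induction (P := fun v => (Submodule.Quotient.mk v : Fib y.1 F.M) = 0) rfl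
    (fun γ v hv => ?_) (fun a b ha hb => by rw [Submodule.Quotient.mk_add, ha, hb, add_zero]) v
  rw [S.eq_dg γ] at hv
  generalize γ S.uniq.default = j at hv
  have h1 : ∀ n : ℕ, S.x i ^ n • v ∈ F.wt (dg Y (j + n)) := fun n =>
    mwt_eq (GMod.smul_mem_wt (Spc.pow_mem (S.x_wt i) n) hv) (funext fun _ => by
      simp [dg, add_comm])
  obtain ⟨n, hn⟩ : ∃ n : ℕ, m ≤ j + n - 2 := ⟨(m - j + 2).toNat, by omega⟩
  obtain ⟨u, -, u', -, e⟩ := P.surj _ hn _ (mwt_eq (h1 n) (by rw [sub_add_cancel]))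
  refine fib_eq_zero (ev_pow hi n) ?_
  rw [← Submodule.Quotient.mk_smul, e, Submodule.Quotient.mk_add, Submodule.Quotient.mk_smul,
    Submodule.Quotient.mk_smul, fib_ker_smul y₀, fib_ker_smul y₁, add_zero]

end PtA

end Vale.Agent.P297Z.Qt
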