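import Vale.Agent.P297Z.Quot.Defs
import Vale.Agent.P297Z.Surf.SspA2

/-!
# P297: the surface satisfies the hypotheses of the construction of the Quot space
-/

namespace Vale.Agent.P297Z.Qt

/-- the space of a surface has the structure that is used -/
def SUR : Prop := Sf.ForAll fun S => ∀ h : S.All, ∃ T : Sur (S.spc h), T.x = Sf.SA.xl S

end Vale.Agent.P297Z.Qt
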